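import Vale.Agent.P057.MathlibUsed

set_option linter.all false

section

section

open Finset

namespace Vale.Agent.P057

variable {G : Type*} [AddCommGroup G] [Fintype G] [DecidableEq G]

/-- indicator function of a finset -/
def ind (A : Finset G) (x : G) : ℝ := if x ∈ A then 1 else 0

/-- autocorrelation of a real function: sum over x of f x times f (x+z) -/
def corr (f : G → ℝ) (z : G) : ℝ := ∑ x, f x * f (x + z)

/-- self-convolution of a real function -/
def conv (f : G → ℝ) (z : G) : ℝ := ∑ x, f x * f (z - x)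

/-- Bohr set with frequency set `Γ` and radius `ρ` -/
noncomputable def bohr (Γ : Finset (AddChar G ℂ)) (ρ : ℝ) : Finset G :=
  univ.filter (fun x => ∀ γ ∈ Γ, ‖γ x - 1‖ ≤ ρ)

/-- the regularity scale -/
noncomputable def kap (d : ℕ) : ℝ := 1 / (80000 * ((d : ℝ) + 1))

/-- regularity of a radius -/
def Regular (Γ : Finset (AddChar G ℂ)) (d : ℕ) (ρ : ℝ) : Prop :=
  ((bohr Γ (ρ + kap d * ρ)).card : ℝ) ≤ (1 + 1/2000) * ((bohr Γ (ρ - kap d * ρ)).card : ℝ)

end Vale.Agent.P057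
end
end

section

section

open Finset

namespace Vale.Agent.P057

variable {G : Type*} [AddCommGroup G] [Fintype G] [DecidableEq G]

lemma bohrBasic_mem {Γ : Finset (AddChar G ℂ)} {ρ : ℝ} {x : G} :
    x ∈ bohr Γ ρ ↔ ∀ γ ∈ Γ, ‖γ x - 1‖ ≤ ρ := by
  simp only [bohr, mem_filter, mem_univ, true_and]

lemma bohrBasic_norm_char (γ : AddChar G ℂ) (x : G) : ‖γ x‖ = 1 := AddChar.norm_apply γ x

lemma bohrBasic_norm_char_sub (γ : AddChar G ℂ) (x y : G) :
    ‖γ (x - y) - 1‖ = ‖γ x - γ y‖ := by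
  have h : γ x - γ y = (γ (x - y) - 1) * γ y := by
    rw [sub_mul, one_mul, ← AddChar.map_add_eq_mul, sub_add_cancel]
  rw [h, norm_mul, bohrBasic_norm_char, mul_one]

theorem zero_mem_bohr (Γ : Finset (AddChar G ℂ)) {ρ : ℝ} (hρ : 0 ≤ ρ) : (0 : G) ∈ bohr Γ ρ := by
  rw [bohrBasic_mem]; intro γ _; simpa only [AddChar.map_zero_eq_one, sub_self, norm_zero] using hρ

theorem neg_mem_bohr {Γ : Finset (AddChar G ℂ)} {ρ : ℝ} {x : G} (hx : x ∈ bohr Γ ρ) :
    -x ∈ bohr Γ ρ := by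
  rw [bohrBasic_mem] at hx ⊢
  intro γ hγ
  have h1 := bohrBasic_norm_char_sub γ 0 x
  rw [zero_sub] at h1
  rw [h1, AddChar.map_zero_eq_one, norm_sub_rev]
  exact hx γ hγ

theorem add_mem_bohr {Γ : Finset (AddChar G ℂ)} {ρ σ : ℝ} {x y : G} (hx : x ∈ bohr Γ ρ)
    (hy : y ∈ bohr Γ σ) : x + y ∈ bohr Γ (ρ + σ) := by
  rw [bohrBasic_mem] at hx hy ⊢
  intro γ hγ
  have h : γ (x + y) - 1 = (γ x - 1) * γ y + (γ y - 1) := by
    rw [AddChar.map_add_eq_mul]; ring
  rw [h]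
  calc ‖(γ x - 1) * γ y + (γ y - 1)‖ ≤ ‖(γ x - 1) * γ y‖ + ‖γ y - 1‖ := norm_add_le _ _
    _ = ‖γ x - 1‖ + ‖γ y - 1‖ := by rw [norm_mul, bohrBasic_norm_char, mul_one]
    _ ≤ ρ + σ := add_le_add (hx γ hγ) (hy γ hγ)

theorem sub_mem_bohr {Γ : Finset (AddChar G ℂ)} {ρ σ : ℝ} {x y : G} (hx : x ∈ bohr Γ ρ)
    (hy : y ∈ bohr Γ σ) : x - y ∈ bohr Γ (ρ + σ) := by
  rw [sub_eq_add_neg]; exact add_mem_bohr hx (neg_mem_bohr hy)

theorem bohr_mono (Γ : Finset (AddChar G ℂ)) {ρ σ : ℝ} (h : ρ ≤ σ) : bohr Γ ρ ⊆ bohr Γ σ := by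
  intro x hx
  rw [bohrBasic_mem] at hx ⊢
  exact fun γ hγ => (hx γ hγ).trans h

theorem bohr_two (Γ : Finset (AddChar G ℂ)) : bohr Γ 2 = (univ : Finset G) := by
  ext x
  rw [bohrBasic_mem]
  simp only [mem_univ, iff_true]
  intro γ _
  calc ‖γ x - 1‖ ≤ ‖γ x‖ + ‖(1 : ℂ)‖ := norm_sub_le _ _
    _ = 2 := by rw [bohrBasic_norm_char]; norm_num
    _ ≤ 2 := le_refl _

/-- Covering / pigeonhole bound: shrinking the radius by a factor `π / M` loses at most
a factor `M ^ |Γ|` in size. -/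
lemma bohrBasic_card_le_pow_mul (Γ : Finset (AddChar G ℂ)) {r : ℝ} (hr : 0 < r) {M : ℕ}
    (hM : 0 < M) :
    (bohr Γ r).card ≤ M ^ Γ.card * (bohr Γ (Real.pi * r / M)).card := by
  classical
  have hpi := Real.pi_pos
  -- cell index
  set L : ℝ := Real.pi * r / M with hL
  have hMr : (0:ℝ) < M := by exact_mod_cast hM
  have hLpos : 0 < L := by rw [hL]; positivity
  let idx : G → (Γ → Fin M) := fun x γ =>
    ⟨min (⌊((γ.1 x).arg + Real.pi * r / 2) / L⌋₊) (M - 1), by omega⟩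
  have hmaps : ∀ x ∈ bohr Γ r, idx x ∈ (Finset.univ : Finset (Γ → Fin M)) := fun _ _ =>
    Finset.mem_univ _
  have hfib : ∀ y ∈ (Finset.univ : Finset (Γ → Fin M)),
      ((bohr Γ r).filter (fun x => idx x = y)).card ≤ (bohr Γ L).card := by
    intro y _
    rcases ((bohr Γ r).filter (fun x => idx x = y)).eq_empty_or_nonempty with h | ⟨x0, hx0⟩
    · rw [h]; simp
    · apply Finset.card_le_card_of_injOn (fun x => x - x0)
      · intro x hx
        rw [Finset.mem_coe, Finset.mem_filter] at hx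
        rw [Finset.mem_filter] at hx0
        rw [Finset.mem_coe, bohrBasic_mem]
        intro γ hγ
        rw [bohrBasic_norm_char_sub]
        have hx1 := (bohrBasic_mem.mp hx.1) γ hγ
        have hx2 := (bohrBasic_mem.mp hx0.1) γ hγ
        have hidx : idx x ⟨γ, hγ⟩ = idx x0 ⟨γ, hγ⟩ := by rw [hx.2, hx0.2]
        have hidx' : min (⌊((γ x).arg + Real.pi * r / 2) / L⌋₊) (M - 1)
            = min (⌊((γ x0).arg + Real.pi * r / 2) / L⌋₊) (M - 1) := by
          have := congrArg Fin.val hidx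
          simpa only using this
        -- bound on arguments
        have harg : ∀ z : ℂ, ‖z‖ = 1 → ‖z - 1‖ ≤ r → |z.arg| ≤ Real.pi * r / 2 := by
          intro z hz hzr
          have h1 := Complex.mul_angle_le_norm_sub hz (norm_one (α := ℂ))
          have h2 : InnerProductGeometry.angle z 1 = |z.arg| := by
            rw [Complex.angle_eq_abs_arg (by intro h; rw [h] at hz; simp at hz) one_ne_zero,
              div_one]
          rw [h2] at h1
          have h3 : 2 / Real.pi * |z.arg| ≤ r := h1.trans hzr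
          have h4 : |z.arg| = (Real.pi / 2) * (2 / Real.pi * |z.arg|) := by (clear * -; field_simp)
          rw [h4]
          calc (Real.pi / 2) * (2 / Real.pi * |z.arg|) ≤ (Real.pi / 2) * r := by (clear * - h3; gcongr)
            _ = Real.pi * r / 2 := by ring
        have ha := harg (γ x) (bohrBasic_norm_char γ x) hx1
        have hb := harg (γ x0) (bohrBasic_norm_char γ x0) hx2
        set a := (γ x).arg
        set b := (γ x0).arg
        have habs : |a - b| ≤ L := by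
          rw [abs_le] at ha hb
          have hML : Real.pi * r = M * L := by rw [hL]; field_simp
          -- positions in units of L
          set u := (a + Real.pi * r / 2) / L with hu
          set v := (b + Real.pi * r / 2) / L with hv
          have hu0 : 0 ≤ u := by rw [hu]; apply div_nonneg _ hLpos.le; linarith only [ha]
          have hv0 : 0 ≤ v := by rw [hv]; apply div_nonneg _ hLpos.le; linarith only [hb]
          have huM : u ≤ M := by
            rw [hu, div_le_iff₀ hLpos]; linarith only [ha, hML]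
          have hvM : v ≤ M := by
            rw [hv, div_le_iff₀ hLpos]; linarith only [hb, hML]
          have huv : |u - v| ≤ 1 := by
            have key : ∀ p q : ℝ, 0 ≤ p → 0 ≤ q → p ≤ M → q ≤ M →
                min ⌊p⌋₊ (M-1) = min ⌊q⌋₊ (M-1) → p - q ≤ 1 := by
              intro p q hp hq hpM hqM h
              by_cases hqf : ⌊q⌋₊ ≤ M - 1
              · rw [min_eq_left hqf] at h
                by_cases hpf : ⌊p⌋₊ ≤ M - 1
                · rw [min_eq_left hpf] at h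
                  have h1 := Nat.lt_floor_add_one p
                  have h2 := Nat.floor_le hq
                  rw [h] at h1
                  linarith only [h1, h2]
                · rw [min_eq_right (by omega)] at h
                  have h2 := Nat.floor_le hq
                  rw [← h] at h2
                  have h3 : ((M - 1 : ℕ) : ℝ) = (M : ℝ) - 1 := by
                    rw [Nat.cast_sub hM]; simp
                  rw [h3] at h2
                  linarith only [hpM, h2]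
              · have h2 := Nat.floor_le hq
                have h3 : (M : ℝ) ≤ (⌊q⌋₊ : ℝ) := by exact_mod_cast (by omega : M ≤ ⌊q⌋₊)
                linarith only [hpM, h2, h3]
            rw [abs_le]
            constructor
            · have := key v u hv0 hu0 hvM huM hidx'.symm
              linarith only [this]
            · exact key u v hu0 hv0 huM hvM hidx'
          have hab : a - b = (u - v) * L := by
            rw [hu, hv]; field_simp; ring
          rw [hab, abs_mul, abs_of_pos hLpos]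
          calc |u - v| * L ≤ 1 * L := by gcongr
            _ = L := one_mul _
        -- conclude
        have hzx : γ x = Complex.exp (a * Complex.I) := by
          have := Complex.norm_mul_exp_arg_mul_I (γ x)
          rw [bohrBasic_norm_char] at this
          simpa using this.symm
        have hzy : γ x0 = Complex.exp (b * Complex.I) := by
          have := Complex.norm_mul_exp_arg_mul_I (γ x0)
          rw [bohrBasic_norm_char] at this
          simpa using this.symm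
        have h5 : γ x - γ x0 = (Complex.exp (Complex.I * ((a - b : ℝ) : ℂ)) - 1) * γ x0 := by
          rw [sub_mul, one_mul, hzx, hzy, ← Complex.exp_add]
          congr 2
          push_cast; ring
        rw [h5, norm_mul, bohrBasic_norm_char, mul_one]
        exact (Real.norm_exp_I_mul_ofReal_sub_one_le).trans (by simpa using habs)
      · intro x _ y _ hxy
        simpa using hxy
  have hcount := Finset.card_le_mul_card_image_of_maps_to hmaps _ hfib
  simpa only [ge_iff_le, card_univ, Fintype.card_pi, univ_eq_attach, Fintype.card_fin, prod_const, card_attach,     mul_comm] using hcount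

theorem bohr_double (Γ : Finset (AddChar G ℂ)) {ρ : ℝ} (hρ : 0 < ρ) :
    ((bohr Γ (2 * ρ)).card : ℝ) ≤ 81 ^ Γ.card * ((bohr Γ ρ).card : ℝ) := by
  have h1 := bohrBasic_card_le_pow_mul Γ (r := 2 * ρ) (by linarith only [hρ]) (M := 7) (by norm_num)
  have h2 : (bohr Γ (Real.pi * (2 * ρ) / (7 : ℕ))).card ≤ (bohr Γ ρ).card := by
    apply Finset.card_le_card
    apply bohr_mono
    have hpi := Real.pi_lt_d2
    push_cast
    rw [div_le_iff₀ (by norm_num)]
    nlinarith only [hρ, hpi]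
  have h3 : (bohr Γ (2 * ρ)).card ≤ 81 ^ Γ.card * (bohr Γ ρ).card := by
    calc (bohr Γ (2 * ρ)).card ≤ 7 ^ Γ.card * (bohr Γ (Real.pi * (2 * ρ) / (7 : ℕ))).card := h1
      _ ≤ 81 ^ Γ.card * (bohr Γ ρ).card :=
        Nat.mul_le_mul (Nat.pow_le_pow_left (by norm_num) _) h2
  exact_mod_cast h3

theorem bohr_card_lower (Γ : Finset (AddChar G ℂ)) (k : ℕ) :
    (Fintype.card G : ℝ) ≤ 81 ^ (Γ.card * k) * ((bohr Γ (2 / 2 ^ k)).card : ℝ) := by
  induction k with
  | zero => simp only [mul_zero, pow_zero, div_one, bohr_two, card_univ, one_mul, Std.le_refl]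
  | succ k ih =>
    have h1 := bohr_double Γ (ρ := 2 / 2 ^ (k+1)) (by positivity)
    have h2 : (2:ℝ) * (2 / 2 ^ (k+1)) = 2 / 2 ^ k := by
      rw [pow_succ]; field_simp
    rw [h2] at h1
    calc (Fintype.card G : ℝ) ≤ 81 ^ (Γ.card * k) * ((bohr Γ (2 / 2 ^ k)).card : ℝ) := ih
      _ ≤ 81 ^ (Γ.card * k) * (81 ^ Γ.card * ((bohr Γ (2 / 2 ^ (k+1))).card : ℝ)) := by gcongr
      _ = 81 ^ (Γ.card * (k+1)) * ((bohr Γ (2 / 2 ^ (k+1))).card : ℝ) := by
        rw [Nat.mul_succ, pow_add]; ring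

end Vale.Agent.P057
end
end

section

section

open Finset

namespace Vale.Agent.P057

variable {G : Type*} [AddCommGroup G] [Fintype G] [DecidableEq G]

theorem bohrReg_kap_pos (d : ℕ) : 0 < kap d := by
  unfold kap
  positivity

theorem bohrReg_kap_anti {d d' : ℕ} (h : d ≤ d') : kap d' ≤ kap d := by
  unfold kap
  have h1 : (d : ℝ) ≤ d' := by exact_mod_cast h
  have h0 : (0 : ℝ) ≤ d := Nat.cast_nonneg d
  apply one_div_le_one_div_of_le (by positivity)
  linarith only [h1]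

theorem bohrReg_pow_gt (d : ℕ) : (81 : ℝ) ^ d < (1 + 1 / 2000 : ℝ) ^ (20000 * (d + 1)) := by
  have h1 : (2 : ℝ) ≤ (1 + 1 / 2000 : ℝ) ^ 2000 := by
    have h := one_add_mul_le_pow (show (-2 : ℝ) ≤ 1 / 2000 by norm_num) 2000
    refine le_trans (le_of_eq ?_) h
    norm_num
  have h2 : ((1 + 1 / 2000 : ℝ) ^ 2000) ^ (10 * (d + 1)) = (1 + 1 / 2000 : ℝ) ^ (20000 * (d + 1)) := by
    rw [← pow_mul]
    congr 1
    ring
  rw [← h2]
  have h3 : (2 : ℝ) ^ (10 * (d + 1)) ≤ ((1 + 1 / 2000 : ℝ) ^ 2000) ^ (10 * (d + 1)) :=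
    pow_le_pow_left₀ (by norm_num) h1 _
  refine lt_of_lt_of_le ?_ h3
  rw [pow_mul]
  calc (81 : ℝ) ^ d ≤ (2 ^ 10 : ℝ) ^ d := pow_le_pow_left₀ (by norm_num) (by norm_num) _
    _ < (2 ^ 10 : ℝ) ^ (d + 1) := pow_lt_pow_right₀ (by norm_num) (Nat.lt_succ_self d)

theorem exists_regular (Γ : Finset (AddChar G ℂ)) (d : ℕ) (hd : Γ.card ≤ d) {ρ : ℝ} (hρ : 0 < ρ) :
    ∃ ρ', ρ / 2 ≤ ρ' ∧ ρ' ≤ ρ ∧ Regular Γ d ρ' := by
  by_contra hcon
  push Not at hcon
  have hk : 0 < kap d := bohrReg_kap_pos d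
  set k := kap d with hkdef
  have hJk : ((20000 * (d + 1) : ℕ) : ℝ) * k = 1 / 4 := by
    rw [hkdef]
    unfold kap
    push_cast
    field_simp
    norm_num
  have hstep : ∀ i : ℕ, i ≤ 20000 * (d + 1) →
      (1 + 1 / 2000 : ℝ) ^ i * ((bohr Γ (ρ / 2)).card : ℝ) ≤
        ((bohr Γ (ρ / 2 + 2 * i * k * ρ)).card : ℝ) := by
    intro i
    induction i with
    | zero => intro _; simp
    | succ i ih =>
      intro hi
      have ih' := ih (by omega)
      have hiJ : ((i : ℝ) + 1) * k ≤ 1 / 4 := by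
        rw [← hJk]
        have : ((i : ℝ) + 1) ≤ ((20000 * (d + 1) : ℕ) : ℝ) := by exact_mod_cast hi
        exact mul_le_mul_of_nonneg_right this hk.le
      have hik : 0 ≤ (i : ℝ) * k := by (clear * - hk; positivity)
      have hc1 : ρ / 2 ≤ ρ / 2 + (2 * i + 1) * k * ρ := by
        have : 0 ≤ (2 * (i : ℝ) + 1) * k * ρ := by positivity
        linarith only [this]
      have hc2 : ρ / 2 + (2 * i + 1) * k * ρ ≤ ρ := by
        have : (2 * (i : ℝ) + 1) * k ≤ 1 / 2 := by nlinarith only [hiJ]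
        nlinarith only [hρ, hk, hiJ]
      have hnr := hcon _ hc1 hc2
      unfold Regular at hnr
      push Not at hnr
      rw [← hkdef] at hnr
      set c := ρ / 2 + (2 * i + 1) * k * ρ with hc
      have hkc : k * c ≤ k * ρ := mul_le_mul_of_nonneg_left hc2 hk.le
      have hsub1 : bohr Γ (c + k * c) ⊆ bohr Γ (ρ / 2 + 2 * ((i : ℝ) + 1) * k * ρ) := by
        apply bohr_mono
        rw [hc]
        rw [hc] at hkc
        nlinarith only [hkc]
      have hsub2 : bohr Γ (ρ / 2 + 2 * (i : ℝ) * k * ρ) ⊆ bohr Γ (c - k * c) := by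
        apply bohr_mono
        rw [hc]
        rw [hc] at hkc
        nlinarith only [hkc]
      have h1 : ((bohr Γ (c + k * c)).card : ℝ) ≤
          ((bohr Γ (ρ / 2 + 2 * ((i : ℝ) + 1) * k * ρ)).card : ℝ) := by
        exact_mod_cast card_le_card hsub1
      have h2 : ((bohr Γ (ρ / 2 + 2 * (i : ℝ) * k * ρ)).card : ℝ) ≤
          ((bohr Γ (c - k * c)).card : ℝ) := by
        exact_mod_cast card_le_card hsub2
      push_cast
      rw [pow_succ]
      calc (1 + 1 / 2000 : ℝ) ^ i * (1 + 1 / 2000) * ((bohr Γ (ρ / 2)).card : ℝ)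
          = (1 + 1 / 2000) * ((1 + 1 / 2000 : ℝ) ^ i * ((bohr Γ (ρ / 2)).card : ℝ)) := by ring
        _ ≤ (1 + 1 / 2000) * ((bohr Γ (ρ / 2 + 2 * (i : ℝ) * k * ρ)).card : ℝ) := by (clear * - ih'; gcongr)
        _ ≤ (1 + 1 / 2000) * ((bohr Γ (c - k * c)).card : ℝ) := by (clear * - h2; gcongr)
        _ ≤ ((bohr Γ (c + k * c)).card : ℝ) := hnr.le
        _ ≤ _ := h1
  have hJ := hstep (20000 * (d + 1)) le_rfl
  have hend : ρ / 2 + 2 * ((20000 * (d + 1) : ℕ) : ℝ) * k * ρ = 2 * (ρ / 2) := by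
    have : 2 * ((20000 * (d + 1) : ℕ) : ℝ) * k * ρ = 2 * (((20000 * (d + 1) : ℕ) : ℝ) * k) * ρ := by
      ring
    rw [this, hJk]
    ring
  rw [hend] at hJ
  have hdbl := bohr_double Γ (show 0 < ρ / 2 by positivity)
  have hpos : (0 : ℝ) < ((bohr Γ (ρ / 2)).card : ℝ) := by
    have : 0 < (bohr Γ (ρ / 2)).card :=
      card_pos.mpr ⟨0, zero_mem_bohr Γ (by positivity)⟩
    exact_mod_cast this
  have hlt : (81 : ℝ) ^ Γ.card < (1 + 1 / 2000 : ℝ) ^ (20000 * (d + 1)) := by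
    refine lt_of_le_of_lt ?_ (bohrReg_pow_gt d)
    exact pow_le_pow_right₀ (by norm_num) hd
  exact absurd (hJ.trans hdbl) (not_le.mpr (mul_lt_mul_of_pos_right hlt hpos))

theorem regular_mono {Γ : Finset (AddChar G ℂ)} {d d' : ℕ} (h : d ≤ d') {ρ : ℝ} (hρ : 0 < ρ)
    (hr : Regular Γ d ρ) : Regular Γ d' ρ := by
  unfold Regular at hr ⊢
  have hk := bohrReg_kap_anti h
  have hkρ : kap d' * ρ ≤ kap d * ρ := mul_le_mul_of_nonneg_right hk hρ.le
  have h1 : ((bohr Γ (ρ + kap d' * ρ)).card : ℝ) ≤ ((bohr Γ (ρ + kap d * ρ)).card : ℝ) := by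
    exact_mod_cast card_le_card (bohr_mono Γ (by linarith only [hkρ]))
  have h2 : ((bohr Γ (ρ - kap d * ρ)).card : ℝ) ≤ ((bohr Γ (ρ - kap d' * ρ)).card : ℝ) := by
    exact_mod_cast card_le_card (bohr_mono Γ (by linarith only [hkρ]))
  calc ((bohr Γ (ρ + kap d' * ρ)).card : ℝ) ≤ ((bohr Γ (ρ + kap d * ρ)).card : ℝ) := h1
    _ ≤ (1 + 1/2000) * ((bohr Γ (ρ - kap d * ρ)).card : ℝ) := hr
    _ ≤ (1 + 1/2000) * ((bohr Γ (ρ - kap d' * ρ)).card : ℝ) := by gcongr

/-- the sum of a character over a set and over a translate of that set -/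
theorem bohrReg_shift_diff (χ : AddChar G ℂ) (E : Finset G) (y : G) :
    ‖(χ y - 1) * ∑ x ∈ E, χ x‖ ≤ 2 * (((E.image (fun x => x + y)) \ E).card : ℝ) := by
  set F := E.image (fun x => x + y) with hF
  have hFsum : ∑ x ∈ F, χ x = χ y * ∑ x ∈ E, χ x := by
    rw [hF, sum_image (fun a _ b _ hab => add_right_cancel hab), mul_sum]
    refine sum_congr rfl fun x _ => ?_
    rw [AddChar.map_add_eq_mul, mul_comm]
  have hcard : F.card = E.card := card_image_of_injective _ (add_left_injective y)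
  have hsd : (E \ F).card = (F \ E).card := (card_sdiff_comm hcard).symm
  have hdiff : (χ y - 1) * ∑ x ∈ E, χ x = ∑ x ∈ F \ E, χ x - ∑ x ∈ E \ F, χ x := by
    have h1 := sum_inter_add_sum_sdiff F E (fun x => χ x)
    have h2 := sum_inter_add_sum_sdiff E F (fun x => χ x)
    rw [inter_comm] at h2
    rw [sub_mul, one_mul, ← hFsum, ← h1, ← h2]
    ring
  rw [hdiff]
  have hb : ∀ S : Finset G, ‖∑ x ∈ S, χ x‖ ≤ (S.card : ℝ) := by
    intro S
    refine (norm_sum_le _ _).trans ?_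
    simp only [AddChar.norm_apply, sum_const, nsmul_eq_mul, mul_one, Std.le_refl]
  calc ‖∑ x ∈ F \ E, χ x - ∑ x ∈ E \ F, χ x‖ ≤ ‖∑ x ∈ F \ E, χ x‖ + ‖∑ x ∈ E \ F, χ x‖ :=
        norm_sub_le _ _
    _ ≤ ((F \ E).card : ℝ) + ((E \ F).card : ℝ) := add_le_add (hb _) (hb _)
    _ = 2 * ((F \ E).card : ℝ) := by rw [hsd]; ring

/-- characters with large average on a regular Bohr set are nearly 1 on narrower Bohr sets -/
theorem large_char_on_regular {Γ : Finset (AddChar G ℂ)} {d : ℕ} {ρ : ℝ} (hρ : 0 < ρ)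
    (hr : Regular Γ d ρ) (χ : AddChar G ℂ)
    (hχ : ((bohr Γ ρ).card : ℝ) / 2 ≤ ‖∑ x ∈ bohr Γ ρ, χ x‖) {y : G}
    (hy : y ∈ bohr Γ (kap d * ρ)) : ‖χ y - 1‖ ≤ 4/2000 := by
  have hk : 0 < kap d := bohrReg_kap_pos d
  have hkρ : 0 < kap d * ρ := mul_pos hk hρ
  set E := bohr Γ ρ with hE
  have hEpos : (0 : ℝ) < (E.card : ℝ) := by
    have : 0 < E.card := card_pos.mpr ⟨0, zero_mem_bohr Γ hρ.le⟩
    exact_mod_cast this
  have h1 := bohrReg_shift_diff χ E y
  have hsub : (E.image (fun x => x + y)) \ E ⊆ bohr Γ (ρ + kap d * ρ) \ E := by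
    apply sdiff_subset_sdiff _ (Subset.refl _)
    intro z hz
    obtain ⟨x, hx, rfl⟩ := mem_image.mp hz
    exact add_mem_bohr hx hy
  have h2 : (((E.image (fun x => x + y)) \ E).card : ℝ) ≤
      ((bohr Γ (ρ + kap d * ρ)).card : ℝ) - (E.card : ℝ) := by
    have h3 : ((E.image (fun x => x + y)) \ E).card ≤ (bohr Γ (ρ + kap d * ρ) \ E).card :=
      card_le_card hsub
    have h4 : (bohr Γ (ρ + kap d * ρ) \ E).card + E.card = (bohr Γ (ρ + kap d * ρ)).card :=
      card_sdiff_add_card_eq_card (bohr_mono Γ (by linarith only [hkρ]))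
    have h5 : ((bohr Γ (ρ + kap d * ρ) \ E).card : ℝ) + (E.card : ℝ) =
        ((bohr Γ (ρ + kap d * ρ)).card : ℝ) := by exact_mod_cast h4
    have h6 : (((E.image (fun x => x + y)) \ E).card : ℝ) ≤
        ((bohr Γ (ρ + kap d * ρ) \ E).card : ℝ) := by exact_mod_cast h3
    linarith only [h5, h6]
  have h7 : ((bohr Γ (ρ - kap d * ρ)).card : ℝ) ≤ (E.card : ℝ) := by
    exact_mod_cast card_le_card (bohr_mono Γ (by linarith only [hkρ]))
  unfold Regular at hr
  rw [norm_mul] at h1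
  have h8 : ‖χ y - 1‖ * ((E.card : ℝ) / 2) ≤ 2 / 2000 * (E.card : ℝ) := by
    calc ‖χ y - 1‖ * ((E.card : ℝ) / 2) ≤ ‖χ y - 1‖ * ‖∑ x ∈ E, χ x‖ := by (clear * - hχ; gcongr)
      _ ≤ _ := h1
      _ ≤ 2 / 2000 * (E.card : ℝ) := by linarith
  have h9 : ‖χ y - 1‖ * (E.card : ℝ) ≤ 4 / 2000 * (E.card : ℝ) := by linarith only [h8]
  exact le_of_mul_le_mul_right h9 hEpos

omit [DecidableEq G] in
theorem bohrReg_half (hodd : Odd (Fintype.card G)) (x : G) :
    ((Fintype.card G + 1) / 2) • x + ((Fintype.card G + 1) / 2) • x = x := by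
  obtain ⟨k, hk⟩ := hodd
  have h1 : (Fintype.card G + 1) / 2 = k + 1 := by omega
  have h2 : Fintype.card G • x = 0 := card_nsmul_eq_zero
  rw [h1, ← add_nsmul]
  have h3 : k + 1 + (k + 1) = Fintype.card G + 1 := by omega
  rw [h3, add_nsmul, h2, one_nsmul, zero_add]

theorem double_injective (hodd : Odd (Fintype.card G)) :
    Function.Injective (fun x : G => x + x) := by
  intro x y hxy
  have hxy' : x + x = y + y := hxy
  rw [← bohrReg_half hodd x, ← bohrReg_half hodd y, ← nsmul_add, ← nsmul_add, hxy']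

/-- dilation by two -/
theorem exists_dilate (hodd : Odd (Fintype.card G)) (Γ : Finset (AddChar G ℂ)) :
    ∃ Γ' : Finset (AddChar G ℂ), Γ'.card ≤ Γ.card ∧
      ∀ ρ, bohr Γ' ρ = (bohr Γ ρ).image (fun x => x + x) := by
  classical
  set m := (Fintype.card G + 1) / 2 with hm
  refine ⟨Γ.image (fun γ => γ ^ m), card_image_le, fun ρ => ?_⟩
  ext x
  simp only [bohr, mem_filter, mem_univ, true_and, mem_image, forall_exists_index, and_imp,
    forall_apply_eq_imp_iff₂]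
  constructor
  · intro h
    refine ⟨m • x, fun γ hγ => ?_, bohrReg_half hodd x⟩
    have := h γ hγ
    rwa [AddChar.pow_apply, ← AddChar.map_nsmul_eq_pow] at this
  · rintro ⟨z, hz, rfl⟩ γ hγ
    have h1 := hz γ hγ
    rw [AddChar.pow_apply, ← AddChar.map_nsmul_eq_pow, nsmul_add, bohrReg_half hodd z]
    exact h1

end Vale.Agent.P057
end
end

section

section

open Finset

namespace Vale.Agent.P057

variable {G : Type*} [AddCommGroup G] [Fintype G]

theorem chang_log_lower {y : ℝ} (hy : |y| ≤ 1/4) : y - y ^ 2 ≤ Real.log (1 + y) := by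
  have h0 : 0 ≤ |y| := abs_nonneg y
  have h := Real.abs_log_sub_add_sum_range_le (x := -y) (by rw [abs_neg]; linarith) 2
  rw [abs_neg] at h
  have h1 := (abs_le.mp h).1
  simp only [Nat.reduceAdd, sum_range_succ, range_one, sum_singleton, zero_add, pow_one, CharP.cast_eq_zero, div_one, even_two, Even.neg_pow, Nat.cast_one, sub_neg_eq_add] at h1
  have h2 : |y| ^ 3 / (1 - |y|) ≤ y ^ 2 / 3 := by
    rw [div_le_iff₀ (by linarith only [hy])]
    have : |y| ^ 3 = y ^ 2 * |y| := by rw [← sq_abs y]; ring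
    rw [this]
    nlinarith only [hy]
  nlinarith only [h1, h2]

theorem chang_phase (z : ℂ) : ∃ w : ℂ, ‖w‖ = 1 ∧ w * z = (‖z‖ : ℂ) := by
  by_cases hz : z = 0
  · exact ⟨1, by simp, by simp [hz]⟩
  · refine ⟨(starRingEnd ℂ) z / ‖z‖, ?_, ?_⟩
    · rw [norm_div, RCLike.norm_conj]
      simp [hz]
    · have : (‖z‖ : ℂ) ≠ 0 := by simpa using hz
      rw [div_mul_eq_mul_div, div_eq_iff this, mul_comm, Complex.mul_conj,
        Complex.normSq_eq_norm_sq]
      push_cast; ring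

/-- product of integer powers of characters -/
noncomputable def changProd (ε : AddChar G ℂ → ℤ) : AddChar G ℂ := ∏ lam, lam ^ (ε lam)

theorem changProd_apply (ε : AddChar G ℂ → ℤ) (x : G) :
    changProd ε x = ∏ lam : AddChar G ℂ, (lam x) ^ (ε lam) := by
  simp only [changProd, AddChar.prod_apply, AddChar.zpow_apply]

/-- a set of characters is good if no nontrivial signed product has a large sum on `E` -/
def ChangGood (E : Finset G) (Λ : Finset (AddChar G ℂ)) : Prop :=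
  ∀ ε : AddChar G ℂ → ℤ, (∀ lam ∈ Λ, ε lam ∈ ({-1, 0, 1} : Finset ℤ)) →
    (∀ lam, lam ∉ Λ → ε lam = 0) → ε ≠ 0 →
      ‖∑ x ∈ E, changProd ε x‖ < (E.card : ℝ) / 2

/-- coefficients of one factor of the Riesz product -/
noncomputable def changCoef (w : ℂ) (k : ℤ) : ℂ :=
  if k = 0 then 1 else if k = 1 then w / 8 else (starRingEnd ℂ) w / 8

theorem chang_factor (w u : ℂ) (hu : ‖u‖ = 1) :
    ((1 + (1/4) * (w * u).re : ℝ) : ℂ) =
      ∑ k ∈ ({-1, 0, 1} : Finset ℤ), changCoef w k * u ^ k := by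
  have h1 : ((w * u).re : ℂ) = (w * u + (starRingEnd ℂ) (w * u)) / 2 := by
    rw [Complex.add_conj]; push_cast; ring
  have h2 : u⁻¹ = (starRingEnd ℂ) u := Complex.inv_eq_conj hu
  rw [Finset.sum_insert (by decide), Finset.sum_insert (by decide), Finset.sum_singleton]
  simp only [changCoef]
  push_cast
  rw [h1]
  simp only [one_div, map_mul, Int.reduceNeg, zpow_neg, zpow_ofNat, pow_one, h2, pow_zero, mul_one]
  ring

theorem chang_coef_norm (w : ℂ) (hw : ‖w‖ = 1) :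
    ∑ k ∈ ({-1, 0, 1} : Finset ℤ), ‖changCoef w k‖ = 5/4 := by
  rw [Finset.sum_insert (by decide), Finset.sum_insert (by decide), Finset.sum_singleton]
  simp only [changCoef, Int.reduceNeg, neg_eq_zero, one_ne_zero, ↓reduceIte, reduceCtorEq, Complex.norm_div, RCLike.norm_conj, hw, Complex.norm_ofNat, one_div, norm_one]
  norm_num

/-- index sets for the expansion -/
noncomputable def changIdx (Λ : Finset (AddChar G ℂ)) (lam : AddChar G ℂ) : Finset ℤ :=
  if lam ∈ Λ then {-1, 0, 1} else {0}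

/-- the Riesz product -/
noncomputable def changR (w : AddChar G ℂ → ℂ) (Λ : Finset (AddChar G ℂ)) (x : G) : ℝ :=
  ∏ lam ∈ Λ, (1 + (1/4) * (w lam * lam x).re)

/-- coefficient of a signed product in the Riesz product -/
noncomputable def changC (w : AddChar G ℂ → ℂ) (ε : AddChar G ℂ → ℤ) : ℂ :=
  ∏ lam, changCoef (w lam) (ε lam)

theorem changR_expand (w : AddChar G ℂ → ℂ) (Λ : Finset (AddChar G ℂ)) (x : G) :
    (changR w Λ x : ℂ) = ∑ ε ∈ Fintype.piFinset (changIdx Λ), changC w ε * changProd ε x := by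
  have h : (changR w Λ x : ℂ) = ∏ lam, ∑ k ∈ changIdx Λ lam, changCoef (w lam) k * (lam x) ^ k := by
    rw [changR, Complex.ofReal_prod]
    rw [← Finset.prod_subset (Finset.subset_univ Λ)]
    · refine Finset.prod_congr rfl (fun lam hlam => ?_)
      rw [changIdx, if_pos hlam, chang_factor _ _ (AddChar.norm_apply lam x)]
    · intro lam _ hlam
      rw [changIdx, if_neg hlam]
      simp only [changCoef, ite_mul, one_mul, sum_singleton, ↓reduceIte, zpow_ofNat, pow_zero]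
  rw [h, Finset.prod_univ_sum]
  refine Finset.sum_congr rfl (fun ε _ => ?_)
  rw [changC, changProd_apply, ← Finset.prod_mul_distrib]

theorem changC_sum (w : AddChar G ℂ → ℂ) (hw : ∀ lam, ‖w lam‖ = 1) (Λ : Finset (AddChar G ℂ)) :
    ∑ ε ∈ Fintype.piFinset (changIdx Λ), ‖changC w ε‖ = (5/4) ^ Λ.card := by
  have h : ∀ ε : AddChar G ℂ → ℤ, ‖changC w ε‖ = ∏ lam, ‖changCoef (w lam) (ε lam)‖ := by
    intro ε; rw [changC, norm_prod]
  simp_rw [h]
  rw [← Finset.prod_univ_sum (fun lam => changIdx Λ lam) (fun lam k => ‖changCoef (w lam) k‖)]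
  rw [← Finset.prod_subset (Finset.subset_univ Λ), Finset.prod_congr rfl (g := fun _ => (5/4 : ℝ)),
    Finset.prod_const]
  · intro lam hlam
    rw [changIdx, if_pos hlam, chang_coef_norm _ (hw lam)]
  · intro lam _ hlam
    rw [changIdx, if_neg hlam]
    simp [changCoef]

theorem changC_zero (w : AddChar G ℂ → ℂ) : changC w 0 = 1 := by
  simp [changC, changCoef]

theorem changR_factor_bounds (w : AddChar G ℂ → ℂ) (hw : ∀ lam, ‖w lam‖ = 1)
    (lam : AddChar G ℂ) (x : G) : |(w lam * lam x).re| ≤ 1 := by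
  refine (Complex.abs_re_le_norm _).trans ?_
  rw [norm_mul, hw, AddChar.norm_apply, one_mul]

theorem changR_factor_pos (w : AddChar G ℂ → ℂ) (hw : ∀ lam, ‖w lam‖ = 1)
    (lam : AddChar G ℂ) (x : G) : 0 < 1 + (1/4) * (w lam * lam x).re := by
  have := (abs_le.mp (changR_factor_bounds w hw lam x)).1
  linarith

theorem changR_pos (w : AddChar G ℂ → ℂ) (hw : ∀ lam, ‖w lam‖ = 1) (Λ : Finset (AddChar G ℂ))
    (x : G) : 0 < changR w Λ x :=
  Finset.prod_pos (fun lam _ => changR_factor_pos w hw lam x)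

omit [Fintype G] in
theorem chang_map_sum (χ : AddChar G ℂ) {ι : Type*} (s : Finset ι) (f : ι → G) :
    χ (∑ i ∈ s, f i) = ∏ i ∈ s, χ (f i) := by
  classical
  induction s using Finset.induction_on with
  | empty => simp
  | insert a s ha ih =>
    rw [Finset.sum_insert ha, Finset.prod_insert ha, AddChar.map_add_eq_mul, ih]

theorem chang_sum_tuple (E D' : Finset G) (j : ℕ) (χ : AddChar G ℂ) :
    ∑ e ∈ Fintype.piFinset (fun _ : Fin j => E), ∑ b ∈ D', χ (b + ∑ i, e i)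
      = (∑ b ∈ D', χ b) * (∑ x ∈ E, χ x) ^ j := by
  have h1 : ∀ e : Fin j → G, ∑ b ∈ D', χ (b + ∑ i, e i) = (∑ b ∈ D', χ b) * ∏ i, χ (e i) := by
    intro e
    rw [Finset.sum_mul]
    refine Finset.sum_congr rfl (fun b _ => ?_)
    rw [AddChar.map_add_eq_mul, chang_map_sum]
  simp_rw [h1]
  rw [← Finset.mul_sum]
  congr 1
  have := Finset.prod_univ_sum (fun _ : Fin j => E) (fun (_ : Fin j) x => χ x)
  rw [← this, Finset.prod_const, Finset.card_univ, Fintype.card_fin]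

theorem chang_upper (D D' E : Finset G) (j : ℕ) (hE : E.Nonempty)
    (hD' : ∀ x ∈ D, ∀ e : Fin j → G, (∀ i, e i ∈ E) → x - ∑ i, e i ∈ D')
    (w : AddChar G ℂ → ℂ) (hw : ∀ lam, ‖w lam‖ = 1) (Λ : Finset (AddChar G ℂ))
    (hΛ : ChangGood E Λ) (hc : Λ.card ≤ j) :
    ∑ x ∈ D, changR w Λ x ≤ 2 * (D'.card : ℝ) := by
  classical
  set P := Fintype.piFinset (fun _ : Fin j => E) with hP
  have hPc : (P.card : ℝ) = (E.card : ℝ) ^ j := by
    rw [hP, Fintype.card_piFinset]; simp only [prod_const, card_univ, Fintype.card_fin, Nat.cast_pow]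
  have hEpos : (0 : ℝ) < E.card := by exact_mod_cast hE.card_pos
  -- step 1
  have h1 : ∀ e ∈ P, ∑ x ∈ D, changR w Λ x ≤ ∑ b ∈ D', changR w Λ (b + ∑ i, e i) := by
    intro e he
    have he' : ∀ i, e i ∈ E := by
      intro i; exact (Fintype.mem_piFinset.mp he) i
    have : ∑ x ∈ D, changR w Λ x
        = ∑ b ∈ D.image (fun x => x - ∑ i, e i), changR w Λ (b + ∑ i, e i) := by
      rw [Finset.sum_image]
      · simp only [sub_add_cancel]
      · intro a _ b _ hab
        exact sub_left_injective hab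
    rw [this]
    refine Finset.sum_le_sum_of_subset_of_nonneg ?_ (fun b _ _ => (changR_pos w hw Λ _).le)
    intro b hb
    obtain ⟨x, hx, rfl⟩ := Finset.mem_image.mp hb
    exact hD' x hx e he'
  -- step 2
  have h2 : (P.card : ℝ) * ∑ x ∈ D, changR w Λ x
      ≤ ∑ e ∈ P, ∑ b ∈ D', changR w Λ (b + ∑ i, e i) := by
    rw [← nsmul_eq_mul, ← Finset.sum_const]
    exact Finset.sum_le_sum h1
  -- step 3: expansion
  have h3 : ((∑ e ∈ P, ∑ b ∈ D', changR w Λ (b + ∑ i, e i) : ℝ) : ℂ)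
      = ∑ ε ∈ Fintype.piFinset (changIdx Λ), changC w ε *
          ((∑ b ∈ D', changProd ε b) * (∑ x ∈ E, changProd ε x) ^ j) := by
    push_cast
    simp_rw [changR_expand]
    have : ∀ e ∈ P, ∑ b ∈ D', ∑ ε ∈ Fintype.piFinset (changIdx Λ),
          changC w ε * changProd ε (b + ∑ i, e i)
        = ∑ ε ∈ Fintype.piFinset (changIdx Λ), changC w ε *
            ∑ b ∈ D', changProd ε (b + ∑ i, e i) := by
      intro e _
      rw [Finset.sum_comm]
      refine Finset.sum_congr rfl (fun ε _ => ?_)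
      rw [Finset.mul_sum]
    rw [Finset.sum_congr rfl this, Finset.sum_comm]
    refine Finset.sum_congr rfl (fun ε _ => ?_)
    rw [← Finset.mul_sum, chang_sum_tuple]
  -- bound each term
  have hDnn : (0 : ℝ) ≤ (D'.card : ℝ) := Nat.cast_nonneg _
  have h4 : ∀ ε ∈ Fintype.piFinset (changIdx Λ), ‖changC w ε *
          ((∑ b ∈ D', changProd ε b) * (∑ x ∈ E, changProd ε x) ^ j)‖
        ≤ ‖changC w ε‖ * ((D'.card : ℝ) * ((E.card : ℝ) / 2) ^ j)
          + (if ε = 0 then (D'.card : ℝ) * (E.card : ℝ) ^ j else 0) := by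
    intro ε hε
    rw [norm_mul, norm_mul, norm_pow]
    have hb : ‖∑ b ∈ D', changProd ε b‖ ≤ (D'.card : ℝ) := by
      refine (norm_sum_le _ _).trans ?_
      simp [AddChar.norm_apply]
    by_cases h0 : ε = 0
    · rw [if_pos h0]
      have hx : ‖∑ x ∈ E, changProd ε x‖ ≤ (E.card : ℝ) := by
        refine (norm_sum_le _ _).trans ?_
        simp [AddChar.norm_apply]
      have hc1 : ‖changC w ε‖ = 1 := by rw [h0, changC_zero]; simp
      rw [hc1, one_mul]
      have : ‖∑ b ∈ D', changProd ε b‖ * ‖∑ x ∈ E, changProd ε x‖ ^ j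
          ≤ (D'.card : ℝ) * (E.card : ℝ) ^ j := by (clear * - hb hx; gcongr)
      have h5 : (0:ℝ) ≤ 1 * ((D'.card : ℝ) * ((E.card : ℝ) / 2) ^ j) := by (clear * - hE h0 hε hb hx hc1 this; positivity)
      linarith only [this, h5]
    · rw [if_neg h0, add_zero]
      have hx : ‖∑ x ∈ E, changProd ε x‖ ≤ (E.card : ℝ) / 2 := by
        refine (hΛ ε ?_ ?_ h0).le
        · intro lam hlam
          have := (Fintype.mem_piFinset.mp hε) lam
          rwa [changIdx, if_pos hlam] at this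
        · intro lam hlam
          have := (Fintype.mem_piFinset.mp hε) lam
          rw [changIdx, if_neg hlam] at this
          simpa using this
      (clear * - hb hx; gcongr)
  have h5 : ∑ e ∈ P, ∑ b ∈ D', changR w Λ (b + ∑ i, e i)
      ≤ (5/4) ^ Λ.card * ((D'.card : ℝ) * ((E.card : ℝ) / 2) ^ j)
        + (D'.card : ℝ) * (E.card : ℝ) ^ j := by
    have h6 : ‖((∑ e ∈ P, ∑ b ∈ D', changR w Λ (b + ∑ i, e i) : ℝ) : ℂ)‖
        ≤ ∑ ε ∈ Fintype.piFinset (changIdx Λ),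
          (‖changC w ε‖ * ((D'.card : ℝ) * ((E.card : ℝ) / 2) ^ j)
          + (if ε = 0 then (D'.card : ℝ) * (E.card : ℝ) ^ j else 0)) := by
      rw [h3]
      exact (norm_sum_le _ _).trans (Finset.sum_le_sum h4)
    rw [Finset.sum_add_distrib, ← Finset.sum_mul, changC_sum w hw] at h6
    have h7 : ∑ ε ∈ Fintype.piFinset (changIdx Λ),
        (if ε = 0 then (D'.card : ℝ) * (E.card : ℝ) ^ j else 0)
          ≤ (D'.card : ℝ) * (E.card : ℝ) ^ j := by
      rw [Finset.sum_ite_eq']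
      split_ifs
      · exact le_refl _
      · (clear * - hE; positivity)
    have h8 : ∑ e ∈ P, ∑ b ∈ D', changR w Λ (b + ∑ i, e i)
        ≤ ‖((∑ e ∈ P, ∑ b ∈ D', changR w Λ (b + ∑ i, e i) : ℝ) : ℂ)‖ := by
      rw [Complex.norm_real]
      exact le_abs_self _
    linarith only [h6, h7, h8]
  have h9 : (5/4 : ℝ) ^ Λ.card * ((E.card : ℝ) / 2) ^ j ≤ (E.card : ℝ) ^ j := by
    have : (5/4 : ℝ) ^ Λ.card ≤ 2 ^ j := by
      calc (5/4 : ℝ) ^ Λ.card ≤ 2 ^ Λ.card := by gcongr; norm_num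
        _ ≤ 2 ^ j := by gcongr; norm_num
    calc (5/4 : ℝ) ^ Λ.card * ((E.card : ℝ) / 2) ^ j ≤ 2 ^ j * ((E.card : ℝ) / 2) ^ j := by (clear * - this hE; gcongr)
      _ = (E.card : ℝ) ^ j := by rw [← mul_pow]; congr 1; ring
  have h10 : (E.card : ℝ) ^ j * ∑ x ∈ D, changR w Λ x ≤ (E.card : ℝ) ^ j * (2 * (D'.card : ℝ)) := by
    rw [← hPc]
    refine h2.trans (h5.trans ?_)
    rw [hPc]
    nlinarith only [h9]
  exact le_of_mul_le_mul_left h10 (by (clear * - hE; positivity))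

theorem chang_lower (T : Finset G) (hT : T.Nonempty) (w : AddChar G ℂ → ℂ)
    (hw : ∀ lam, ‖w lam‖ = 1) (Λ : Finset (AddChar G ℂ))
    (hwT : ∀ lam ∈ Λ, (T.card : ℝ) / 2 ≤ ∑ x ∈ T, (w lam * lam x).re) :
    Real.exp (Λ.card / 16) * (T.card : ℝ) ≤ ∑ x ∈ T, changR w Λ x := by
  have hTpos : (0 : ℝ) < T.card := by exact_mod_cast hT.card_pos
  -- sum of logs
  have h1 : (Λ.card : ℝ) / 16 * T.card ≤ ∑ x ∈ T, Real.log (changR w Λ x) := by
    have h2 : ∀ x ∈ T, Real.log (changR w Λ x)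
        = ∑ lam ∈ Λ, Real.log (1 + (1/4) * (w lam * lam x).re) := by
      intro x _
      rw [changR, Real.log_prod]
      intro lam _
      exact (changR_factor_pos w hw lam x).ne'
    rw [Finset.sum_congr rfl h2, Finset.sum_comm]
    have h3 : ∀ lam ∈ Λ, (T.card : ℝ) / 16
        ≤ ∑ x ∈ T, Real.log (1 + (1/4) * (w lam * lam x).re) := by
      intro lam hlam
      have h4 : ∀ x ∈ T, (1/4) * (w lam * lam x).re - 1/16
          ≤ Real.log (1 + (1/4) * (w lam * lam x).re) := by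
        intro x _
        have hb := changR_factor_bounds w hw lam x
        have h5 := chang_log_lower (y := (1/4) * (w lam * lam x).re) (by
          rw [abs_mul, abs_of_pos (by norm_num : (0:ℝ) < 1/4)]; linarith)
        have h6 : ((1/4) * (w lam * lam x).re) ^ 2 ≤ 1/16 := by
          have : (w lam * lam x).re ^ 2 ≤ 1 := by
            rw [← sq_abs]; exact pow_le_one₀ (abs_nonneg _) hb
          nlinarith only [this]
        linarith
      have h7 := Finset.sum_le_sum h4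
      rw [Finset.sum_sub_distrib, ← Finset.mul_sum, Finset.sum_const, nsmul_eq_mul] at h7
      have := hwT lam hlam
      linarith
    have h8 := Finset.sum_le_sum h3
    rw [Finset.sum_const, nsmul_eq_mul] at h8
    linarith
  -- exp(a) * (1 + (log R - a)) ≤ R
  have h9 : ∀ x ∈ T, Real.exp (Λ.card / 16) * (1 + (Real.log (changR w Λ x) - Λ.card / 16))
      ≤ changR w Λ x := by
    intro x _
    have hR := changR_pos w hw Λ x
    have h10 := Real.add_one_le_exp (Real.log (changR w Λ x) - Λ.card / 16)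
    have h11 : changR w Λ x = Real.exp (Λ.card / 16) *
        Real.exp (Real.log (changR w Λ x) - Λ.card / 16) := by
      rw [← Real.exp_add]
      rw [add_sub_cancel, Real.exp_log hR]
    have := mul_le_mul_of_nonneg_left h10 (Real.exp_pos (Λ.card / 16 : ℝ)).le
    rw [← h11] at this
    linarith only [this]
  have h12 := Finset.sum_le_sum h9
  rw [← Finset.mul_sum, Finset.sum_add_distrib, Finset.sum_sub_distrib] at h12
  simp only [Finset.sum_const, nsmul_eq_mul, mul_one] at h12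
  refine le_trans ?_ h12
  have h13 : (0:ℝ) < Real.exp (Λ.card / 16) := Real.exp_pos _
  have : (T.card : ℝ) ≤ (T.card : ℝ) + (∑ x ∈ T, Real.log (changR w Λ x)
      - (T.card : ℝ) * (Λ.card / 16)) := by linarith only [h1]
  exact mul_le_mul_of_nonneg_left this h13.le

theorem chang_norm_inv_sub_one {u : ℂ} (hu : ‖u‖ = 1) : ‖u⁻¹ - 1‖ = ‖u - 1‖ := by
  have hu0 : u ≠ 0 := by
    intro h; rw [h] at hu; simp at hu
  have : u⁻¹ - 1 = u⁻¹ * (1 - u) := by field_simp
  rw [this, norm_mul, norm_inv, hu, inv_one, one_mul, norm_sub_rev]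

theorem chang_norm_mul_sub_one {a b : ℂ} (ha : ‖a‖ = 1) : ‖a * b - 1‖ ≤ ‖a - 1‖ + ‖b - 1‖ := by
  have : a * b - 1 = (a - 1) + a * (b - 1) := by ring
  rw [this]
  refine (norm_add_le _ _).trans ?_
  rw [norm_mul, ha, one_mul]

theorem chang_norm_prod_sub_one {ι : Type*} (s : Finset ι) (f : ι → ℂ) (hf : ∀ i, ‖f i‖ = 1) :
    ‖∏ i ∈ s, f i - 1‖ ≤ ∑ i ∈ s, ‖f i - 1‖ := by
  classical
  induction s using Finset.induction_on with
  | empty => simp
  | insert a s ha ih =>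
    rw [Finset.sum_insert ha, Finset.prod_insert ha]
    refine (chang_norm_mul_sub_one (hf a)).trans ?_
    linarith

theorem local_chang [DecidableEq G] (T D D' E : Finset G) (j : ℕ) (hTD : T ⊆ D) (hT : T.Nonempty)
    (hE : E.Nonempty)
    (hD' : ∀ x ∈ D, ∀ e : Fin j → G, (∀ i, e i ∈ E) → x - ∑ i, e i ∈ D')
    (hcard : (D'.card : ℝ) ≤ 2 * (D.card : ℝ)) (τ : ℝ) (hτ0 : 0 < τ)
    (hτ : τ * (D.card : ℝ) ≤ (T.card : ℝ)) (hj : 16 * Real.log (4 / τ) < j) :
    ∃ Λ : Finset (AddChar G ℂ), Λ.card ≤ j ∧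
      ∀ γ : AddChar G ℂ, (T.card : ℝ) / 2 ≤ ‖∑ x ∈ T, γ x‖ →
        ∃ χ : AddChar G ℂ, (E.card : ℝ) / 2 ≤ ‖∑ x ∈ E, χ x‖ ∧
          ∀ x, ‖γ x - 1‖ ≤ ∑ lam ∈ Λ, ‖lam x - 1‖ + ‖χ x - 1‖ := by
  classical
  have hTpos : (0 : ℝ) < T.card := by exact_mod_cast hT.card_pos
  -- phases
  choose w hw1 hw2 using fun lam : AddChar G ℂ => chang_phase (∑ x ∈ T, lam x)
  set Δ : Finset (AddChar G ℂ) :=
    univ.filter (fun γ : AddChar G ℂ => (T.card : ℝ) / 2 ≤ ‖∑ x ∈ T, γ x‖) with hΔ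
  set S : Finset (Finset (AddChar G ℂ)) :=
    Δ.powerset.filter (fun Λ => ChangGood E Λ ∧ Λ.card ≤ j) with hS
  have hSne : S.Nonempty := by
    refine ⟨∅, ?_⟩
    rw [hS, Finset.mem_filter]
    refine ⟨Finset.empty_mem_powerset _, ?_, by simp⟩
    intro ε _ h0 hne
    exact absurd (funext (fun lam => h0 lam (Finset.notMem_empty _))) hne
  obtain ⟨Λ, hΛS, hmax⟩ := Finset.exists_max_image S Finset.card hSne
  rw [hS, Finset.mem_filter, Finset.mem_powerset] at hΛS
  obtain ⟨hΛΔ, hgood, hΛj⟩ := hΛS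
  -- the size claim
  have hlt : Λ.card < j := by
    have h1 := chang_upper D D' E j hE hD' w hw1 Λ hgood hΛj
    have h2 := chang_lower T hT w hw1 Λ (by
      intro lam hlam
      have h3 := hΛΔ hlam
      rw [hΔ, Finset.mem_filter] at h3
      refine h3.2.trans (le_of_eq ?_)
      have h4 := congrArg Complex.re (hw2 lam)
      rw [Complex.ofReal_re, Finset.mul_sum, Complex.re_sum] at h4
      exact h4.symm)
    have h3 : ∑ x ∈ T, changR w Λ x ≤ ∑ x ∈ D, changR w Λ x :=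
      Finset.sum_le_sum_of_subset_of_nonneg hTD (fun x _ _ => (changR_pos w hw1 Λ x).le)
    have h4 : Real.exp (Λ.card / 16) * (T.card : ℝ) ≤ 4 * (D.card : ℝ) := by linarith only [hcard, h1, h2, h3]
    have h5 : (D.card : ℝ) ≤ (T.card : ℝ) / τ := by
      rw [le_div_iff₀ hτ0]; linarith only [hτ]
    have h6 : Real.exp (Λ.card / 16) * (T.card : ℝ) ≤ (4 / τ) * (T.card : ℝ) := by
      have : (4 / τ) * (T.card : ℝ) = 4 * ((T.card : ℝ) / τ) := by ring
      rw [this]; linarith only [hcard, h1, h2, h3, h5]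
    have h7 : Real.exp (Λ.card / 16) ≤ 4 / τ := le_of_mul_le_mul_right h6 hTpos
    have h8 : (Λ.card : ℝ) / 16 ≤ Real.log (4 / τ) := by
      rw [Real.le_log_iff_exp_le (by positivity)]; exact h7
    have : (Λ.card : ℝ) < j := by linarith only [hj, h8]
    exact_mod_cast this
  refine ⟨Λ, hΛj, ?_⟩
  intro γ hγ
  by_cases hγΛ : γ ∈ Λ
  · refine ⟨1, ?_, ?_⟩
    · simp only [AddChar.one_apply, sum_const, nsmul_eq_mul, mul_one, RCLike.norm_natCast, half_le_self_iff, Nat.cast_nonneg]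
    · intro x
      have : ‖γ x - 1‖ ≤ ∑ lam ∈ Λ, ‖lam x - 1‖ :=
        Finset.single_le_sum (f := fun lam : AddChar G ℂ => ‖lam x - 1‖)
          (fun _ _ => norm_nonneg _) hγΛ
      have h2 : (0:ℝ) ≤ ‖(1 : AddChar G ℂ) x - 1‖ := norm_nonneg _
      linarith only [this, h2]
  · -- insert γ Λ is not good
    have hnot : ¬ ChangGood E (insert γ Λ) := by
      intro hg
      have hmem : insert γ Λ ∈ S := by
        rw [hS, Finset.mem_filter, Finset.mem_powerset]
        refine ⟨?_, hg, ?_⟩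
        · intro lam hlam
          rcases Finset.mem_insert.mp hlam with h | h
          · rw [h, hΔ, Finset.mem_filter]; exact ⟨Finset.mem_univ _, hγ⟩
          · exact hΛΔ h
        · rw [Finset.card_insert_of_notMem hγΛ]; omega
      have := hmax _ hmem
      rw [Finset.card_insert_of_notMem hγΛ] at this
      omega
    unfold ChangGood at hnot
    push Not at hnot
    obtain ⟨ε, hε1, hε2, hε3, hε4⟩ := hnot
    have hεγ : ε γ ≠ 0 := by
      intro h0
      have := hgood ε (fun lam hlam => hε1 lam (Finset.mem_insert_of_mem hlam)) (by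
        intro lam hlam
        by_cases h : lam = γ
        · rw [h]; exact h0
        · exact hε2 lam (by
            intro h'
            rcases Finset.mem_insert.mp h' with h'' | h''
            · exact h h''
            · exact hlam h'')) hε3
      linarith only [hε4, this]
    refine ⟨changProd ε, hε4, ?_⟩
    intro x
    have hx : changProd ε x = (γ x) ^ (ε γ) * ∏ lam ∈ Λ, (lam x) ^ (ε lam) := by
      rw [changProd_apply, ← Finset.prod_subset (Finset.subset_univ (insert γ Λ)),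
        Finset.prod_insert hγΛ]
      intro lam _ hlam
      rw [hε2 lam hlam, zpow_zero]
    have hpow : ∀ lam : AddChar G ℂ, ε lam ∈ ({-1, 0, 1} : Finset ℤ) →
        ‖(lam x) ^ (ε lam) - 1‖ ≤ ‖lam x - 1‖ := by
      intro lam hlam
      simp only [Finset.mem_insert, Finset.mem_singleton] at hlam
      rcases hlam with h | h | h
      · rw [h, zpow_neg_one, chang_norm_inv_sub_one (AddChar.norm_apply _ _)]
      · rw [h]; simp
      · rw [h, zpow_one]
    have hu : ∀ lam : AddChar G ℂ, ‖(lam x) ^ (ε lam)‖ = 1 := by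
      intro lam; rw [norm_zpow, AddChar.norm_apply, one_zpow]
    have hprodnorm : ‖∏ lam ∈ Λ, (lam x) ^ (ε lam)‖ = 1 := by
      rw [norm_prod]; exact Finset.prod_eq_one (fun lam _ => hu lam)
    have hP0 : ∏ lam ∈ Λ, (lam x) ^ (ε lam) ≠ 0 := by
      intro h; rw [h] at hprodnorm; simp at hprodnorm
    have h1 : ‖∏ lam ∈ Λ, (lam x) ^ (ε lam) - 1‖ ≤ ∑ lam ∈ Λ, ‖lam x - 1‖ := by
      refine (chang_norm_prod_sub_one Λ (fun lam => (lam x) ^ (ε lam)) hu).trans ?_
      exact Finset.sum_le_sum (fun lam hlam => hpow lam (hε1 lam (Finset.mem_insert_of_mem hlam)))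
    have h2 : (γ x) ^ (ε γ) = changProd ε x * (∏ lam ∈ Λ, (lam x) ^ (ε lam))⁻¹ := by
      rw [hx]; (clear * - hP0; field_simp)
    have h3 : ‖(γ x) ^ (ε γ) - 1‖ ≤ ‖changProd ε x - 1‖
        + ‖(∏ lam ∈ Λ, (lam x) ^ (ε lam))⁻¹ - 1‖ := by
      rw [h2]; exact chang_norm_mul_sub_one (AddChar.norm_apply _ _)
    rw [chang_norm_inv_sub_one hprodnorm] at h3
    have h4 : ‖(γ x) ^ (ε γ) - 1‖ = ‖γ x - 1‖ := by
      have := hε1 γ (Finset.mem_insert_self _ _)
      simp only [Finset.mem_insert, Finset.mem_singleton] at this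
      rcases this with h | h | h
      · rw [h, zpow_neg_one, chang_norm_inv_sub_one (AddChar.norm_apply _ _)]
      · exact absurd h hεγ
      · rw [h, zpow_one]
    rw [h4] at h3
    linarith only [h1, h3]

end Vale.Agent.P057
end
end

section

section

open Finset

namespace Vale.Agent.P057

theorem tupleTail_side {ι : Type*} [DecidableEq ι] (Y : Finset ι) (Z : ι → ℝ)
    (hZ : ∀ y ∈ Y, |Z y| ≤ 1) (hsum : ∑ y ∈ Y, Z y = 0) (n : ℕ) (ε : ℝ) (hε : 0 < ε)
    (hε1 : ε ≤ 1) :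
    (((Fintype.piFinset (fun _ : Fin n => Y)).filter
      (fun v => ε * n < ∑ i, Z (v i))).card : ℝ)
      ≤ Real.exp (-(ε^2 * n / 4)) * (Y.card : ℝ) ^ n := by
  set lam : ℝ := ε / 2 with hlam
  have hone : ∑ y ∈ Y, Real.exp (lam * Z y) ≤ (Y.card : ℝ) * Real.exp (lam ^ 2) := by
    have h1 : ∀ y ∈ Y, Real.exp (lam * Z y) ≤ lam * Z y + Real.exp (lam ^ 2) := by
      intro y hy
      have hz := hZ y hy
      have habs : |lam * Z y| ≤ 1 := by
        rw [abs_mul, abs_of_pos (by positivity : 0 < lam)]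
        nlinarith only [hε1, hlam, hε, hz]
      have h2 := Real.abs_exp_sub_one_sub_id_le habs
      have h3 := (abs_le.mp h2).2
      have h4 : (lam * Z y) ^ 2 ≤ lam ^ 2 := by
        rw [mul_pow]
        have : Z y ^ 2 ≤ 1 := by
          rw [← sq_abs]
          nlinarith only [hz, abs_nonneg (Z y)]
        nlinarith only [this]
      have h5 := Real.add_one_le_exp (lam ^ 2)
      linarith only [h3, h4, h5]
    calc ∑ y ∈ Y, Real.exp (lam * Z y)
        ≤ ∑ y ∈ Y, (lam * Z y + Real.exp (lam ^ 2)) := Finset.sum_le_sum h1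
      _ = lam * ∑ y ∈ Y, Z y + (Y.card : ℝ) * Real.exp (lam ^ 2) := by
          rw [Finset.sum_add_distrib, Finset.mul_sum, Finset.sum_const, nsmul_eq_mul]
      _ = (Y.card : ℝ) * Real.exp (lam ^ 2) := by rw [hsum]; ring
  have hall : ∑ v ∈ Fintype.piFinset (fun _ : Fin n => Y), Real.exp (lam * ∑ i, Z (v i))
      ≤ (Y.card : ℝ) ^ n * Real.exp (n * lam ^ 2) := by
    have h1 : ∑ v ∈ Fintype.piFinset (fun _ : Fin n => Y), Real.exp (lam * ∑ i, Z (v i))
        = ∏ _i : Fin n, ∑ y ∈ Y, Real.exp (lam * Z y) := by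
      rw [Finset.prod_univ_sum]
      refine Finset.sum_congr rfl (fun v _ => ?_)
      rw [Finset.mul_sum, Real.exp_sum]
    rw [h1, Finset.prod_const, Finset.card_univ, Fintype.card_fin]
    calc (∑ y ∈ Y, Real.exp (lam * Z y)) ^ n
        ≤ ((Y.card : ℝ) * Real.exp (lam ^ 2)) ^ n := by
          refine pow_le_pow_left₀ ?_ hone n
          exact Finset.sum_nonneg (fun _ _ => (Real.exp_pos _).le)
      _ = (Y.card : ℝ) ^ n * Real.exp (n * lam ^ 2) := by
          rw [mul_pow, ← Real.exp_nat_mul]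
  have hmark : (((Fintype.piFinset (fun _ : Fin n => Y)).filter
      (fun v => ε * n < ∑ i, Z (v i))).card : ℝ) * Real.exp (lam * (ε * n))
      ≤ (Y.card : ℝ) ^ n * Real.exp (n * lam ^ 2) := by
    refine le_trans ?_ hall
    rw [← nsmul_eq_mul, ← Finset.sum_const]
    calc ∑ _v ∈ (Fintype.piFinset (fun _ : Fin n => Y)).filter
            (fun v => ε * n < ∑ i, Z (v i)), Real.exp (lam * (ε * n))
        ≤ ∑ v ∈ (Fintype.piFinset (fun _ : Fin n => Y)).filter
            (fun v => ε * n < ∑ i, Z (v i)), Real.exp (lam * ∑ i, Z (v i)) := by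
          refine Finset.sum_le_sum (fun v hv => ?_)
          have := (Finset.mem_filter.mp hv).2
          apply Real.exp_le_exp.mpr
          have hl : 0 < lam := by positivity
          nlinarith only [hε, this, hlam]
      _ ≤ ∑ v ∈ Fintype.piFinset (fun _ : Fin n => Y), Real.exp (lam * ∑ i, Z (v i)) := by
          refine Finset.sum_le_sum_of_subset_of_nonneg (Finset.filter_subset _ _) ?_
          intro _ _ _
          exact (Real.exp_pos _).le
  have hexp : Real.exp (-(ε^2 * n / 4)) * Real.exp (lam * (ε * n)) = Real.exp (n * lam ^ 2) := by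
    rw [← Real.exp_add]
    congr 1
    rw [hlam]
    ring
  have hpos : 0 < Real.exp (lam * (ε * n)) := Real.exp_pos _
  refine le_of_mul_le_mul_right ?_ hpos
  calc _ ≤ (Y.card : ℝ) ^ n * Real.exp (n * lam ^ 2) := hmark
    _ = Real.exp (-(ε^2 * n / 4)) * (Y.card : ℝ) ^ n * Real.exp (lam * (ε * n)) := by
        rw [← hexp]; ring

/-- Hoeffding type bound for uniform tuples from a finite set -/
theorem tuple_tail {ι : Type*} [DecidableEq ι] (Y : Finset ι) (hY : Y.Nonempty) (φ : ι → ℝ)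
    (hφ : ∀ y ∈ Y, 0 ≤ φ y ∧ φ y ≤ 1) (n : ℕ) (ε : ℝ) (hε : 0 < ε) (hε1 : ε ≤ 1) :
    (((Fintype.piFinset (fun _ : Fin n => Y)).filter
      (fun v => ε * n < |∑ i, φ (v i) - n * ((∑ y ∈ Y, φ y) / Y.card)|)).card : ℝ)
      ≤ 2 * Real.exp (-(ε^2 * n / 4)) * (Y.card : ℝ) ^ n := by
  set m : ℝ := (∑ y ∈ Y, φ y) / Y.card with hm
  have hc : (0 : ℝ) < (Y.card : ℝ) := by exact_mod_cast Finset.card_pos.mpr hY
  have hm0 : 0 ≤ m := div_nonneg (Finset.sum_nonneg (fun y hy => (hφ y hy).1)) hc.le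
  have hm1 : m ≤ 1 := by
    rw [hm, div_le_one hc]
    calc ∑ y ∈ Y, φ y ≤ ∑ _y ∈ Y, (1 : ℝ) := Finset.sum_le_sum (fun y hy => (hφ y hy).2)
      _ = (Y.card : ℝ) := by simp
  have hs : ∑ y ∈ Y, (φ y - m) = 0 := by
    rw [Finset.sum_sub_distrib, Finset.sum_const, nsmul_eq_mul, hm]
    field_simp
    ring
  have hs' : ∑ y ∈ Y, (m - φ y) = 0 := by
    have : ∑ y ∈ Y, (m - φ y) = - ∑ y ∈ Y, (φ y - m) := by
      rw [← Finset.sum_neg_distrib]
      exact Finset.sum_congr rfl (fun y _ => by ring)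
    rw [this, hs, neg_zero]
  have hb : ∀ y ∈ Y, |φ y - m| ≤ 1 := by
    intro y hy
    have := hφ y hy
    rw [abs_le]
    constructor <;> linarith only [hm0, this, hm1]
  have hb' : ∀ y ∈ Y, |m - φ y| ≤ 1 := by
    intro y hy
    rw [abs_sub_comm]
    exact hb y hy
  have h1 := tupleTail_side Y (fun y => φ y - m) hb hs n ε hε hε1
  have h2 := tupleTail_side Y (fun y => m - φ y) hb' hs' n ε hε hε1
  have hsub : (Fintype.piFinset (fun _ : Fin n => Y)).filter
      (fun v => ε * n < |∑ i, φ (v i) - n * m|) ⊆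
      (Fintype.piFinset (fun _ : Fin n => Y)).filter (fun v => ε * n < ∑ i, (φ (v i) - m)) ∪
      (Fintype.piFinset (fun _ : Fin n => Y)).filter (fun v => ε * n < ∑ i, (m - φ (v i))) := by
    intro v hv
    rw [Finset.mem_filter] at hv
    rw [Finset.mem_union, Finset.mem_filter, Finset.mem_filter]
    have e1 : ∑ i, (φ (v i) - m) = ∑ i, φ (v i) - n * m := by
      rw [Finset.sum_sub_distrib, Finset.sum_const, nsmul_eq_mul, Finset.card_univ,
        Fintype.card_fin]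
    have e2 : ∑ i, (m - φ (v i)) = -(∑ i, φ (v i) - n * m) := by
      rw [Finset.sum_sub_distrib, Finset.sum_const, nsmul_eq_mul, Finset.card_univ,
        Fintype.card_fin]
      ring
    rcases lt_abs.mp hv.2 with h | h
    · left
      exact ⟨hv.1, by rw [e1]; exact h⟩
    · right
      exact ⟨hv.1, by rw [e2]; exact h⟩
  have hcard := (Finset.card_le_card hsub).trans (Finset.card_union_le _ _)
  have hcard' : (((Fintype.piFinset (fun _ : Fin n => Y)).filter
      (fun v => ε * n < |∑ i, φ (v i) - n * m|)).card : ℝ) ≤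
      (((Fintype.piFinset (fun _ : Fin n => Y)).filter
        (fun v => ε * n < ∑ i, (φ (v i) - m))).card : ℝ) +
      (((Fintype.piFinset (fun _ : Fin n => Y)).filter
        (fun v => ε * n < ∑ i, (m - φ (v i)))).card : ℝ) := by
    exact_mod_cast hcard
  linarith only [h1, h2, hcard']

end Vale.Agent.P057
end
end

section

section

open Finset

namespace Vale.Agent.P057

section nofin

variable {G : Type*} [AddCommGroup G] [DecidableEq G]

/-- number of hits of the tuple -/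
noncomputable def csHit (S : Finset G) {n : ℕ} (v : Fin n → G) (x : G) : ℝ :=
  ∑ i, (if x - v i ∈ S then (1 : ℝ) else 0)

/-- number of hits of the set -/
noncomputable def csH (Y S : Finset G) (x : G) : ℝ :=
  ∑ y ∈ Y, (if x - y ∈ S then (1 : ℝ) else 0)

/-- the tuple is bad at the point -/
def csBad (Y S : Finset G) (ε : ℝ) {n : ℕ} (v : Fin n → G) (x : G) : Prop :=
  ε * n < |csHit S v x - n * (csH Y S x / Y.card)|

theorem csH_nonneg (Y S : Finset G) (x : G) : 0 ≤ csH Y S x := by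
  unfold csH
  exact Finset.sum_nonneg (fun y _ => by split_ifs <;> norm_num)

theorem csH_le (Y S : Finset G) (x : G) : csH Y S x ≤ (Y.card : ℝ) := by
  unfold csH
  calc ∑ y ∈ Y, (if x - y ∈ S then (1 : ℝ) else 0) ≤ ∑ _y ∈ Y, (1 : ℝ) :=
        Finset.sum_le_sum (fun y _ => by split_ifs <;> norm_num)
    _ = (Y.card : ℝ) := by simp

theorem cs_card_eq (Y S : Finset G) (s : G) :
    (((Y ×ˢ Y).filter (fun q => q.1 - q.2 + s ∈ S)).card : ℝ) = ∑ x ∈ Y, csH Y S (x + s) := by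
  unfold csH
  rw [Finset.card_filter]
  push_cast
  rw [Finset.sum_product]
  refine Finset.sum_congr rfl (fun x _ => Finset.sum_congr rfl (fun y _ => ?_))
  have : x - y + s = x + s - y := by abel
  simp only [this]

theorem csHit_shift (S : Finset G) {n : ℕ} (z : Fin n → G) (t x : G) :
    csHit S (fun i => z i - t) x = csHit S z (x + t) := by
  unfold csHit
  refine Finset.sum_congr rfl (fun i _ => ?_)
  have : x - (z i - t) = x + t - z i := by abel
  rw [this]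

end nofin

variable {G : Type*} [AddCommGroup G] [Fintype G] [DecidableEq G]

open Classical in
theorem cs_good_card (Y U S : Finset G) (hY : Y.Nonempty)
    (ε : ℝ) (hε : 0 < ε) (hε1 : ε ≤ 1) (n : ℕ)
    (hn : 4 * Real.exp (-(ε^2 * n / 4)) * (U.card : ℝ) ≤ ε * (Y.card : ℝ)) :
    (1/2 : ℝ) * (Y.card : ℝ) ^ n ≤
      (((Fintype.piFinset (fun _ : Fin n => Y)).filter
        (fun v => ((U.filter (fun x => csBad Y S ε v x)).card : ℝ) ≤ ε * (Y.card : ℝ))).card : ℝ)
      := by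
  have hc : (0 : ℝ) < (Y.card : ℝ) := by exact_mod_cast Finset.card_pos.mpr hY
  set P := Fintype.piFinset (fun _ : Fin n => Y) with hP
  have hPcard : (P.card : ℝ) = (Y.card : ℝ) ^ n := by
    rw [hP, Fintype.card_piFinset, Finset.prod_const, Finset.card_univ, Fintype.card_fin]
    push_cast
    rfl
  have hdc : ∑ v ∈ P, ((U.filter (fun x => csBad Y S ε v x)).card : ℝ)
      ≤ ε * (Y.card : ℝ) / 2 * (Y.card : ℝ) ^ n := by
    have h1 : ∑ v ∈ P, ((U.filter (fun x => csBad Y S ε v x)).card : ℝ)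
        = ∑ x ∈ U, ((P.filter (fun v => csBad Y S ε v x)).card : ℝ) := by
      have : ∀ v ∈ P, ((U.filter (fun x => csBad Y S ε v x)).card : ℝ)
          = ∑ x ∈ U, (if csBad Y S ε v x then (1 : ℝ) else 0) := by
        intro v _
        rw [Finset.card_filter]
        push_cast
        rfl
      rw [Finset.sum_congr rfl this, Finset.sum_comm]
      refine Finset.sum_congr rfl (fun x _ => ?_)
      rw [Finset.card_filter]
      push_cast
      rfl
    rw [h1]
    have h2 : ∀ x ∈ U, ((P.filter (fun v => csBad Y S ε v x)).card : ℝ)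
        ≤ 2 * Real.exp (-(ε^2 * n / 4)) * (Y.card : ℝ) ^ n := by
      intro x _
      have := tuple_tail Y hY (fun y => if x - y ∈ S then (1 : ℝ) else 0)
        (fun y _ => by constructor <;> split_ifs <;> norm_num) n ε hε hε1
      rw [← hP] at this
      unfold csBad csHit csH
      convert this
    calc ∑ x ∈ U, ((P.filter (fun v => csBad Y S ε v x)).card : ℝ)
        ≤ ∑ _x ∈ U, 2 * Real.exp (-(ε^2 * n / 4)) * (Y.card : ℝ) ^ n := Finset.sum_le_sum h2
      _ = (4 * Real.exp (-(ε^2 * n / 4)) * (U.card : ℝ)) / 2 * (Y.card : ℝ) ^ n := by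
          rw [Finset.sum_const, nsmul_eq_mul]; ring
      _ ≤ ε * (Y.card : ℝ) / 2 * (Y.card : ℝ) ^ n := by
          have : (0:ℝ) ≤ (Y.card : ℝ) ^ n := by (clear * - hY; positivity)
          nlinarith only [hn, hPcard]
  have hsplit : (P.card : ℝ) =
      ((P.filter (fun v => ((U.filter (fun x => csBad Y S ε v x)).card : ℝ)
        ≤ ε * (Y.card : ℝ))).card : ℝ) +
      ((P.filter (fun v => ¬ ((U.filter (fun x => csBad Y S ε v x)).card : ℝ)
        ≤ ε * (Y.card : ℝ))).card : ℝ) := by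
    exact_mod_cast (Finset.card_filter_add_card_filter_not (s := P) _).symm
  have hmark : ((P.filter (fun v => ¬ ((U.filter (fun x => csBad Y S ε v x)).card : ℝ)
        ≤ ε * (Y.card : ℝ))).card : ℝ) * (ε * (Y.card : ℝ))
      ≤ ε * (Y.card : ℝ) / 2 * (Y.card : ℝ) ^ n := by
    refine le_trans ?_ hdc
    rw [← nsmul_eq_mul, ← Finset.sum_const]
    calc ∑ _v ∈ P.filter (fun v => ¬ ((U.filter (fun x => csBad Y S ε v x)).card : ℝ)
            ≤ ε * (Y.card : ℝ)), ε * (Y.card : ℝ)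
        ≤ ∑ v ∈ P.filter (fun v => ¬ ((U.filter (fun x => csBad Y S ε v x)).card : ℝ)
            ≤ ε * (Y.card : ℝ)), ((U.filter (fun x => csBad Y S ε v x)).card : ℝ) := by
          refine Finset.sum_le_sum (fun v hv => ?_)
          have := (Finset.mem_filter.mp hv).2
          push Not at this
          exact this.le
      _ ≤ _ := by
          refine Finset.sum_le_sum_of_subset_of_nonneg (Finset.filter_subset _ _) ?_
          intro _ _ _
          (clear * -; positivity)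
  have hεY : 0 < ε * (Y.card : ℝ) := by (clear * - hε hY; positivity)
  have h3 : ((P.filter (fun v => ¬ ((U.filter (fun x => csBad Y S ε v x)).card : ℝ)
        ≤ ε * (Y.card : ℝ))).card : ℝ) ≤ (1/2) * (Y.card : ℝ) ^ n := by
    refine le_of_mul_le_mul_right ?_ hεY
    calc _ ≤ ε * (Y.card : ℝ) / 2 * (Y.card : ℝ) ^ n := hmark
      _ = _ := by ring
  linarith only [hPcard, hsplit, h3]

open Classical in
theorem croot_sisask (Y B U S : Finset G) (hY : Y.Nonempty) (hB0 : (0 : G) ∈ B)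
    (hU : ∀ x ∈ Y, ∀ t ∈ B, ∀ t' ∈ B, x + t - t' ∈ U)
    (ε : ℝ) (hε : 0 < ε) (hε1 : ε ≤ 1) (n : ℕ)
    (hn : 4 * Real.exp (-(ε^2 * n / 4)) * (U.card : ℝ) ≤ ε * (Y.card : ℝ)) :
    ∃ T ⊆ B, T.Nonempty ∧
      (1/2) * ((Y.card : ℝ) / (U.card : ℝ)) ^ n * (B.card : ℝ) ≤ (T.card : ℝ) ∧
      ∀ t ∈ T, ∀ t' ∈ T,
        (((Y ×ˢ Y).filter (fun q => q.1 - q.2 ∈ S)).card : ℝ) - 4 * ε * (Y.card : ℝ) ^ 2
        ≤ (((Y ×ˢ Y).filter (fun q => q.1 - q.2 + (t - t') ∈ S)).card : ℝ) := by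
  have hc : (0 : ℝ) < (Y.card : ℝ) := by exact_mod_cast Finset.card_pos.mpr hY
  have hYU : Y ⊆ U := by
    intro x hx
    have := hU x hx 0 hB0 0 hB0
    simpa using this
  have hUne : U.Nonempty := hY.mono hYU
  have hcU : (0 : ℝ) < (U.card : ℝ) := by exact_mod_cast Finset.card_pos.mpr hUne
  have hcB : (0 : ℝ) < (B.card : ℝ) := by exact_mod_cast Finset.card_pos.mpr ⟨0, hB0⟩
  have hcYU : (Y.card : ℝ) ≤ (U.card : ℝ) := by exact_mod_cast Finset.card_le_card hYU
  have hn0 : 0 < n := by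
    rcases Nat.eq_zero_or_pos n with h | h
    · exfalso
      subst h
      simp only [CharP.cast_eq_zero, mul_zero, zero_div, neg_zero, Real.exp_zero, mul_one] at hn
      nlinarith only [hcU, hcYU, hn, hε1]
    · exact h
  have hnR : (0 : ℝ) < (n : ℝ) := by exact_mod_cast hn0
  set PU := Fintype.piFinset (fun _ : Fin n => U) with hPU
  set Lg := (Fintype.piFinset (fun _ : Fin n => Y)).filter
        (fun v => ((U.filter (fun x => csBad Y S ε v x)).card : ℝ) ≤ ε * (Y.card : ℝ)) with hLg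
  have hLgcard := cs_good_card Y U S hY ε hε hε1 n hn
  rw [← hLg] at hLgcard
  have hPUcard : (PU.card : ℝ) = (U.card : ℝ) ^ n := by
    rw [hPU, Fintype.card_piFinset, Finset.prod_const, Finset.card_univ, Fintype.card_fin]
    push_cast
    rfl
  -- double counting
  have hdc : ∑ z ∈ PU, ((B.filter (fun t => (fun i => z i - t) ∈ Lg)).card : ℝ)
      = (B.card : ℝ) * (Lg.card : ℝ) := by
    have h1 : ∑ z ∈ PU, ((B.filter (fun t => (fun i => z i - t) ∈ Lg)).card : ℝ)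
        = ∑ t ∈ B, ((PU.filter (fun z => (fun i => z i - t) ∈ Lg)).card : ℝ) := by
      have : ∀ z ∈ PU, ((B.filter (fun t => (fun i => z i - t) ∈ Lg)).card : ℝ)
          = ∑ t ∈ B, (if (fun i => z i - t) ∈ Lg then (1 : ℝ) else 0) := by
        intro z _
        rw [Finset.card_filter]
        push_cast
        rfl
      rw [Finset.sum_congr rfl this, Finset.sum_comm]
      refine Finset.sum_congr rfl (fun t _ => ?_)
      rw [Finset.card_filter]
      push_cast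
      rfl
    rw [h1]
    have h2 : ∀ t ∈ B, ((PU.filter (fun z => (fun i => z i - t) ∈ Lg)).card : ℝ)
        = (Lg.card : ℝ) := by
      intro t ht
      norm_cast
      refine Finset.card_bij' (fun z _ => fun i => z i - t) (fun v _ => fun i => v i + t)
        ?_ ?_ ?_ ?_
      · intro z hz
        exact (Finset.mem_filter.mp hz).2
      · intro v hv
        rw [Finset.mem_filter]
        refine ⟨?_, ?_⟩
        · rw [hPU, Fintype.mem_piFinset]
          intro i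
          have hvY : v i ∈ Y := Fintype.mem_piFinset.mp (Finset.mem_filter.mp hv).1 i
          have := hU (v i) hvY t ht 0 hB0
          simpa using this
        · simpa using hv
      · intro z _
        funext i
        simp
      · intro v _
        funext i
        simp
    rw [Finset.sum_congr rfl h2, Finset.sum_const, nsmul_eq_mul]
  -- pigeonhole
  obtain ⟨z, hz, hzT⟩ : ∃ z ∈ PU, (1/2) * ((Y.card : ℝ) / (U.card : ℝ)) ^ n * (B.card : ℝ)
      ≤ ((B.filter (fun t => (fun i => z i - t) ∈ Lg)).card : ℝ) := by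
    by_contra hcon
    push Not at hcon
    have hPUne : PU.Nonempty := by
      rw [hPU, Fintype.piFinset_nonempty]
      exact fun _ => hUne
    have hlt := Finset.sum_lt_sum_of_nonempty hPUne hcon
    rw [hdc, Finset.sum_const, nsmul_eq_mul, hPUcard] at hlt
    have e : (U.card : ℝ) ^ n * ((1/2) * ((Y.card : ℝ) / (U.card : ℝ)) ^ n * (B.card : ℝ))
        = (B.card : ℝ) * ((1/2) * (Y.card : ℝ) ^ n) := by
      rw [div_pow]
      (clear * - hUne hcB hY; field_simp)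
    rw [e] at hlt
    have := lt_of_mul_lt_mul_left hlt hcB.le
    linarith only [hLgcard, this]
  set T := B.filter (fun t => (fun i => z i - t) ∈ Lg) with hT
  have hTpos : 0 < (T.card : ℝ) := lt_of_lt_of_le (by (clear * - hY hUne hcB; positivity)) hzT
  refine ⟨T, Finset.filter_subset _ _, ?_, hzT, ?_⟩
  · exact Finset.card_pos.mp (by exact_mod_cast hTpos)
  · intro t ht t' ht'
    have htB : t ∈ B := (Finset.mem_filter.mp ht).1
    have htB' : t' ∈ B := (Finset.mem_filter.mp ht').1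
    have hgt := (Finset.mem_filter.mp (Finset.mem_filter.mp ht).2).2
    have hgt' := (Finset.mem_filter.mp (Finset.mem_filter.mp ht').2).2
    have e0 := cs_card_eq Y S (0 : G)
    simp only [add_zero] at e0
    rw [e0, cs_card_eq Y S (t - t')]
    -- pointwise inequality
    set b1 : G → ℝ := fun x => if csBad Y S ε (fun i => z i - t) x then (1 : ℝ) else 0 with hb1
    set b2 : G → ℝ := fun x => if csBad Y S ε (fun i => z i - t') (x + (t - t')) then (1 : ℝ)
      else 0 with hb2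
    have hpt : ∀ x ∈ Y, csH Y S x - 2 * ε * (Y.card : ℝ) - (Y.card : ℝ) * b1 x
        - (Y.card : ℝ) * b2 x ≤ csH Y S (x + (t - t')) := by
      intro x hx
      by_cases h1 : csBad Y S ε (fun i => z i - t) x
      · have e1 : b1 x = 1 := by simp [hb1, h1]
        have e2 : 0 ≤ b2 x := by simp only [hb2]; split_ifs <;> norm_num
        rw [e1]
        have := csH_le Y S x
        have h0 := csH_nonneg Y S (x + (t - t'))
        have : 0 ≤ (Y.card : ℝ) * b2 x := by (clear * - hY; positivity)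
        have : 0 ≤ 2 * ε * (Y.card : ℝ) := by (clear * - hε hY; positivity)
        (clear hB0 hU hε hε1 hn hc hYU hUne hcU hcB hcYU hn0 hnR PU hPU hLg hLgcard hPUcard hdc hz hzT hT hTpos ht' htB htB' hgt' e0 b1 hb1 hb2 hx h1 e1 e2 this; linarith)
      · by_cases h2 : csBad Y S ε (fun i => z i - t') (x + (t - t'))
        · have e1 : b2 x = 1 := by simp [hb2, h2]
          have e2 : 0 ≤ b1 x := by simp only [hb1]; split_ifs <;> norm_num
          rw [e1]
          have := csH_le Y S x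
          have h0 := csH_nonneg Y S (x + (t - t'))
          have : 0 ≤ (Y.card : ℝ) * b1 x := by (clear * - hY; positivity)
          have : 0 ≤ 2 * ε * (Y.card : ℝ) := by (clear * - hε hY; positivity)
          (clear hB0 hU hε hε1 hn hc hYU hUne hcU hcB hcYU hn0 hnR PU hPU hLg hLgcard hPUcard hdc hz hzT hT hTpos ht' htB htB' hgt' e0 hb1 b2 hb2 hx h1 h2 e1 e2 this; linarith)
        · have e1 : b1 x = 0 := by simp [hb1, h1]
          have e2 : b2 x = 0 := by simp [hb2, h2]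
          rw [e1, e2]
          unfold csBad at h1 h2
          rw [not_lt] at h1 h2
          rw [csHit_shift] at h1 h2
          have e3 : x + (t - t') + t' = x + t := by abel
          rw [e3] at h2
          have h1' := (abs_le.mp h1).1
          have h2' := (abs_le.mp h2).2
          have h5 : (n : ℝ) * (csH Y S x / Y.card) - 2 * ε * n
              ≤ (n : ℝ) * (csH Y S (x + (t - t')) / Y.card) := by linarith only [h1', h2']
          have h6 : csH Y S x / Y.card - 2 * ε ≤ csH Y S (x + (t - t')) / Y.card := by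
            refine le_of_mul_le_mul_left ?_ hnR
            linarith only [h1', h2']
          have h7 : (csH Y S x / Y.card - 2 * ε) * (Y.card : ℝ)
              ≤ csH Y S (x + (t - t')) / Y.card * (Y.card : ℝ) :=
            mul_le_mul_of_nonneg_right h6 hc.le
          rw [sub_mul, div_mul_cancel₀ _ hc.ne', div_mul_cancel₀ _ hc.ne'] at h7
          linarith only [h7]
    have hs1 : ∑ x ∈ Y, b1 x ≤ ε * (Y.card : ℝ) := by
      have : ∑ x ∈ Y, b1 x = ((Y.filter (fun x => csBad Y S ε (fun i => z i - t) x)).card : ℝ) := by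
        rw [Finset.card_filter]
        push_cast
        rfl
      rw [this]
      refine le_trans ?_ hgt
      exact_mod_cast Finset.card_le_card (Finset.filter_subset_filter _ hYU)
    have hs2 : ∑ x ∈ Y, b2 x ≤ ε * (Y.card : ℝ) := by
      have : ∑ x ∈ Y, b2 x
          = ((Y.filter (fun x => csBad Y S ε (fun i => z i - t') (x + (t - t')))).card : ℝ) := by
        rw [Finset.card_filter]
        push_cast
        rfl
      rw [this]
      refine le_trans ?_ hgt'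
      norm_cast
      refine Finset.card_le_card_of_injOn (fun x => x + (t - t')) ?_ ?_
      · intro x hx
        have hx' := Finset.mem_filter.mp (Finset.mem_coe.mp hx)
        refine Finset.mem_coe.mpr (Finset.mem_filter.mpr ⟨?_, hx'.2⟩)
        have := hU x hx'.1 t htB t' htB'
        have e : x + (t - t') = x + t - t' := by abel
        show x + (t - t') ∈ U
        rw [e]
        exact this
      · intro a _ b _ hab
        exact add_right_cancel hab
    have hsum := Finset.sum_le_sum hpt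
    rw [Finset.sum_sub_distrib, Finset.sum_sub_distrib, Finset.sum_sub_distrib, Finset.sum_const,
      nsmul_eq_mul, ← Finset.mul_sum, ← Finset.mul_sum] at hsum
    nlinarith only [hsum, hs1, hs2]

end Vale.Agent.P057
end
end

section

section

/-! # P057, T6: the Fourier step -/

open Finset

namespace Vale.Agent.P057

variable {G : Type*} [AddCommGroup G] [Fintype G] [DecidableEq G]

omit [DecidableEq G] in
/-- `∑_{y,y'} γ (y - y') = |∑_y γ y|²` -/
theorem fourier_sum_sub (Y : Finset G) (γ : AddChar G ℂ) :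
    ∑ y ∈ Y, ∑ y' ∈ Y, γ (y - y') = ((‖∑ y ∈ Y, γ y‖ ^ 2 : ℝ) : ℂ) := by
  have h : ∑ y ∈ Y, ∑ y' ∈ Y, γ (y - y')
      = (∑ y ∈ Y, γ y) * (starRingEnd ℂ) (∑ y ∈ Y, γ y) := by
    rw [map_sum, Finset.sum_mul_sum]
    refine Finset.sum_congr rfl fun y _ => Finset.sum_congr rfl fun y' _ => ?_
    rw [sub_eq_add_neg, AddChar.map_add_eq_mul, AddChar.map_neg_eq_conj]
  rw [h, Complex.mul_conj, Complex.normSq_eq_norm_sq]

omit [DecidableEq G] in
theorem fourier_sum_sub4 (Y T : Finset G) (γ : AddChar G ℂ) :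
    ∑ y ∈ Y, ∑ y' ∈ Y, ∑ s ∈ T, ∑ s' ∈ T, γ (y - y' + (s - s'))
      = ((‖∑ y ∈ Y, γ y‖ ^ 2 * ‖∑ s ∈ T, γ s‖ ^ 2 : ℝ) : ℂ) := by
  rw [Complex.ofReal_mul, ← fourier_sum_sub, ← fourier_sum_sub, Finset.sum_mul]
  refine Finset.sum_congr rfl fun y _ => ?_
  rw [Finset.sum_mul]
  refine Finset.sum_congr rfl fun y' _ => ?_
  rw [Finset.mul_sum]
  refine Finset.sum_congr rfl fun s _ => ?_
  rw [Finset.mul_sum]
  refine Finset.sum_congr rfl fun s' _ => ?_
  rw [AddChar.map_add_eq_mul]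

/-- Fourier inversion for the autocorrelation of an indicator. -/
theorem fourier_corr (A : Finset G) (z : G) :
    ∑ γ : AddChar G ℂ, ((‖∑ a ∈ A, γ a‖ ^ 2 : ℝ) : ℂ) * γ z
      = (Fintype.card G : ℂ) * ((corr (ind A) z : ℝ) : ℂ) := by
  have h1 : ∀ γ : AddChar G ℂ, ((‖∑ a ∈ A, γ a‖ ^ 2 : ℝ) : ℂ) * γ z
      = ∑ a ∈ A, ∑ a' ∈ A, γ (a - a' + z) := by
    intro γ
    rw [← fourier_sum_sub, Finset.sum_mul]
    refine Finset.sum_congr rfl fun a _ => ?_
    rw [Finset.sum_mul]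
    refine Finset.sum_congr rfl fun a' _ => ?_
    rw [AddChar.map_add_eq_mul]
  simp_rw [h1]
  rw [Finset.sum_comm]
  have h2 : ∀ a ∈ A, ∑ γ : AddChar G ℂ, ∑ a' ∈ A, γ (a - a' + z)
      = (Fintype.card G : ℂ) * (ind A (a + z) : ℂ) := by
    intro a _
    rw [Finset.sum_comm]
    have h3 : ∀ a' ∈ A, ∑ γ : AddChar G ℂ, γ (a - a' + z)
        = if a' = a + z then (Fintype.card G : ℂ) else 0 := by
      intro a' _
      rw [AddChar.sum_apply_eq_ite]
      have : a - a' + z = 0 ↔ a' = a + z := by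
        constructor
        · intro h
          have : a + z - a' = 0 := by rw [← h]; abel
          exact (sub_eq_zero.1 this).symm
        · rintro rfl
          abel
      simp only [this]
    rw [Finset.sum_congr rfl h3, Finset.sum_ite_eq']
    unfold ind
    split_ifs <;> simp
  rw [Finset.sum_congr rfl h2, ← Finset.mul_sum]
  congr 1
  unfold corr
  push_cast
  rw [← Finset.sum_subset (Finset.subset_univ A)]
  · refine Finset.sum_congr rfl fun a ha => ?_
    simp [ind, ha]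
  · intro x _ hx
    simp [ind, hx]

theorem fourier_corr_pairs (A Y : Finset G) :
    (Fintype.card G : ℝ) * ∑ y ∈ Y, ∑ y' ∈ Y, corr (ind A) (y - y')
      = ∑ γ : AddChar G ℂ, ‖∑ a ∈ A, γ a‖ ^ 2 * ‖∑ y ∈ Y, γ y‖ ^ 2 := by
  have h : ((((Fintype.card G : ℝ) * ∑ y ∈ Y, ∑ y' ∈ Y, corr (ind A) (y - y') : ℝ)) : ℂ)
      = ((∑ γ : AddChar G ℂ, ‖∑ a ∈ A, γ a‖ ^ 2 * ‖∑ y ∈ Y, γ y‖ ^ 2 : ℝ) : ℂ) := by
    rw [Complex.ofReal_mul, Complex.ofReal_natCast, Complex.ofReal_sum, Finset.mul_sum,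
      Complex.ofReal_sum]
    calc ∑ y ∈ Y, (Fintype.card G : ℂ) * ((∑ y' ∈ Y, corr (ind A) (y - y') : ℝ) : ℂ)
        = ∑ y ∈ Y, ∑ y' ∈ Y, ∑ γ : AddChar G ℂ,
            ((‖∑ a ∈ A, γ a‖ ^ 2 : ℝ) : ℂ) * γ (y - y') := by
          refine Finset.sum_congr rfl fun y _ => ?_
          rw [Complex.ofReal_sum, Finset.mul_sum]
          exact Finset.sum_congr rfl fun y' _ => (fourier_corr A (y - y')).symm
      _ = ∑ γ : AddChar G ℂ, ∑ y ∈ Y, ∑ y' ∈ Y,
            ((‖∑ a ∈ A, γ a‖ ^ 2 : ℝ) : ℂ) * γ (y - y') := by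
          rw [Finset.sum_comm]
          rw [Finset.sum_comm (s := (univ : Finset (AddChar G ℂ))) (t := Y)]
          rw [Finset.sum_comm]
          refine Finset.sum_congr rfl fun y _ => ?_
          rw [Finset.sum_comm]
      _ = ∑ γ : AddChar G ℂ, ((‖∑ a ∈ A, γ a‖ ^ 2 * ‖∑ y ∈ Y, γ y‖ ^ 2 : ℝ) : ℂ) := by
          refine Finset.sum_congr rfl fun γ _ => ?_
          rw [Complex.ofReal_mul, ← fourier_sum_sub Y γ, Finset.mul_sum]
          refine Finset.sum_congr rfl fun y _ => ?_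
          rw [Finset.mul_sum]
  exact_mod_cast h

theorem fourier_corr_quads (A Y T : Finset G) :
    (Fintype.card G : ℝ) * ∑ y ∈ Y, ∑ y' ∈ Y, ∑ s ∈ T, ∑ s' ∈ T,
        corr (ind A) (y - y' + (s - s'))
      = ∑ γ : AddChar G ℂ, ‖∑ a ∈ A, γ a‖ ^ 2 * (‖∑ y ∈ Y, γ y‖ ^ 2 * ‖∑ s ∈ T, γ s‖ ^ 2) := by
  have h : ((((Fintype.card G : ℝ) * ∑ y ∈ Y, ∑ y' ∈ Y, ∑ s ∈ T, ∑ s' ∈ T,
        corr (ind A) (y - y' + (s - s')) : ℝ)) : ℂ)
      = ((∑ γ : AddChar G ℂ,
          ‖∑ a ∈ A, γ a‖ ^ 2 * (‖∑ y ∈ Y, γ y‖ ^ 2 * ‖∑ s ∈ T, γ s‖ ^ 2) : ℝ) : ℂ) := by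
    calc ((((Fintype.card G : ℝ) * ∑ y ∈ Y, ∑ y' ∈ Y, ∑ s ∈ T, ∑ s' ∈ T,
        corr (ind A) (y - y' + (s - s')) : ℝ)) : ℂ)
        = ∑ y ∈ Y, ∑ y' ∈ Y, ∑ s ∈ T, ∑ s' ∈ T,
            ((Fintype.card G : ℂ) * ((corr (ind A) (y - y' + (s - s')) : ℝ) : ℂ)) := by
          push_cast
          simp only [Finset.mul_sum]
      _ = ∑ y ∈ Y, ∑ y' ∈ Y, ∑ s ∈ T, ∑ s' ∈ T, ∑ γ : AddChar G ℂ,
            ((‖∑ a ∈ A, γ a‖ ^ 2 : ℝ) : ℂ) * γ (y - y' + (s - s')) := by
          simp only [fourier_corr]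
      _ = ∑ γ : AddChar G ℂ, ∑ y ∈ Y, ∑ y' ∈ Y, ∑ s ∈ T, ∑ s' ∈ T,
            ((‖∑ a ∈ A, γ a‖ ^ 2 : ℝ) : ℂ) * γ (y - y' + (s - s')) := by
          rw [Finset.sum_comm (s := (univ : Finset (AddChar G ℂ))) (t := Y)]
          refine Finset.sum_congr rfl fun y _ => ?_
          rw [Finset.sum_comm (s := (univ : Finset (AddChar G ℂ))) (t := Y)]
          refine Finset.sum_congr rfl fun y' _ => ?_
          rw [Finset.sum_comm (s := (univ : Finset (AddChar G ℂ))) (t := T)]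
          refine Finset.sum_congr rfl fun s _ => ?_
          rw [Finset.sum_comm (s := (univ : Finset (AddChar G ℂ))) (t := T)]
      _ = ∑ γ : AddChar G ℂ,
          ((‖∑ a ∈ A, γ a‖ ^ 2 * (‖∑ y ∈ Y, γ y‖ ^ 2 * ‖∑ s ∈ T, γ s‖ ^ 2) : ℝ) : ℂ) := by
          refine Finset.sum_congr rfl fun γ _ => ?_
          rw [Complex.ofReal_mul (‖∑ a ∈ A, γ a‖ ^ 2), ← fourier_sum_sub4 Y T γ]
          simp only [Finset.mul_sum]
      _ = _ := by push_cast; rfl
  exact_mod_cast h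

/-- `∑_{b,b' ∈ B} corr (ind A) (b - b') = ∑_x #{b ∈ B : x + b ∈ A}²` -/
theorem fourier_corr_count (A B : Finset G) :
    ∑ b ∈ B, ∑ b' ∈ B, corr (ind A) (b - b')
      = ∑ x : G, ((B.filter (fun b => x + b ∈ A)).card : ℝ) ^ 2 := by
  have hN : ∀ x : G, ((B.filter (fun b => x + b ∈ A)).card : ℝ) = ∑ b ∈ B, ind A (x + b) := by
    intro x
    unfold ind
    rw [Finset.card_filter]
    push_cast
    rfl
  have hc : ∀ b b' : G, corr (ind A) (b - b') = ∑ x, ind A (x + b') * ind A (x + b) := by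
    intro b b'
    unfold corr
    rw [← Equiv.sum_comp (Equiv.addRight b')]
    refine Finset.sum_congr rfl fun x _ => ?_
    simp only [Equiv.coe_addRight]
    congr 2
    abel
  simp_rw [hc, hN, sq, Finset.sum_mul_sum]
  calc ∑ b ∈ B, ∑ b' ∈ B, ∑ x, ind A (x + b') * ind A (x + b)
      = ∑ x, ∑ b ∈ B, ∑ b' ∈ B, ind A (x + b') * ind A (x + b) := by
        rw [Finset.sum_comm (s := (univ : Finset G)) (t := B)]
        refine Finset.sum_congr rfl fun b _ => ?_
        rw [Finset.sum_comm (s := (univ : Finset G)) (t := B)]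
    _ = _ := by
        refine Finset.sum_congr rfl fun x _ => Finset.sum_congr rfl fun b _ =>
          Finset.sum_congr rfl fun b' _ => mul_comm _ _

theorem fourier_count_total (A B : Finset G) :
    ∑ x : G, ((B.filter (fun b => x + b ∈ A)).card : ℝ) = (A.card : ℝ) * (B.card : ℝ) := by
  have hN : ∀ x : G, ((B.filter (fun b => x + b ∈ A)).card : ℝ) = ∑ b ∈ B, ind A (x + b) := by
    intro x
    unfold ind
    rw [Finset.card_filter]
    push_cast
    rfl
  simp_rw [hN]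
  rw [Finset.sum_comm]
  have : ∀ b ∈ B, ∑ x, ind A (x + b) = (A.card : ℝ) := by
    intro b _
    have h := Equiv.sum_comp (Equiv.addRight b) (fun x => ind A x)
    simp only [Equiv.coe_addRight] at h
    rw [h]
    unfold ind
    simp only [sum_ite_mem, univ_inter, sum_const, nsmul_eq_mul, mul_one]
  rw [Finset.sum_congr rfl this, Finset.sum_const, nsmul_eq_mul, mul_comm]

theorem fourier_step (A Y T B : Finset G) (hA : A.Nonempty) (hY : Y.Nonempty) (hT : T.Nonempty)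
    (hB : B.Nonempty) (t : ℝ) (ht : 0 < t)
    (h1 : ∑ y ∈ Y, ∑ y' ∈ Y, corr (ind A) (y - y') ≤ (1 + 3/1000) * t * (Y.card : ℝ) ^ 2)
    (h2 : (1 - 5/1000) * t * (Y.card : ℝ) ^ 2 * (T.card : ℝ) ^ 2 ≤
      ∑ y ∈ Y, ∑ y' ∈ Y, ∑ s ∈ T, ∑ s' ∈ T, corr (ind A) (y - y' + (s - s')))
    (h3 : ∀ γ : AddChar G ℂ, (T.card : ℝ) / 2 ≤ ‖∑ x ∈ T, γ x‖ → ∀ b ∈ B, ‖γ b - 1‖ ≤ 1/400) :
    ∃ x : G, (1 - 1/50) * t * (B.card : ℝ) ≤
      (A.card : ℝ) * ((B.filter (fun b => x + b ∈ A)).card : ℝ) := by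
  classical
  have hn : (0:ℝ) < (Fintype.card G : ℝ) := by
    have : Nonempty G := ⟨0⟩
    exact_mod_cast Fintype.card_pos
  have hAc : (0:ℝ) < A.card := by exact_mod_cast hA.card_pos
  have hYc : (0:ℝ) < Y.card := by exact_mod_cast hY.card_pos
  have hTc : (0:ℝ) < T.card := by exact_mod_cast hT.card_pos
  have hBc : (0:ℝ) < B.card := by exact_mod_cast hB.card_pos
  set n : ℝ := (Fintype.card G : ℝ) with hndef
  let a : AddChar G ℂ → ℝ := fun γ => ‖∑ x ∈ A, γ x‖ ^ 2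
  let y : AddChar G ℂ → ℝ := fun γ => ‖∑ x ∈ Y, γ x‖ ^ 2
  let τ : AddChar G ℂ → ℝ := fun γ => ‖∑ x ∈ T, γ x‖ ^ 2
  let β : AddChar G ℂ → ℝ := fun γ => ‖∑ x ∈ B, γ x‖ ^ 2
  have hbound : ∀ (S : Finset G) (γ : AddChar G ℂ), ‖∑ x ∈ S, γ x‖ ≤ S.card := by
    intro S γ
    calc ‖∑ x ∈ S, γ x‖ ≤ ∑ x ∈ S, ‖γ x‖ := norm_sum_le _ _
      _ = S.card := by simp only [AddChar.norm_apply, sum_const, nsmul_eq_mul, mul_one]
  have ha0 : ∀ γ, 0 ≤ a γ := fun γ => sq_nonneg _
  have hy0 : ∀ γ, 0 ≤ y γ := fun γ => sq_nonneg _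
  have hτ0 : ∀ γ, 0 ≤ τ γ := fun γ => sq_nonneg _
  have hβ0 : ∀ γ, 0 ≤ β γ := fun γ => sq_nonneg _
  have hy1 : ∀ γ, y γ ≤ (Y.card : ℝ) ^ 2 := fun γ =>
    pow_le_pow_left₀ (norm_nonneg _) (hbound Y γ) 2
  have hτ1 : ∀ γ, τ γ ≤ (T.card : ℝ) ^ 2 := fun γ =>
    pow_le_pow_left₀ (norm_nonneg _) (hbound T γ) 2
  have e1 : n * ∑ y ∈ Y, ∑ y' ∈ Y, corr (ind A) (y - y') = ∑ γ, a γ * y γ :=
    fourier_corr_pairs A Y
  have e2 : n * ∑ y ∈ Y, ∑ y' ∈ Y, ∑ s ∈ T, ∑ s' ∈ T, corr (ind A) (y - y' + (s - s'))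
      = ∑ γ, a γ * (y γ * τ γ) := fourier_corr_quads A Y T
  have e3 : n * ∑ b ∈ B, ∑ b' ∈ B, corr (ind A) (b - b') = ∑ γ, a γ * β γ :=
    fourier_corr_pairs A B
  -- split along the large spectrum of `T`
  let Δ : Finset (AddChar G ℂ) := univ.filter (fun γ => (T.card : ℝ) / 2 ≤ ‖∑ x ∈ T, γ x‖)
  have hsplit : ∀ f : AddChar G ℂ → ℝ, ∑ γ, f γ = ∑ γ ∈ Δ, f γ + ∑ γ ∈ Δᶜ, f γ :=
    fun f => (Finset.sum_add_sum_compl Δ f).symm
  set P : ℝ := ∑ γ ∈ Δ, a γ * y γ with hP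
  set Q : ℝ := ∑ γ ∈ Δᶜ, a γ * y γ with hQ
  have hPQ : P + Q ≤ n * ((1 + 3/1000) * t * (Y.card : ℝ) ^ 2) := by
    rw [hP, hQ, ← hsplit, ← e1]
    exact mul_le_mul_of_nonneg_left h1 hn.le
  have hQ0 : 0 ≤ Q := Finset.sum_nonneg fun γ _ => mul_nonneg (ha0 γ) (hy0 γ)
  have hPQ2 : n * ((1 - 5/1000) * t * (Y.card : ℝ) ^ 2 * (T.card : ℝ) ^ 2)
      ≤ (T.card : ℝ) ^ 2 * (P + Q / 4) := by
    have h4 : ∑ γ, a γ * (y γ * τ γ) ≤ (T.card : ℝ) ^ 2 * (P + Q / 4) := by
      rw [hsplit]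
      have hd : ∑ γ ∈ Δ, a γ * (y γ * τ γ) ≤ (T.card : ℝ) ^ 2 * P := by
        rw [hP, Finset.mul_sum]
        refine Finset.sum_le_sum fun γ _ => ?_
        have : a γ * (y γ * τ γ) = τ γ * (a γ * y γ) := by ring
        rw [this]
        exact mul_le_mul_of_nonneg_right (hτ1 γ) (mul_nonneg (ha0 γ) (hy0 γ))
      have ho : ∑ γ ∈ Δᶜ, a γ * (y γ * τ γ) ≤ (T.card : ℝ) ^ 2 * (Q / 4) := by
        have : (T.card : ℝ) ^ 2 * (Q / 4) = ∑ γ ∈ Δᶜ, ((T.card : ℝ) ^ 2 / 4) * (a γ * y γ) := by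
          rw [← Finset.mul_sum, ← hQ]
          ring
        rw [this]
        refine Finset.sum_le_sum fun γ hγ => ?_
        have hlt : ‖∑ x ∈ T, γ x‖ < (T.card : ℝ) / 2 := by
          simpa [Δ] using hγ
        have hτ4 : τ γ ≤ (T.card : ℝ) ^ 2 / 4 := by
          have := pow_le_pow_left₀ (norm_nonneg _) hlt.le 2
          calc τ γ ≤ ((T.card : ℝ) / 2) ^ 2 := this
            _ = (T.card : ℝ) ^ 2 / 4 := by ring
        have : a γ * (y γ * τ γ) = τ γ * (a γ * y γ) := by ring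
        rw [this]
        exact mul_le_mul_of_nonneg_right hτ4 (mul_nonneg (ha0 γ) (hy0 γ))
      linarith only [hd, ho]
    calc n * ((1 - 5/1000) * t * (Y.card : ℝ) ^ 2 * (T.card : ℝ) ^ 2)
        ≤ n * ∑ y ∈ Y, ∑ y' ∈ Y, ∑ s ∈ T, ∑ s' ∈ T, corr (ind A) (y - y' + (s - s')) :=
          mul_le_mul_of_nonneg_left h2 hn.le
      _ = ∑ γ, a γ * (y γ * τ γ) := e2
      _ ≤ _ := h4
  set X : ℝ := n * (t * (Y.card : ℝ) ^ 2) with hX
  have hX0 : 0 < X := by (clear * - ht hY; positivity)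
  have hPQ' : P + Q ≤ (1003/1000) * X := by
    have : n * ((1 + 3/1000) * t * (Y.card : ℝ) ^ 2) = (1003/1000) * X := by rw [hX]; ring
    linarith only [hPQ]
  have hPQ2' : (995/1000) * X ≤ P + Q / 4 := by
    have hT2 : (0:ℝ) < (T.card : ℝ) ^ 2 := by (clear * - hT; positivity)
    have : n * ((1 - 5/1000) * t * (Y.card : ℝ) ^ 2 * (T.card : ℝ) ^ 2)
        = (T.card : ℝ) ^ 2 * ((995/1000) * X) := by rw [hX]; ring
    rw [this] at hPQ2
    exact le_of_mul_le_mul_left hPQ2 hT2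
  have hPlow : (992/1000) * X ≤ P := by linarith only [hPQ, hX0, hPQ2']
  -- lower bound for the sum over `Δ`
  have hβ : ∀ γ ∈ Δ, (399/400 * (B.card : ℝ)) ^ 2 ≤ β γ := by
    intro γ hγ
    have hγ' : (T.card : ℝ) / 2 ≤ ‖∑ x ∈ T, γ x‖ := by
      simpa [Δ] using hγ
    have h4 : ‖∑ b ∈ B, (γ b - 1)‖ ≤ (B.card : ℝ) * (1/400) := by
      calc ‖∑ b ∈ B, (γ b - 1)‖ ≤ ∑ b ∈ B, ‖γ b - 1‖ := norm_sum_le _ _
        _ ≤ ∑ b ∈ B, (1/400 : ℝ) := Finset.sum_le_sum fun b hb => h3 γ hγ' b hb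
        _ = (B.card : ℝ) * (1/400) := by rw [Finset.sum_const, nsmul_eq_mul]
    have h5 : (B.card : ℝ) ≤ ‖∑ b ∈ B, γ b‖ + ‖∑ b ∈ B, (γ b - 1)‖ := by
      have : ((B.card : ℝ) : ℂ) = ∑ b ∈ B, γ b - ∑ b ∈ B, (γ b - 1) := by
        rw [Finset.sum_sub_distrib]
        simp
      calc (B.card : ℝ) = ‖((B.card : ℝ) : ℂ)‖ := by simp
        _ = ‖∑ b ∈ B, γ b - ∑ b ∈ B, (γ b - 1)‖ := by rw [this]
        _ ≤ _ := norm_sub_le _ _
    exact pow_le_pow_left₀ (by (clear * - hB; positivity)) (by linarith only [h4, h5]) 2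
  have hfin : (98/100) * t * (B.card : ℝ) ^ 2 * n ≤ ∑ γ, a γ * β γ := by
    have h6 : (399/400 * (B.card : ℝ)) ^ 2 * P ≤ (Y.card : ℝ) ^ 2 * ∑ γ, a γ * β γ := by
      rw [hsplit, mul_add, hP, Finset.mul_sum, Finset.mul_sum, Finset.mul_sum]
      have h7 : 0 ≤ ∑ γ ∈ Δᶜ, (Y.card : ℝ) ^ 2 * (a γ * β γ) :=
        Finset.sum_nonneg fun γ _ => mul_nonneg (sq_nonneg _) (mul_nonneg (ha0 γ) (hβ0 γ))
      have h8 : ∑ γ ∈ Δ, (399/400 * (B.card : ℝ)) ^ 2 * (a γ * y γ)
          ≤ ∑ γ ∈ Δ, (Y.card : ℝ) ^ 2 * (a γ * β γ) := by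
        refine Finset.sum_le_sum fun γ hγ => ?_
        calc (399/400 * (B.card : ℝ)) ^ 2 * (a γ * y γ)
            ≤ β γ * (a γ * y γ) :=
              mul_le_mul_of_nonneg_right (hβ γ hγ) (mul_nonneg (ha0 γ) (hy0 γ))
          _ = y γ * (a γ * β γ) := by ring
          _ ≤ (Y.card : ℝ) ^ 2 * (a γ * β γ) :=
              mul_le_mul_of_nonneg_right (hy1 γ) (mul_nonneg (ha0 γ) (hβ0 γ))
      linarith only [h7, h8]
    have hY2 : (0:ℝ) < (Y.card : ℝ) ^ 2 := by (clear * - hY; positivity)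
    have h9 : (399/400 * (B.card : ℝ)) ^ 2 * ((992/1000) * X)
        ≤ (Y.card : ℝ) ^ 2 * ∑ γ, a γ * β γ :=
      le_trans (mul_le_mul_of_nonneg_left hPlow (by (clear * - hB; positivity))) h6
    have h10 : (399/400 * (B.card : ℝ)) ^ 2 * ((992/1000) * X)
        = (Y.card : ℝ) ^ 2 * ((399/400) ^ 2 * (992/1000) * (t * (B.card : ℝ) ^ 2 * n)) := by
      rw [hX]; ring
    rw [h10] at h9
    have h11 := le_of_mul_le_mul_left h9 hY2
    have h12 : (0:ℝ) < t * (B.card : ℝ) ^ 2 * n := by (clear * - ht hB; positivity)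
    nlinarith only [h11, h12]
  have hsum : (98/100) * t * (B.card : ℝ) ^ 2 ≤ ∑ b ∈ B, ∑ b' ∈ B, corr (ind A) (b - b') := by
    rw [← e3] at hfin
    have : n * ((98/100) * t * (B.card : ℝ) ^ 2)
        ≤ n * ∑ b ∈ B, ∑ b' ∈ B, corr (ind A) (b - b') := by linarith only [hfin]
    exact le_of_mul_le_mul_left this hn
  rw [fourier_corr_count] at hsum
  obtain ⟨x, -, hx⟩ := Finset.exists_max_image (univ : Finset G)
    (fun x => ((B.filter (fun b => x + b ∈ A)).card : ℝ)) ⟨0, Finset.mem_univ _⟩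
  refine ⟨x, ?_⟩
  have h13 : ∑ z : G, ((B.filter (fun b => z + b ∈ A)).card : ℝ) ^ 2
      ≤ ((B.filter (fun b => x + b ∈ A)).card : ℝ) * ((A.card : ℝ) * (B.card : ℝ)) := by
    rw [← fourier_count_total A B, Finset.mul_sum]
    refine Finset.sum_le_sum fun z _ => ?_
    rw [sq]
    exact mul_le_mul_of_nonneg_right (hx z (Finset.mem_univ _)) (Nat.cast_nonneg _)
  have h14 := hsum.trans h13
  have h15 : (B.card : ℝ) * ((1 - 1/50) * t * (B.card : ℝ))
      ≤ (B.card : ℝ) * ((A.card : ℝ) * ((B.filter (fun b => x + b ∈ A)).card : ℝ)) := by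
    nlinarith only [hsum, h13]
  exact le_of_mul_le_mul_left h15 hBc

end Vale.Agent.P057
end
end

section

section

open Finset

namespace Vale.Agent.P057

variable {G : Type*} [AddCommGroup G] [Fintype G] [DecidableEq G]

private theorem corr_sub_eq (f : G → ℝ) (k k' : G) :
    corr f (k - k') = ∑ x, f (k' + x) * f (k + x) := by
  unfold corr
  rw [← Equiv.sum_comp (Equiv.addLeft k')]
  refine Finset.sum_congr rfl fun x _ => ?_
  have : k' + x + (k - k') = k + x := by abel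
  simp only [Equiv.coe_addLeft, this]

private theorem conv_sub_eq (f : G → ℝ) (u k k' : G) :
    conv f (u + k - k') = ∑ x, f (k + x) * f (-k' + (u - x)) := by
  unfold conv
  rw [← Equiv.sum_comp (Equiv.addLeft k)]
  refine Finset.sum_congr rfl fun x _ => ?_
  have : u + k - k' - (k + x) = -k' + (u - x) := by abel
  simp only [Equiv.coe_addLeft, this]

theorem sum_corr_pow (f : G → ℝ) (K : Finset G) (p : ℕ) :
    ∑ k ∈ K, ∑ k' ∈ K, (corr f (k - k')) ^ p
      = ∑ x : Fin p → G, (∑ k ∈ K, ∏ i, f (k + x i)) ^ 2 := by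
  have h : ∀ k k' : G, (corr f (k - k')) ^ p
      = ∑ x : Fin p → G, (∏ i, f (k' + x i)) * ∏ i, f (k + x i) := by
    intro k k'
    rw [corr_sub_eq, Fintype.sum_pow]
    refine Finset.sum_congr rfl fun x _ => ?_
    rw [Finset.prod_mul_distrib]
  simp_rw [h]
  have h1 : ∀ k ∈ K, ∑ k' ∈ K, ∑ x : Fin p → G, (∏ i, f (k' + x i)) * ∏ i, f (k + x i)
      = ∑ x : Fin p → G, (∑ k' ∈ K, ∏ i, f (k' + x i)) * ∏ i, f (k + x i) := by
    intro k _
    rw [Finset.sum_comm]
    refine Finset.sum_congr rfl fun x _ => ?_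
    rw [Finset.sum_mul]
  rw [Finset.sum_congr rfl h1, Finset.sum_comm]
  refine Finset.sum_congr rfl fun x _ => ?_
  rw [← Finset.mul_sum, sq]

theorem sum_corr_pow_nonneg (f : G → ℝ) (K : Finset G) (p : ℕ) :
    0 ≤ ∑ k ∈ K, ∑ k' ∈ K, (corr f (k - k')) ^ p := by
  rw [sum_corr_pow]
  exact Finset.sum_nonneg fun x _ => sq_nonneg _

theorem sum_conv_pow_le (f : G → ℝ) (K : Finset G) (hK : ∀ k ∈ K, -k ∈ K) (u : G) (p : ℕ) :
    ∑ k ∈ K, ∑ k' ∈ K, (conv f (u + k - k')) ^ p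
      ≤ ∑ k ∈ K, ∑ k' ∈ K, (corr f (k - k')) ^ p := by
  have h : ∀ k k' : G, (conv f (u + k - k')) ^ p
      = ∑ x : Fin p → G, (∏ i, f (k + x i)) * ∏ i, f (-k' + (u - x i)) := by
    intro k k'
    rw [conv_sub_eq, Fintype.sum_pow]
    refine Finset.sum_congr rfl fun x _ => ?_
    rw [Finset.prod_mul_distrib]
  simp_rw [h]
  set P : (Fin p → G) → ℝ := fun x => ∑ k ∈ K, ∏ i, f (k + x i) with hP
  have hsym : ∀ x : Fin p → G, ∑ k' ∈ K, ∏ i, f (-k' + (u - x i)) = P (fun i => u - x i) := by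
    intro x
    rw [hP]
    refine Finset.sum_bij' (fun k _ => -k) (fun k _ => -k) (fun k hk => hK k hk)
      (fun k hk => hK k hk) (fun k _ => neg_neg k) (fun k _ => neg_neg k) (fun k _ => rfl)
  have h1 : ∑ k ∈ K, ∑ k' ∈ K, ∑ x : Fin p → G,
        (∏ i, f (k + x i)) * ∏ i, f (-k' + (u - x i))
      = ∑ x : Fin p → G, P x * P (fun i => u - x i) := by
    have h2 : ∀ k ∈ K, ∑ k' ∈ K, ∑ x : Fin p → G,
          (∏ i, f (k + x i)) * ∏ i, f (-k' + (u - x i))
        = ∑ x : Fin p → G, (∏ i, f (k + x i)) * P (fun i => u - x i) := by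
      intro k _
      rw [Finset.sum_comm]
      refine Finset.sum_congr rfl fun x _ => ?_
      rw [← Finset.mul_sum, hsym]
    rw [Finset.sum_congr rfl h2, Finset.sum_comm]
    refine Finset.sum_congr rfl fun x _ => ?_
    rw [← Finset.sum_mul]
  rw [h1, sum_corr_pow]
  have h3 : ∑ x : Fin p → G, P (fun i => u - x i) ^ 2 = ∑ x : Fin p → G, P x ^ 2 := by
    refine Fintype.sum_equiv (Equiv.arrowCongr (Equiv.refl (Fin p)) (Equiv.subLeft u)) _ _ ?_
    intro x
    rfl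
  have h4 : ∀ x : Fin p → G, P x * P (fun i => u - x i)
      ≤ (P x ^ 2 + P (fun i => u - x i) ^ 2) / 2 := by
    intro x
    nlinarith only [sq_nonneg (P x - P (fun i => u - x i))]
  calc ∑ x : Fin p → G, P x * P (fun i => u - x i)
      ≤ ∑ x : Fin p → G, (P x ^ 2 + P (fun i => u - x i) ^ 2) / 2 :=
        Finset.sum_le_sum fun x _ => h4 x
    _ = (∑ x : Fin p → G, P x ^ 2 + ∑ x : Fin p → G, P (fun i => u - x i) ^ 2) / 2 := by
        rw [← Finset.sum_add_distrib, Finset.sum_div]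
    _ = ∑ x : Fin p → G, (∑ k ∈ K, ∏ i, f (k + x i)) ^ 2 := by
        rw [h3]; ring

end Vale.Agent.P057
end
end

section

section

open Finset

namespace Vale.Agent.P057

theorem unbalance_num : (1000:ℝ) ≤ (22/21:ℝ)^150 := by
  norm_num

theorem unbalance_abs {p : ℕ} (x : ℝ) : |x|^p ≤ (1/6:ℝ)^p + 6 * |x|^(p+1) := by
  rcases le_total |x| (1/6) with h | h
  · have h1 : |x|^p ≤ (1/6:ℝ)^p := pow_le_pow_left₀ (abs_nonneg _) h p
    have h2 : 0 ≤ 6 * |x|^(p+1) := by positivity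
    linarith only [h1, h2]
  · have h1 : 0 ≤ |x|^p := by positivity
    have h2 : (0:ℝ) ≤ (1/6:ℝ)^p := by positivity
    have h3 : |x|^p ≤ 6 * |x|^(p+1) := by
      rw [pow_succ]
      nlinarith only [h, h1]
    linarith only [h2, h3]

theorem unbalance_pos {p : ℕ} (hpe : Even p) (x : ℝ) :
    |x|^(p+1) + x^(p+1) = 2 * (max x 0)^(p+1) := by
  rcases le_total x 0 with h | h
  · rw [max_eq_right h, abs_of_nonpos h]
    have : Odd (p+1) := hpe.add_one
    rw [this.neg_pow]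
    simp
  · rw [max_eq_left h, abs_of_nonneg h]
    ring

theorem unbalance_split {p : ℕ} (x : ℝ) :
    (max x 0)^(p+1) ≤ (1/8:ℝ)^(p+1) + (if 1/8 < x then x^(p+1) else 0) := by
  split_ifs with h
  · rw [max_eq_left (by linarith)]
    have : (0:ℝ) ≤ (1/8:ℝ)^(p+1) := by positivity
    linarith only [this]
  · push Not at h
    rw [add_zero]
    exact pow_le_pow_left₀ (le_max_right _ _) (max_le h (by norm_num)) _

theorem unbalance {ι : Type*} (s : Finset ι) (hs : s.Nonempty) (g F : ι → ℝ)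
    (hF : ∀ i ∈ s, 0 ≤ F i) (hgF : ∀ i ∈ s, 1 + g i - 1/40 ≤ F i)
    (p : ℕ) (hp : 4 ≤ p) (hpe : Even p)
    (h1 : (1/5:ℝ)^p * (s.card : ℝ) ≤ ∑ i ∈ s, (g i) ^ p)
    (h2 : 0 ≤ ∑ i ∈ s, (g i) ^ (p+1)) :
    ∃ P : ℕ, p ≤ P ∧ P ≤ 150 * p ∧ (21/20:ℝ)^P * (s.card : ℝ) ≤ ∑ i ∈ s, (F i) ^ P := by
  classical
  set n : ℝ := (s.card : ℝ) with hn
  have hn0 : 0 < n := by rw [hn]; exact_mod_cast hs.card_pos
  have h5 : (0:ℝ) < (1/5:ℝ)^p := by positivity
  -- step (i)
  have e6 : (1/6:ℝ)^p ≤ (1/2) * (1/5:ℝ)^p := by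
    have : (5/6:ℝ)^p ≤ 1/2 := by
      have h0 : (5/6:ℝ)^p ≤ (5/6:ℝ)^4 := pow_le_pow_of_le_one (by norm_num) (by norm_num) hp
      have : (5/6:ℝ)^4 ≤ 1/2 := by norm_num
      linarith only [h0]
    have e : (1/6:ℝ)^p = (5/6:ℝ)^p * (1/5:ℝ)^p := by rw [← mul_pow]; norm_num
    rw [e]
    exact mul_le_mul_of_nonneg_right this h5.le
  have i1 : (1/12) * (1/5:ℝ)^p * n ≤ ∑ i ∈ s, |g i|^(p+1) := by
    have a1 : ∑ i ∈ s, (g i)^p ≤ ∑ i ∈ s, ((1/6:ℝ)^p + 6 * |g i|^(p+1)) := by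
      refine Finset.sum_le_sum fun i _ => ?_
      rw [← hpe.pow_abs]
      exact unbalance_abs _
    rw [Finset.sum_add_distrib, Finset.sum_const, nsmul_eq_mul, ← Finset.mul_sum] at a1
    have a2 : n * (1/6:ℝ)^p ≤ n * ((1/2) * (1/5:ℝ)^p) := mul_le_mul_of_nonneg_left e6 hn0.le
    have a3 := h1.trans a1
    nlinarith only [h1, a1, a2]
  -- step (ii)
  have i2 : (1/24) * (1/5:ℝ)^p * n ≤ ∑ i ∈ s, (max (g i) 0)^(p+1) := by
    have a1 : ∑ i ∈ s, |g i|^(p+1) + ∑ i ∈ s, (g i)^(p+1) = 2 * ∑ i ∈ s, (max (g i) 0)^(p+1) := by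
      rw [← Finset.sum_add_distrib, Finset.mul_sum]
      exact Finset.sum_congr rfl fun i _ => unbalance_pos hpe _
    linarith only [h2, i1, a1]
  -- step (iii)
  set S := s.filter (fun i => 1/8 < g i) with hS
  have e8 : (1/8:ℝ)^(p+1) ≤ (1/48) * (1/5:ℝ)^p := by
    have : (5/8:ℝ)^p ≤ 1/6 := by
      have h0 : (5/8:ℝ)^p ≤ (5/8:ℝ)^4 := pow_le_pow_of_le_one (by norm_num) (by norm_num) hp
      have : (5/8:ℝ)^4 ≤ 1/6 := by norm_num
      linarith only [h0]
    have e : (1/8:ℝ)^(p+1) = (1/8) * ((5/8:ℝ)^p * (1/5:ℝ)^p) := by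
      rw [← mul_pow, pow_succ]; norm_num; ring
    rw [e]
    have := mul_le_mul_of_nonneg_right this h5.le
    linarith only [this]
  have i3 : (1/48) * (1/5:ℝ)^p * n ≤ ∑ i ∈ S, (g i)^(p+1) := by
    have a1 : ∑ i ∈ s, (max (g i) 0)^(p+1) ≤
        ∑ i ∈ s, ((1/8:ℝ)^(p+1) + (if 1/8 < g i then (g i)^(p+1) else 0)) :=
      Finset.sum_le_sum fun i _ => unbalance_split _
    rw [Finset.sum_add_distrib, Finset.sum_const, nsmul_eq_mul, ← Finset.sum_filter] at a1
    have a2 : n * (1/8:ℝ)^(p+1) ≤ n * ((1/48) * (1/5:ℝ)^p) := mul_le_mul_of_nonneg_left e8 hn0.le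
    nlinarith only [i2, a1, a2]
  -- step (iv)
  have i4 : (∑ i ∈ S, (g i)^(p+1))^2 ≤ (S.card : ℝ) * ∑ i ∈ s, (F i)^(2*p+2) := by
    have a1 : (∑ i ∈ S, (g i)^(p+1))^2 ≤ (S.card : ℝ) * ∑ i ∈ S, ((g i)^(p+1))^2 :=
      sq_sum_le_card_mul_sum_sq
    refine a1.trans (mul_le_mul_of_nonneg_left ?_ (by (clear * -; positivity)))
    calc ∑ i ∈ S, ((g i)^(p+1))^2 ≤ ∑ i ∈ S, (F i)^(2*p+2) := by
          refine Finset.sum_le_sum fun i hi => ?_
          rw [hS, Finset.mem_filter] at hi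
          rw [← pow_mul, show (p+1)*2 = 2*p+2 by ring]
          exact pow_le_pow_left₀ (by linarith only [hi]) (by linarith only [hgF i hi.1]) _
      _ ≤ ∑ i ∈ s, (F i)^(2*p+2) := by
          refine Finset.sum_le_sum_of_subset_of_nonneg (Finset.filter_subset _ _) ?_
          intro i hi _
          exact pow_nonneg (hF i hi) _
  by_cases hA : (4:ℝ)^(p+1) * n ≤ ∑ i ∈ s, (F i)^(2*p+2)
  · refine ⟨2*p+2, by (clear * - hp; omega), by omega, le_trans ?_ hA⟩
    refine mul_le_mul_of_nonneg_right ?_ hn0.le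
    rw [show 2*p+2 = 2*(p+1) by ring, pow_mul]
    exact pow_le_pow_left₀ (by norm_num) (by norm_num) _
  · push Not at hA
    refine ⟨150*p, by omega, le_rfl, ?_⟩
    -- lower bound on the size of S
    have j1 : n / 9216 ≤ 100^p * (S.card : ℝ) := by
      have b1 : ((1/48) * (1/5:ℝ)^p * n)^2 ≤ (S.card : ℝ) * (4^(p+1) * n) := by
        refine le_trans (pow_le_pow_left₀ (by (clear * - hs; positivity)) i3 2) (i4.trans ?_)
        exact mul_le_mul_of_nonneg_left hA.le (by (clear * -; positivity))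
      have b2 : (25:ℝ)^p * ((1/5:ℝ)^p)^2 = 1 := by
        rw [← pow_mul, mul_comm p 2, pow_mul, ← mul_pow]; norm_num
      have b3 : (100:ℝ)^p = 25^p * 4^p := by rw [← mul_pow]; norm_num
      have b4 := mul_le_mul_of_nonneg_left b1 (show (0:ℝ) ≤ 25^p by positivity)
      have b5 : (25:ℝ)^p * ((1/48) * (1/5:ℝ)^p * n)^2 = (1/2304) * n^2 := by
        calc (25:ℝ)^p * ((1/48) * (1/5:ℝ)^p * n)^2
            = (1/2304) * n^2 * ((25:ℝ)^p * ((1/5:ℝ)^p)^2) := by ring
          _ = _ := by rw [b2]; ring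
      rw [b5] at b4
      have b6 : (25:ℝ)^p * ((S.card : ℝ) * (4^(p+1) * n)) = 4 * (100^p * (S.card : ℝ)) * n := by
        rw [b3, pow_succ]; ring
      rw [b6] at b4
      have b7 : (1/2304) * n ≤ 4 * (100^p * (S.card : ℝ)) := by
        have : ((1/2304) * n) * n ≤ (4 * (100^p * (S.card : ℝ))) * n := by nlinarith only [b4]
        exact le_of_mul_le_mul_right this hn0
      linarith only [b7]
    have j2 : (S.card : ℝ) * (11/10:ℝ)^(150*p) ≤ ∑ i ∈ s, (F i)^(150*p) := by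
      calc (S.card : ℝ) * (11/10:ℝ)^(150*p) = ∑ i ∈ S, (11/10:ℝ)^(150*p) := by
            rw [Finset.sum_const, nsmul_eq_mul]
        _ ≤ ∑ i ∈ S, (F i)^(150*p) := by
            refine Finset.sum_le_sum fun i hi => ?_
            rw [hS, Finset.mem_filter] at hi
            exact pow_le_pow_left₀ (by norm_num) (by linarith only [hi, hgF i hi.1]) _
        _ ≤ _ := by
            refine Finset.sum_le_sum_of_subset_of_nonneg (Finset.filter_subset _ _) ?_
            intro i hi _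
            exact pow_nonneg (hF i hi) _
    have j3 : (9216:ℝ) * 100^p ≤ (22/21:ℝ)^(150*p) := by
      rw [pow_mul]
      have c1 : (1000:ℝ)^p ≤ ((22/21:ℝ)^150)^p := pow_le_pow_left₀ (by norm_num) unbalance_num p
      have c2 : (1000:ℝ)^p = 10^p * 100^p := by rw [← mul_pow]; norm_num
      have c3 : (9216:ℝ) ≤ 10^p := by
        calc (9216:ℝ) ≤ 10^4 := by norm_num
          _ ≤ 10^p := pow_le_pow_right₀ (by norm_num) hp
      calc (9216:ℝ) * 100^p ≤ 10^p * 100^p := mul_le_mul_of_nonneg_right c3 (by positivity)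
        _ = 1000^p := c2.symm
        _ ≤ _ := c1
    have j4 : (11/10:ℝ)^(150*p) = (21/20:ℝ)^(150*p) * (22/21:ℝ)^(150*p) := by
      rw [← mul_pow]; norm_num
    refine le_trans ?_ j2
    rw [j4]
    have k1 : (21/20:ℝ)^(150*p) * n ≤ (21/20:ℝ)^(150*p) * ((S.card : ℝ) * (22/21:ℝ)^(150*p)) := by
      refine mul_le_mul_of_nonneg_left ?_ (by positivity)
      calc n ≤ 9216 * (100^p * (S.card : ℝ)) := by linarith only [j1]
        _ = (S.card : ℝ) * (9216 * 100^p) := by ring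
        _ ≤ (S.card : ℝ) * (22/21:ℝ)^(150*p) := mul_le_mul_of_nonneg_left j3 (by (clear * -; positivity))
    rw [mul_left_comm]
    exact k1

end Vale.Agent.P057
end
end

section

section

open Finset

namespace Vale.Agent.P057

variable {G : Type*} [AddCommGroup G] [Fintype G] [DecidableEq G]

theorem localAP_sum_conv (A B : Finset G) (z : G) :
    ∑ x, ind A x * ind B (z - x) = ((A.filter (fun x => z - x ∈ B)).card : ℝ) := by
  have h : ∀ x, ind A x * ind B (z - x) = if x ∈ A.filter (fun x => z - x ∈ B) then (1:ℝ) else 0 := by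
    intro x
    simp only [ind, Finset.mem_filter]
    by_cases h1 : x ∈ A <;> by_cases h2 : z - x ∈ B <;> simp [h1, h2]
  simp_rw [h]
  rw [Finset.sum_ite_mem, Finset.univ_inter, Finset.sum_const, nsmul_eq_mul, mul_one]

theorem localAP_sum_corr (A B : Finset G) (z : G) :
    ∑ x, ind A x * ind B (x + z) = ((A.filter (fun x => x + z ∈ B)).card : ℝ) := by
  have h : ∀ x, ind A x * ind B (x + z) = if x ∈ A.filter (fun x => x + z ∈ B) then (1:ℝ) else 0 := by
    intro x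
    simp only [ind, Finset.mem_filter]
    by_cases h1 : x ∈ A <;> by_cases h2 : x + z ∈ B <;> simp [h1, h2]
  simp_rw [h]
  rw [Finset.sum_ite_mem, Finset.univ_inter, Finset.sum_const, nsmul_eq_mul, mul_one]

theorem localAP_conv (A B : Finset G) (α : ℝ) (z : G) :
    conv (fun x => ind A x - α * ind B x) z =
      ((A.filter (fun x => z - x ∈ A)).card : ℝ)
      - 2 * α * ((A.filter (fun x => z - x ∈ B)).card : ℝ)
      + α^2 * ((B.filter (fun x => z - x ∈ B)).card : ℝ) := by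
  have h3 : ∑ x, ind B x * ind A (z - x) = ∑ x, ind A x * ind B (z - x) := by
    refine Fintype.sum_equiv (Equiv.subLeft z) _ _ fun x => ?_
    simp only [Equiv.subLeft_apply, sub_sub_cancel]
    ring
  have h : conv (fun x => ind A x - α * ind B x) z =
      ∑ x, ind A x * ind A (z - x) - α * ∑ x, ind A x * ind B (z - x)
        - α * ∑ x, ind B x * ind A (z - x) + α^2 * ∑ x, ind B x * ind B (z - x) := by
    unfold conv
    rw [Finset.mul_sum, Finset.mul_sum, Finset.mul_sum, ← Finset.sum_sub_distrib,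
      ← Finset.sum_sub_distrib, ← Finset.sum_add_distrib]
    exact Finset.sum_congr rfl fun x _ => by ring
  rw [h, h3, localAP_sum_conv, localAP_sum_conv, localAP_sum_conv]
  ring

theorem localAP_corr (A B : Finset G) (α : ℝ) (z : G) :
    corr (fun x => ind A x - α * ind B x) z =
      corr (ind A) z
      - α * (((A.filter (fun x => x + z ∈ B)).card : ℝ) + ((A.filter (fun x => x - z ∈ B)).card : ℝ))
      + α^2 * ((B.filter (fun x => x + z ∈ B)).card : ℝ) := by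
  have h3 : ∑ x, ind B x * ind A (x + z) = ((A.filter (fun x => x - z ∈ B)).card : ℝ) := by
    have e : ∑ x, ind B x * ind A (x + z) = ∑ x, ind A x * ind B (x + (-z)) := by
      refine Fintype.sum_equiv (Equiv.addRight z) _ _ fun x => ?_
      simp only [Equiv.coe_addRight, add_neg_cancel_right]
      ring
    rw [e, localAP_sum_corr]
    simp only [sub_eq_add_neg]
  have h : corr (fun x => ind A x - α * ind B x) z =
      ∑ x, ind A x * ind A (x + z) - α * ∑ x, ind A x * ind B (x + z)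
        - α * ∑ x, ind B x * ind A (x + z) + α^2 * ∑ x, ind B x * ind B (x + z) := by
    unfold corr
    rw [Finset.mul_sum, Finset.mul_sum, Finset.mul_sum, ← Finset.sum_sub_distrib,
      ← Finset.sum_sub_distrib, ← Finset.sum_add_distrib]
    exact Finset.sum_congr rfl fun x _ => by ring
  rw [h, h3, localAP_sum_corr A B, localAP_sum_corr B B]
  unfold corr
  ring

omit [AddCommGroup G] [Fintype G] [DecidableEq G] in
theorem localAP_filter_card (A : Finset G) (q : G → Prop) [DecidablePred q] :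
    ((A.filter q).card : ℝ) = (A.card : ℝ) - ((A.filter (fun x => ¬ q x)).card : ℝ) := by
  have := Finset.card_filter_add_card_filter_not (s := A) q
  have h2 : ((A.filter q).card : ℝ) + ((A.filter (fun x => ¬ q x)).card : ℝ) = (A.card : ℝ) := by
    exact_mod_cast this
  linarith only [h2]

theorem moment_from_AP (A1 A2 B1 B2 B3 U : Finset G)
    (hinj : Function.Injective (fun x : G => x + x))
    (hA1 : A1 ⊆ B1) (hA2B : A2 ⊆ B2) (hA2A : A2 ⊆ A1)
    (hB1s : ∀ x ∈ B1, -x ∈ B1) (hB3s : ∀ x ∈ B3, -x ∈ B3) (hB3 : B3.Nonempty)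
    (hA2ne : A2.Nonempty)
    (hU : ∀ y ∈ B2, ∀ b ∈ B3, ∀ b' ∈ B3, y - b + b' ∈ U)
    (hUcard : (U.card : ℝ) ≤ 2 * (B2.card : ℝ))
    (p : ℕ) (hp4 : 4 ≤ p) (hpe : Even p)
    (hA2card : (B2.card : ℝ) ≤ 2 ^ p * (A2.card : ℝ))
    (N : ℝ) (hN : N * (B1.card : ℝ) = (A1.card : ℝ) ^ 2) (hN4 : 4 ≤ N)
    (hfree : ∀ y ∈ A2, ∀ a ∈ A1, ∀ a' ∈ A1, a + a' = y + y → a = y)
    (heA : ∀ y ∈ A2, ((A1.filter (fun x => x - (y + y) ∉ B1)).card : ℝ) ≤ 1/1000 * (A1.card : ℝ))
    (heK : ∀ b ∈ B3, ∀ b' ∈ B3,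
      ((A1.filter (fun x => x - ((b + b) - (b' + b')) ∉ B1)).card : ℝ) ≤ 1/1000 * (A1.card : ℝ)) :
    ∃ P : ℕ, p ≤ P ∧ P ≤ 150 * p ∧
      (21/20 * N) ^ P * ((B3.image (fun x => x + x)).card : ℝ) ^ 2 ≤
        ∑ k ∈ B3.image (fun x => x + x), ∑ k' ∈ B3.image (fun x => x + x),
          (corr (ind A1) (k - k')) ^ P := by
  have hB1pos : (0:ℝ) < B1.card := by
    obtain ⟨y, hy⟩ := hA2ne
    exact_mod_cast Finset.card_pos.2 ⟨y, hA1 (hA2A hy)⟩
  have hN0 : 0 < N := by linarith only [hN4]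
  set α : ℝ := (A1.card : ℝ) / B1.card with hα
  have hα0 : 0 ≤ α := by (clear * - hB1pos; positivity)
  have hαB : α * B1.card = A1.card := by rw [hα]; (clear * - hB1pos; field_simp)
  have hαA : α * A1.card = N := by
    have : α * A1.card * B1.card = N * B1.card := by rw [hN, hα]; (clear * - hB1pos; field_simp)
    exact mul_right_cancel₀ hB1pos.ne' this
  have hα2 : α^2 * B1.card = N := by rw [pow_two, mul_assoc, hαB, hαA]
  set f : G → ℝ := fun x => ind A1 x - α * ind B1 x with hf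
  -- values of the convolution at doubled points of A2
  have hconv : ∀ y ∈ A2, conv f (y + y) ≤ -(N/2) := by
    intro y hy
    rw [hf, localAP_conv]
    have c1 : ((A1.filter (fun x => (y + y) - x ∈ A1)).card : ℝ) ≤ 1 := by
      have : (A1.filter (fun x => (y + y) - x ∈ A1)).card ≤ 1 := by
        refine Finset.card_le_one.2 ?_
        intro a ha b hb
        rw [Finset.mem_filter] at ha hb
        rw [hfree y hy a ha.1 _ ha.2 (by abel), hfree y hy b hb.1 _ hb.2 (by abel)]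
      exact_mod_cast this
    have c2 : (999/1000) * (A1.card : ℝ) ≤ ((A1.filter (fun x => (y + y) - x ∈ B1)).card : ℝ) := by
      have e : A1.filter (fun x => (y + y) - x ∈ B1) = A1.filter (fun x => x - (y + y) ∈ B1) := by
        refine Finset.filter_congr fun x _ => ⟨fun h => ?_, fun h => ?_⟩
        · have := hB1s _ h
          rwa [neg_sub] at this
        · have := hB1s _ h
          rwa [neg_sub] at this
      rw [e, localAP_filter_card]
      have := heA y hy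
      linarith only [this]
    have c3 : ((B1.filter (fun x => (y + y) - x ∈ B1)).card : ℝ) ≤ B1.card := by
      exact_mod_cast Finset.card_filter_le _ _
    have c4 : 2 * α * ((999/1000) * (A1.card : ℝ)) ≤
        2 * α * ((A1.filter (fun x => (y + y) - x ∈ B1)).card : ℝ) :=
      mul_le_mul_of_nonneg_left c2 (by (clear * - hB1pos; positivity))
    have c5 : α^2 * ((B1.filter (fun x => (y + y) - x ∈ B1)).card : ℝ) ≤ α^2 * B1.card :=
      mul_le_mul_of_nonneg_left c3 (by (clear * -; positivity))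
    have c6 : 2 * α * ((999/1000) * (A1.card : ℝ)) = (999/500) * N := by rw [← hαA]; ring
    rw [hα2] at c5
    rw [c6] at c4
    linarith only [hN4, c1, c4, c5]
  have hconvp : ∀ y ∈ A2, (N/2)^p ≤ (conv f (y + y))^p := by
    intro y hy
    have h1 := hconv y hy
    rw [← hpe.pow_abs (conv f (y + y))]
    refine pow_le_pow_left₀ (by positivity) ?_ p
    rw [abs_of_nonpos (by linarith only [hN4, h1])]
    linarith only [h1]
  -- sum over B2
  have hnn : ∀ z, 0 ≤ (conv f z)^p := fun z => hpe.pow_nonneg _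
  have hB2sum : (B2.card : ℝ) * (N/4)^p ≤ ∑ y ∈ B2, (conv f (y + y))^p := by
    calc (B2.card : ℝ) * (N/4)^p ≤ (2^p * (A2.card : ℝ)) * (N/4)^p :=
          mul_le_mul_of_nonneg_right hA2card (by positivity)
      _ = ∑ y ∈ A2, (N/2)^p := by
          rw [Finset.sum_const, nsmul_eq_mul]
          have : (N/2)^p = 2^p * (N/4)^p := by rw [← mul_pow]; congr 1; ring
          rw [this]; ring
      _ ≤ ∑ y ∈ A2, (conv f (y + y))^p := Finset.sum_le_sum hconvp
      _ ≤ ∑ y ∈ B2, (conv f (y + y))^p :=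
          Finset.sum_le_sum_of_subset_of_nonneg hA2B fun _ _ _ => hnn _
  -- shift by b - b'
  have hshift : ∀ b ∈ B3, ∀ b' ∈ B3, ∑ y ∈ B2, (conv f (y + y))^p ≤
      ∑ u ∈ U, (conv f ((u + u) + (b + b) - (b' + b')))^p := by
    intro b hb b' hb'
    have hinj' : Set.InjOn (fun y : G => y - b + b') (B2 : Set G) := by
      intro x _ y _ hxy
      simpa using hxy
    have e : ∑ y ∈ B2, (conv f (y + y))^p =
        ∑ u ∈ B2.image (fun y => y - b + b'), (conv f ((u + u) + (b + b) - (b' + b')))^p := by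
      rw [Finset.sum_image hinj']
      refine Finset.sum_congr rfl fun y _ => ?_
      congr 2
      abel
    rw [e]
    refine Finset.sum_le_sum_of_subset_of_nonneg ?_ fun _ _ _ => hnn _
    intro u hu
    rw [Finset.mem_image] at hu
    obtain ⟨y, hy, rfl⟩ := hu
    exact hU y hy b hb b' hb'
  have hB3pos : (0:ℝ) < B3.card := by exact_mod_cast hB3.card_pos
  have hB2pos : (0:ℝ) < B2.card := by
    obtain ⟨y, hy⟩ := hA2ne
    exact_mod_cast Finset.card_pos.2 ⟨y, hA2B hy⟩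
  have hUne : U.Nonempty := by
    obtain ⟨y, hy⟩ := hA2ne
    obtain ⟨b, hb⟩ := hB3
    exact ⟨_, hU y (hA2B hy) b hb b hb⟩
  have hUpos : (0:ℝ) < U.card := by exact_mod_cast hUne.card_pos
  have hbig : (B3.card : ℝ)^2 * ((B2.card : ℝ) * (N/4)^p) ≤
      ∑ u ∈ U, ∑ b ∈ B3, ∑ b' ∈ B3, (conv f ((u + u) + (b + b) - (b' + b')))^p := by
    have e1 : ∑ b ∈ B3, ∑ b' ∈ B3, ((B2.card : ℝ) * (N/4)^p) ≤
        ∑ b ∈ B3, ∑ b' ∈ B3, ∑ u ∈ U, (conv f ((u + u) + (b + b) - (b' + b')))^p :=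
      Finset.sum_le_sum fun b hb => Finset.sum_le_sum fun b' hb' =>
        hB2sum.trans (hshift b hb b' hb')
    have e2 : ∑ b ∈ B3, ∑ b' ∈ B3, ((B2.card : ℝ) * (N/4)^p) =
        (B3.card : ℝ)^2 * ((B2.card : ℝ) * (N/4)^p) := by
      simp only [Finset.sum_const, nsmul_eq_mul]; ring
    have e3 : ∑ b ∈ B3, ∑ b' ∈ B3, ∑ u ∈ U, (conv f ((u + u) + (b + b) - (b' + b')))^p =
        ∑ u ∈ U, ∑ b ∈ B3, ∑ b' ∈ B3, (conv f ((u + u) + (b + b) - (b' + b')))^p := by
      rw [Finset.sum_comm' (s := U) (t := fun _ => B3) (s' := fun _ => U) (t' := B3) (by simp [and_comm])]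
      refine Finset.sum_congr rfl fun b _ => ?_
      rw [Finset.sum_comm]
    rw [e2, e3] at e1
    exact e1
  -- pick a good u
  have hexu : ∃ u ∈ U, (N/5)^p * (B3.card : ℝ)^2 ≤
      ∑ b ∈ B3, ∑ b' ∈ B3, (conv f ((u + u) + (b + b) - (b' + b')))^p := by
    by_contra hcon
    push Not at hcon
    have e1 : ∑ u ∈ U, ∑ b ∈ B3, ∑ b' ∈ B3, (conv f ((u + u) + (b + b) - (b' + b')))^p <
        ∑ u ∈ U, (N/5)^p * (B3.card : ℝ)^2 := Finset.sum_lt_sum_of_nonempty hUne hcon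
    rw [Finset.sum_const, nsmul_eq_mul] at e1
    have e2 : (2:ℝ) * (N/5)^p ≤ (N/4)^p := by
      have : (N/4)^p = (5/4:ℝ)^p * (N/5)^p := by rw [← mul_pow]; congr 1; ring
      rw [this]
      have h2 : (2:ℝ) ≤ (5/4:ℝ)^p := by
        calc (2:ℝ) ≤ (5/4:ℝ)^4 := by norm_num
          _ ≤ (5/4:ℝ)^p := pow_le_pow_right₀ (by norm_num) hp4
      exact mul_le_mul_of_nonneg_right h2 (by positivity)
    have e3 : (U.card : ℝ) * ((N/5)^p * (B3.card : ℝ)^2) ≤
        (2 * (B2.card : ℝ)) * ((N/5)^p * (B3.card : ℝ)^2) :=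
      mul_le_mul_of_nonneg_right hUcard (by (clear * - hN4 hB3 hαA hN hN0 hα2 hconv hconvp hB2sum hbig hcon e1 e2; positivity))
    have e4 : (2 * (B2.card : ℝ)) * ((N/5)^p * (B3.card : ℝ)^2) ≤
        (B3.card : ℝ)^2 * ((B2.card : ℝ) * (N/4)^p) := by
      have := mul_le_mul_of_nonneg_left e2 (show (0:ℝ) ≤ (B3.card : ℝ)^2 * B2.card by (clear * - hB3 hαA hN hN4 hN0 hα2 hconv hconvp hB2sum hbig hcon e1 e2 e3 hB2pos; positivity))
      nlinarith only [this]
    linarith only [hbig, e1, e3, e4]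
  obtain ⟨u, -, hu⟩ := hexu
  set K := B3.image (fun x => x + x) with hK
  have hinjOn : Set.InjOn (fun x : G => x + x) (B3 : Set G) := hinj.injOn
  have hKcard : (K.card : ℝ) = B3.card := by
    rw [hK, Finset.card_image_of_injOn hinjOn]
  have hKs : ∀ k ∈ K, -k ∈ K := by
    intro k hk
    rw [hK, Finset.mem_image] at hk ⊢
    obtain ⟨b, hb, rfl⟩ := hk
    exact ⟨-b, hB3s b hb, by abel⟩
  have hconvK : ∑ k ∈ K, ∑ k' ∈ K, (conv f ((u + u) + k - k'))^p =
      ∑ b ∈ B3, ∑ b' ∈ B3, (conv f ((u + u) + (b + b) - (b' + b')))^p := by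
    rw [hK, Finset.sum_image hinjOn]
    refine Finset.sum_congr rfl fun b _ => ?_
    rw [Finset.sum_image hinjOn]
  have hcorrK : (N/5)^p * (K.card : ℝ)^2 ≤ ∑ k ∈ K, ∑ k' ∈ K, (corr f (k - k'))^p := by
    rw [hKcard]
    refine hu.trans ?_
    rw [← hconvK]
    exact sum_conv_pow_le f K hKs (u + u) p
  -- comparison of corr f and corr (ind A1)
  have hcmp : ∀ q ∈ K ×ˢ K, corr f (q.1 - q.2) + (499/500) * N ≤ corr (ind A1) (q.1 - q.2) := by
    rintro ⟨k, k'⟩ hq
    rw [Finset.mem_product] at hq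
    obtain ⟨hk, hk'⟩ := hq
    simp only at hk hk' ⊢
    rw [hK, Finset.mem_image] at hk hk'
    obtain ⟨b, hb, rfl⟩ := hk
    obtain ⟨b', hb', rfl⟩ := hk'
    have h1 := heK b hb b' hb'
    have h2 := heK b' hb' b hb
    rw [hf, localAP_corr]
    set z := (b + b) - (b' + b') with hz
    have d1 : (999/1000) * (A1.card : ℝ) ≤ ((A1.filter (fun x => x - z ∈ B1)).card : ℝ) := by
      rw [localAP_filter_card]
      linarith only [h1]
    have d2 : (999/1000) * (A1.card : ℝ) ≤ ((A1.filter (fun x => x + z ∈ B1)).card : ℝ) := by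
      rw [localAP_filter_card]
      have e : A1.filter (fun x => ¬ (x + z ∈ B1)) =
          A1.filter (fun x => x - ((b' + b') - (b + b)) ∉ B1) := by
        refine Finset.filter_congr fun x _ => ?_
        rw [show x - ((b' + b') - (b + b)) = x + z by rw [hz]; abel]
      rw [e]
      linarith only [h2]
    have d3 : ((B1.filter (fun x => x + z ∈ B1)).card : ℝ) ≤ B1.card := by
      exact_mod_cast Finset.card_filter_le _ _
    have d4 := mul_le_mul_of_nonneg_left (add_le_add d2 d1) hα0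
    have d5 : α^2 * ((B1.filter (fun x => x + z ∈ B1)).card : ℝ) ≤ N := by
      rw [← hα2]
      exact mul_le_mul_of_nonneg_left d3 (by (clear * -; positivity))
    have d6 : α * ((999/1000) * (A1.card : ℝ) + (999/1000) * (A1.card : ℝ)) = (999/500) * N := by
      rw [← hαA]; ring
    rw [d6] at d4
    linarith only [d4, d5]
  have hKne : (K ×ˢ K).Nonempty := by
    rw [hK]
    exact (hB3.image _).product (hB3.image _)
  obtain ⟨P, hP1, hP2, hP3⟩ := unbalance (K ×ˢ K) hKne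
    (fun q => corr f (q.1 - q.2) / N) (fun q => corr (ind A1) (q.1 - q.2) / N)
    (by
      intro q _
      refine div_nonneg ?_ hN0.le
      unfold corr ind
      exact Finset.sum_nonneg fun x _ => by split_ifs <;> simp)
    (by
      intro q hq
      have h := hcmp q hq
      have e : (corr f (q.1 - q.2) + (499/500) * N) / N ≤ corr (ind A1) (q.1 - q.2) / N :=
        div_le_div_of_nonneg_right h hN0.le
      have e2 : (corr f (q.1 - q.2) + (499/500) * N) / N = corr f (q.1 - q.2) / N + 499/500 := by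
        (clear * - hN4; field_simp)
      rw [e2] at e
      linarith only [e])
    p hp4 hpe
    (by
      rw [Finset.sum_product, Finset.card_product]
      have e : ∑ x ∈ K, ∑ y ∈ K, (corr f (x - y) / N)^p =
          (∑ x ∈ K, ∑ y ∈ K, (corr f (x - y))^p) / N^p := by
        rw [Finset.sum_div]
        refine Finset.sum_congr rfl fun x _ => ?_
        rw [Finset.sum_div]
        exact Finset.sum_congr rfl fun y _ => div_pow _ _ _
      simp only
      rw [e, le_div_iff₀ (by positivity)]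
      have e2 : (1/5:ℝ)^p * ((K.card * K.card : ℕ) : ℝ) * N^p = (N/5)^p * (K.card : ℝ)^2 := by
        push_cast
        have : (N/5)^p = (1/5:ℝ)^p * N^p := by rw [← mul_pow]; congr 1; ring
        rw [this]; ring
      rw [e2]
      exact hcorrK)
    (by
      rw [Finset.sum_product]
      have e : ∑ x ∈ K, ∑ y ∈ K, (corr f (x - y) / N)^(p+1) =
          (∑ x ∈ K, ∑ y ∈ K, (corr f (x - y))^(p+1)) / N^(p+1) := by
        rw [Finset.sum_div]
        refine Finset.sum_congr rfl fun x _ => ?_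
        rw [Finset.sum_div]
        exact Finset.sum_congr rfl fun y _ => div_pow _ _ _
      simp only
      rw [e]
      exact div_nonneg (sum_corr_pow_nonneg f K (p+1)) (by positivity))
  refine ⟨P, hP1, hP2, ?_⟩
  rw [Finset.sum_product, Finset.card_product] at hP3
  have e : ∑ x ∈ K, ∑ y ∈ K, (corr (ind A1) (x - y) / N)^P =
      (∑ x ∈ K, ∑ y ∈ K, (corr (ind A1) (x - y))^P) / N^P := by
    rw [Finset.sum_div]
    refine Finset.sum_congr rfl fun x _ => ?_
    rw [Finset.sum_div]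
    exact Finset.sum_congr rfl fun y _ => div_pow _ _ _
  simp only at hP3
  rw [e, le_div_iff₀ (by positivity)] at hP3
  refine le_trans (le_of_eq ?_) hP3
  push_cast
  rw [mul_pow]
  ring

end Vale.Agent.P057
end
end

section

section

open Finset

namespace Vale.Agent.P057

variable {G : Type*} [AddCommGroup G] [Fintype G] [DecidableEq G]

/-- fibre of a tuple in the sifting argument -/
def siftFib (A Y : Finset G) {p : ℕ} (x : Fin p → G) : Finset G :=
  Y.filter (fun y => ∀ i, y + x i ∈ A)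

theorem sift_ind_nonneg (A : Finset G) (x : G) : 0 ≤ ind A x := by
  unfold ind; split_ifs <;> norm_num

theorem sift_corr_ind_nonneg (A : Finset G) (z : G) : 0 ≤ corr (ind A) z :=
  Finset.sum_nonneg (fun x _ => mul_nonneg (sift_ind_nonneg A x) (sift_ind_nonneg A _))

theorem sift_prod_ind (A : Finset G) {p : ℕ} (x : Fin p → G) (y : G) :
    ∏ i, ind A (y + x i) = if (∀ i, y + x i ∈ A) then (1:ℝ) else 0 := by
  unfold ind
  rw [Finset.prod_ite_zero]
  simp only [mem_univ, forall_const, prod_const_one]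

theorem sift_sum_ind (A : Finset G) (y : G) : ∑ u, ind A (y + u) = (A.card : ℝ) := by
  rw [Fintype.sum_equiv (Equiv.addLeft y) (fun u => ind A (y + u)) (fun u => ind A u)
    (fun u => rfl)]
  unfold ind
  simp only [sum_ite_mem, univ_inter, sum_const, nsmul_eq_mul, mul_one]

theorem sift_sum_ind_mul (f : G → ℝ) (y y' : G) :
    ∑ u, f (y' + u) * f (y + u) = corr f (y - y') := by
  unfold corr
  rw [Fintype.sum_equiv (Equiv.addLeft y') (fun u => f (y' + u) * f (y + u))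
    (fun u => f u * f (u + (y - y')))]
  intro u
  simp only [Equiv.coe_addLeft]
  congr 2
  abel

theorem sift_card_fib (A Y : Finset G) {p : ℕ} (x : Fin p → G) :
    ((siftFib A Y x).card : ℝ) = ∑ y ∈ Y, ∏ i, ind A (y + x i) := by
  simp only [sift_prod_ind, siftFib, Finset.sum_ite, Finset.sum_const_zero, add_zero,
    Finset.sum_const, nsmul_eq_mul, mul_one]

theorem sift_card_bad (A Y : Finset G) {p : ℕ} (x : Fin p → G) (S : G → Prop) [DecidablePred S] :
    ((((siftFib A Y x) ×ˢ (siftFib A Y x)).filter (fun q => S (q.1 - q.2))).card : ℝ)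
      = ∑ y ∈ Y, ∑ y' ∈ Y, if S (y - y') then
          (∏ i, ind A (y + x i)) * (∏ i, ind A (y' + x i)) else 0 := by
  rw [← Finset.sum_product']
  rw [Finset.card_filter, Nat.cast_sum]
  have : siftFib A Y x ×ˢ siftFib A Y x
      = (Y ×ˢ Y).filter (fun q => (∀ i, q.1 + x i ∈ A) ∧ (∀ i, q.2 + x i ∈ A)) := by
    ext q
    simp only [siftFib, mem_product, mem_filter]
    tauto
  rw [this, Finset.sum_filter]
  refine Finset.sum_congr rfl (fun q _ => ?_)
  simp only [sift_prod_ind]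
  by_cases h1 : ∀ i, q.1 + x i ∈ A <;> by_cases h2 : ∀ i, q.2 + x i ∈ A <;>
    by_cases h3 : S (q.1 - q.2) <;> simp [h1, h2, h3]

theorem sift_sum_card (A Y : Finset G) (p : ℕ) :
    ∑ x : Fin p → G, ((siftFib A Y x).card : ℝ) = (Y.card : ℝ) * (A.card : ℝ) ^ p := by
  simp only [sift_card_fib]
  rw [Finset.sum_comm]
  have : ∀ y ∈ Y, ∑ x : Fin p → G, ∏ i, ind A (y + x i) = (A.card : ℝ) ^ p := by
    intro y _
    rw [← Fintype.sum_pow (fun u => ind A (y + u)) p, sift_sum_ind]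
  rw [Finset.sum_congr rfl this]
  simp

theorem sift_sum_pair (f : G → ℝ) (y y' : G) (p : ℕ) :
    ∑ x : Fin p → G, (∏ i, f (y + x i)) * (∏ i, f (y' + x i)) = (corr f (y - y')) ^ p := by
  rw [← sift_sum_ind_mul, Fintype.sum_pow]
  refine Finset.sum_congr rfl (fun x _ => ?_)
  rw [← Finset.prod_mul_distrib]
  refine Finset.prod_congr rfl (fun i _ => ?_)
  ring

theorem sift_sum_card_sq (A Y : Finset G) (p : ℕ) :
    ∑ x : Fin p → G, ((siftFib A Y x).card : ℝ) ^ 2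
      = ∑ y ∈ Y, ∑ y' ∈ Y, (corr (ind A) (y - y')) ^ p := by
  have h1 : ∀ x : Fin p → G, ((siftFib A Y x).card : ℝ) ^ 2
      = ∑ y ∈ Y, ∑ y' ∈ Y, (∏ i, ind A (y + x i)) * (∏ i, ind A (y' + x i)) := by
    intro x
    rw [sift_card_fib, sq, Finset.sum_mul_sum]
  simp only [h1]
  rw [Finset.sum_comm]
  refine Finset.sum_congr rfl (fun y _ => ?_)
  rw [Finset.sum_comm]
  refine Finset.sum_congr rfl (fun y' _ => ?_)
  exact sift_sum_pair _ _ _ _

theorem sift_sum_bad (A Y : Finset G) (p : ℕ) (S : G → Prop) [DecidablePred S] :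
    ∑ x : Fin p → G,
      ((((siftFib A Y x) ×ˢ (siftFib A Y x)).filter (fun q => S (q.1 - q.2))).card : ℝ)
      = ∑ y ∈ Y, ∑ y' ∈ Y, if S (y - y') then (corr (ind A) (y - y')) ^ p else 0 := by
  simp only [sift_card_bad]
  rw [Finset.sum_comm]
  refine Finset.sum_congr rfl (fun y _ => ?_)
  rw [Finset.sum_comm]
  refine Finset.sum_congr rfl (fun y' _ => ?_)
  by_cases h : S (y - y')
  · simp only [h, if_true]
    exact sift_sum_pair _ _ _ _
  · simp only [h, ↓reduceIte, sum_const_zero]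

theorem sift (A Y : Finset G) (hY : Y.Nonempty) (p : ℕ) (M ε δ : ℝ) (hM : 0 < M)
    (hε : 0 ≤ ε) (hε1 : ε ≤ 1) (hδ : 0 < δ) (hp : (1 - ε) ^ p ≤ δ / 2)
    (h : M ^ p * (Y.card : ℝ) ^ 2 ≤ ∑ y ∈ Y, ∑ y' ∈ Y, (corr (ind A) (y - y')) ^ p) :
    ∃ Y' ⊆ Y, Y'.Nonempty ∧ (1/2) * (M / (A.card : ℝ)) ^ p * (Y.card : ℝ) ≤ (Y'.card : ℝ) ∧
      (((Y' ×ˢ Y').filter (fun q => corr (ind A) (q.1 - q.2) < (1 - ε) * M)).card : ℝ)
        ≤ δ * (Y'.card : ℝ) ^ 2 := by
  by_contra hcon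
  push Not at hcon
  set θ : ℝ := (1/2) * (M / (A.card : ℝ)) ^ p * (Y.card : ℝ) with hθ
  set S : G → Prop := fun z => corr (ind A) z < (1 - ε) * M with hS
  letI hdec : DecidablePred S := fun z => inferInstanceAs (Decidable (corr (ind A) z < (1 - ε) * M))
  have hYpos : (0:ℝ) < Y.card := by exact_mod_cast hY.card_pos
  set b : (Fin p → G) → ℝ := fun x =>
    ((((siftFib A Y x) ×ˢ (siftFib A Y x)).filter (fun q => S (q.1 - q.2))).card : ℝ) with hb
  set c : (Fin p → G) → ℝ := fun x => ((siftFib A Y x).card : ℝ) with hc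
  have hθ0 : 0 ≤ θ := by (clear * - hM hY; positivity)
  have hb0 : ∀ x, 0 ≤ b x := fun x => by (clear * -; positivity)
  have hc0 : ∀ x, 0 ≤ c x := fun x => by (clear * -; positivity)
  -- pointwise alternative
  have key : ∀ x, 0 < c x → c x ^ 2 < θ * c x + b x / δ := by
    intro x hx
    by_cases h1 : θ ≤ c x
    · have hne : (siftFib A Y x).Nonempty := by
        rw [← Finset.card_pos]
        have hx' : (0:ℝ) < ((siftFib A Y x).card : ℝ) := hx
        exact_mod_cast hx'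
      have h2 := hcon (siftFib A Y x) (Finset.filter_subset _ _) hne h1
      have h3 : δ * c x ^ 2 < b x := by
        exact h2
      have h4 : c x ^ 2 < b x / δ := by
        rw [lt_div_iff₀ hδ]
        linarith only [h2]
      have h5 : 0 ≤ θ * c x := mul_nonneg hθ0 (hc0 x)
      linarith only [h4, h5]
    · push Not at h1
      have h5 : 0 ≤ b x / δ := div_nonneg (hb0 x) hδ.le
      nlinarith only [h5, hx, h1]
  have key' : ∀ x, c x ^ 2 ≤ θ * c x + b x / δ := by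
    intro x
    rcases (hc0 x).lt_or_eq with h1 | h1
    · exact (key x h1).le
    · rw [← h1]
      have h5 : 0 ≤ b x / δ := div_nonneg (hb0 x) hδ.le
      simp [h5]
  have hsum_c2 : ∑ x, c x ^ 2 = ∑ y ∈ Y, ∑ y' ∈ Y, (corr (ind A) (y - y')) ^ p :=
    sift_sum_card_sq A Y p
  have hTpos : 0 < M ^ p * (Y.card : ℝ) ^ 2 := by (clear * - hM hY; positivity)
  have hex : ∃ x, 0 < c x := by
    by_contra hno
    push Not at hno
    have : ∑ x, c x ^ 2 = 0 := by
      refine Finset.sum_eq_zero (fun x _ => ?_)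
      have : c x = 0 := le_antisymm (hno x) (hc0 x)
      rw [this]; norm_num
    linarith only [h, hsum_c2, hTpos, this]
  obtain ⟨x0, hx0⟩ := hex
  have hlt : ∑ x, c x ^ 2 < ∑ x, (θ * c x + b x / δ) :=
    Finset.sum_lt_sum (fun x _ => key' x) ⟨x0, Finset.mem_univ _, key x0 hx0⟩
  rw [Finset.sum_add_distrib, ← Finset.mul_sum, ← Finset.sum_div] at hlt
  have hsc : ∑ x, c x = (Y.card : ℝ) * (A.card : ℝ) ^ p := sift_sum_card A Y p
  have hsb : ∑ x, b x = ∑ y ∈ Y, ∑ y' ∈ Y, if S (y - y') then (corr (ind A) (y - y')) ^ p else 0 :=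
    sift_sum_bad A Y p S
  have hsb' : ∑ x, b x ≤ ((1 - ε) * M) ^ p * (Y.card : ℝ) ^ 2 := by
    rw [hsb]
    calc ∑ y ∈ Y, ∑ y' ∈ Y, (if S (y - y') then (corr (ind A) (y - y')) ^ p else 0)
        ≤ ∑ y ∈ Y, ∑ y' ∈ Y, ((1 - ε) * M) ^ p := by
          refine Finset.sum_le_sum (fun y _ => Finset.sum_le_sum (fun y' _ => ?_))
          split_ifs with hs
          · exact pow_le_pow_left₀ (sift_corr_ind_nonneg A _) (le_of_lt hs) p
          · have : 0 ≤ (1 - ε) * M := mul_nonneg (by linarith only [hε1]) hM.le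
            (clear * - hε1 hM; positivity)
      _ = ((1 - ε) * M) ^ p * (Y.card : ℝ) ^ 2 := by
          simp only [Finset.sum_const, nsmul_eq_mul]
          ring
  have h1 : θ * ∑ x, c x ≤ 1/2 * (M ^ p * (Y.card : ℝ) ^ 2) := by
    rw [hsc, hθ]
    have h2 : (M / (A.card : ℝ) * (A.card : ℝ)) ^ p ≤ M ^ p := by
      apply pow_le_pow_left₀ (by (clear * - hM; positivity))
      rcases eq_or_ne (A.card : ℝ) 0 with h0 | h0
      · rw [h0]; simpa only [div_zero, mul_zero] using hM.le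
      · rw [div_mul_cancel₀ _ h0]
    have h3 : 1 / 2 * (M / (A.card : ℝ)) ^ p * (Y.card : ℝ) * ((Y.card : ℝ) * (A.card : ℝ) ^ p)
        = 1/2 * ((M / (A.card : ℝ) * (A.card : ℝ)) ^ p * (Y.card : ℝ) ^ 2) := by
      rw [mul_pow]; ring
    rw [h3]
    have h4 : (0:ℝ) ≤ (Y.card : ℝ) ^ 2 := by (clear * - hY; positivity)
    nlinarith only [h2]
  have h2 : (∑ x, b x) / δ ≤ 1/2 * (M ^ p * (Y.card : ℝ) ^ 2) := by
    rw [div_le_iff₀ hδ]
    refine hsb'.trans ?_
    rw [mul_pow]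
    have h4 : (0:ℝ) ≤ M ^ p * (Y.card : ℝ) ^ 2 := by (clear * - hM hY; positivity)
    nlinarith only [hp, h4]
  linarith only [h, hsum_c2, hlt, h1, h2]

/-- extremal choice of a subset -/
theorem exists_extremal (A Y0 : Finset G) (hY0 : Y0.Nonempty) (κ : ℝ) (hκ : 0 ≤ κ) :
    ∃ Y ⊆ Y0, Y.Nonempty ∧ ∀ Y' ⊆ Y0, Y'.Nonempty →
      (∑ y ∈ Y', ∑ y' ∈ Y', corr (ind A) (y - y')) / (Y'.card : ℝ) ^ 2 * (Y'.card : ℝ) ^ κ
      ≤ (∑ y ∈ Y, ∑ y' ∈ Y, corr (ind A) (y - y')) / (Y.card : ℝ) ^ 2 * (Y.card : ℝ) ^ κ := by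
  obtain ⟨Y, hY, hmax⟩ := Finset.exists_max_image (Y0.powerset.filter (fun Y => Y.Nonempty))
    (fun Y => (∑ y ∈ Y, ∑ y' ∈ Y, corr (ind A) (y - y')) / (Y.card : ℝ) ^ 2 * (Y.card : ℝ) ^ κ)
    ⟨Y0, by simp [hY0]⟩
  rw [Finset.mem_filter, Finset.mem_powerset] at hY
  refine ⟨Y, hY.1, hY.2, fun Y' h1 h2 => hmax Y' ?_⟩
  rw [Finset.mem_filter, Finset.mem_powerset]
  exact ⟨h1, h2⟩

end Vale.Agent.P057
end
end

section

section

open Finset

namespace Vale.Agent.P057

variable {G : Type*} [AddCommGroup G] [Fintype G] [DecidableEq G]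

theorem tight_corr_le (A : Finset G) (z : G) : corr (ind A) z ≤ (A.card : ℝ) := by
  have h1 : ∑ u, ind A (0 + u) = (A.card : ℝ) := sift_sum_ind A 0
  rw [← h1]
  unfold corr
  refine Finset.sum_le_sum (fun x _ => ?_)
  rw [zero_add]
  have h2 : ind A (x + z) ≤ 1 := by unfold ind; split_ifs <;> norm_num
  calc ind A x * ind A (x + z) ≤ ind A x * 1 :=
        mul_le_mul_of_nonneg_left h2 (sift_ind_nonneg A x)
    _ = ind A x := mul_one _

/-- average of the autocorrelation over pairs -/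
noncomputable def tightAvg (A Y : Finset G) : ℝ :=
  (∑ y ∈ Y, ∑ y' ∈ Y, corr (ind A) (y - y')) / (Y.card : ℝ) ^ 2

theorem tightAvg_nonneg (A Y : Finset G) : 0 ≤ tightAvg A Y :=
  div_nonneg (Finset.sum_nonneg (fun _ _ => Finset.sum_nonneg
    (fun _ _ => sift_corr_ind_nonneg A _))) (by positivity)

theorem tightAvg_mul (A Y : Finset G) (hY : Y.Nonempty) :
    tightAvg A Y * (Y.card : ℝ) ^ 2 = ∑ y ∈ Y, ∑ y' ∈ Y, corr (ind A) (y - y') := by
  unfold tightAvg
  have : (0:ℝ) < Y.card := by exact_mod_cast hY.card_pos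
  rw [div_mul_cancel₀ _ (by positivity)]

theorem tightAvg_le (A Y : Finset G) (hY : Y.Nonempty) : tightAvg A Y ≤ (A.card : ℝ) := by
  have hYpos : (0:ℝ) < Y.card := by exact_mod_cast hY.card_pos
  unfold tightAvg
  rw [div_le_iff₀ (by positivity)]
  calc ∑ y ∈ Y, ∑ y' ∈ Y, corr (ind A) (y - y') ≤ ∑ y ∈ Y, ∑ y' ∈ Y, (A.card : ℝ) :=
        Finset.sum_le_sum (fun _ _ => Finset.sum_le_sum (fun _ _ => tight_corr_le A _))
    _ = (A.card : ℝ) * (Y.card : ℝ) ^ 2 := by
        simp only [Finset.sum_const, nsmul_eq_mul]; ring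

/-- few bad pairs forces a large average -/
theorem tightAvg_ge (A Y : Finset G) (hY : Y.Nonempty) (t δ : ℝ) (ht : 0 ≤ t)
    (h : (((Y ×ˢ Y).filter (fun q => corr (ind A) (q.1 - q.2) < t)).card : ℝ)
        ≤ δ * (Y.card : ℝ) ^ 2) : (1 - δ) * t ≤ tightAvg A Y := by
  have hYpos : (0:ℝ) < Y.card := by exact_mod_cast hY.card_pos
  unfold tightAvg
  rw [le_div_iff₀ (by positivity), ← Finset.sum_product']
  have h1 : ((Y ×ˢ Y).card : ℝ) = (Y.card : ℝ) ^ 2 := by
    rw [Finset.card_product]; push_cast; ring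
  have h2 : (((Y ×ˢ Y).filter (fun q => corr (ind A) (q.1 - q.2) < t)).card : ℝ)
      + (((Y ×ˢ Y).filter (fun q => ¬ corr (ind A) (q.1 - q.2) < t)).card : ℝ)
      = (Y.card : ℝ) ^ 2 := by
    rw [← h1]
    exact_mod_cast Finset.card_filter_add_card_filter_not (s := Y ×ˢ Y)
      (fun q => corr (ind A) (q.1 - q.2) < t)
  calc (1 - δ) * t * (Y.card : ℝ) ^ 2
      ≤ (((Y ×ˢ Y).filter (fun q => ¬ corr (ind A) (q.1 - q.2) < t)).card : ℝ) * t := by
        nlinarith only [ht, h, h2]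
    _ = ∑ q ∈ (Y ×ˢ Y).filter (fun q => ¬ corr (ind A) (q.1 - q.2) < t), t := by
        rw [Finset.sum_const, nsmul_eq_mul]
    _ ≤ ∑ q ∈ (Y ×ˢ Y).filter (fun q => ¬ corr (ind A) (q.1 - q.2) < t),
          corr (ind A) (q.1 - q.2) := by
        refine Finset.sum_le_sum (fun q hq => ?_)
        rw [Finset.mem_filter] at hq
        exact not_lt.mp hq.2
    _ ≤ ∑ q ∈ Y ×ˢ Y, corr (ind A) (q.1 - q.2) :=
        Finset.sum_le_sum_of_subset_of_nonneg (Finset.filter_subset _ _)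
          (fun q _ _ => sift_corr_ind_nonneg A _)

theorem tight_power_mean (A Y : Finset G) (hY : Y.Nonempty) (n : ℕ) (hn : n ≠ 0) :
    tightAvg A Y ^ n * (Y.card : ℝ) ^ 2 ≤ ∑ y ∈ Y, ∑ y' ∈ Y, (corr (ind A) (y - y')) ^ n := by
  obtain ⟨k, rfl⟩ := Nat.exists_eq_succ_of_ne_zero hn
  have hYpos : (0:ℝ) < Y.card := by exact_mod_cast hY.card_pos
  have h1 : ((Y ×ˢ Y).card : ℝ) = (Y.card : ℝ) ^ 2 := by
    rw [Finset.card_product]; push_cast; ring
  have h2 := pow_sum_le_card_mul_sum_pow (s := Y ×ˢ Y)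
    (f := fun q : G × G => corr (ind A) (q.1 - q.2)) (fun q _ => sift_corr_ind_nonneg A _) k
  rw [h1] at h2
  rw [← Finset.sum_product']
  have h3 : tightAvg A Y * (Y.card : ℝ) ^ 2 = ∑ q ∈ Y ×ˢ Y, corr (ind A) (q.1 - q.2) := by
    rw [tightAvg_mul A Y hY, ← Finset.sum_product']
  rw [← h3, mul_pow] at h2
  have h4 : (0:ℝ) < ((Y.card : ℝ) ^ 2) ^ k := by (clear * - hY; positivity)
  have h5 : tightAvg A Y ^ (k + 1) * ((Y.card : ℝ) ^ 2) ^ (k + 1)
      = ((Y.card : ℝ) ^ 2) ^ k * (tightAvg A Y ^ (k + 1) * (Y.card : ℝ) ^ 2) := by ring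
  rw [h5] at h2
  exact le_of_mul_le_mul_left h2 h4

theorem exists_tight_aux (A K : Finset G) (hK : K.Nonempty) (hA : A.Nonempty) (L N : ℝ)
    (hL : 1 ≤ L) (hN : 0 < N) (hNL : Real.exp (-L) * (A.card : ℝ) ≤ N) (P Q : ℕ) (hQ0 : Q ≠ 0)
    (hP : (1 - 1/1000 : ℝ) ^ P ≤ (1/1000) / 2) (hQ : (1 - 1/1000 : ℝ) ^ Q ≤ (1/1000) / 2)
    (h : (21/20 * N) ^ P * (K.card : ℝ) ^ 2 ≤ ∑ k ∈ K, ∑ k' ∈ K, (corr (ind A) (k - k')) ^ P) :
    ∃ Y ⊆ K, Y.Nonempty ∧ ∃ t : ℝ, 26/25 * N ≤ t ∧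
      Real.exp (-(P * L + (2 * Real.log 2 + Q * L
        + L * (Real.log 2 + Q * L) / Real.log (1001/1000)))) * (K.card : ℝ) ≤ (Y.card : ℝ) ∧
      (((Y ×ˢ Y).filter (fun q => corr (ind A) (q.1 - q.2) < t)).card : ℝ)
        ≤ 1/1000 * (Y.card : ℝ) ^ 2 ∧
      ∑ y ∈ Y, ∑ y' ∈ Y, corr (ind A) (y - y') ≤ (1 + 3/1000) * t * (Y.card : ℝ) ^ 2 := by
  have ha : (0:ℝ) < A.card := by exact_mod_cast hA.card_pos
  have hKpos : (0:ℝ) < K.card := by exact_mod_cast hK.card_pos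
  have hlog2 : 0 < Real.log 2 := Real.log_pos (by norm_num)
  have hlog : 0 < Real.log (1001/1000) := Real.log_pos (by norm_num)
  have hNa : Real.exp (-L) ≤ N / A.card := by rw [le_div_iff₀ ha]; exact hNL
  -- step 1
  obtain ⟨Y0, hY0K, hY0, hc0, hb0⟩ := sift A K hK P (21/20 * N) (1/1000) (1/1000)
    (by positivity) (by norm_num) (by norm_num) (by norm_num) hP h
  have hY0pos : (0:ℝ) < Y0.card := by exact_mod_cast hY0.card_pos
  have hm0 : (1 - 1/1000) * ((1 - 1/1000) * (21/20 * N)) ≤ tightAvg A Y0 :=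
    tightAvg_ge A Y0 hY0 _ _ (by positivity) hb0
  have hm0N : N ≤ tightAvg A Y0 := by nlinarith only [hN, hm0]
  have hc0' : 1/2 * Real.exp (-(P * L)) * (K.card : ℝ) ≤ Y0.card := by
    refine le_trans ?_ hc0
    have h1 : Real.exp (-L) ≤ 21/20 * N / A.card := by
      refine hNa.trans ?_
      rw [div_le_div_iff_of_pos_right ha]
      linarith only [hN]
    have h2 : Real.exp (-(P * L)) = Real.exp (-L) ^ P := by
      rw [← Real.exp_nat_mul]; congr 1; ring
    rw [h2]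
    (clear * - h1 hK; gcongr)
  -- step 2
  set q : ℝ := Real.log 2 + Q * L with hq
  have hqpos : 0 < q := by positivity
  set κ : ℝ := Real.log (1001/1000) / q with hκ
  have hκpos : 0 < κ := by positivity
  obtain ⟨Y1, hY1s, hY1, hmax⟩ := exists_extremal A Y0 hY0 κ hκpos.le
  have hY1pos : (0:ℝ) < Y1.card := by exact_mod_cast hY1.card_pos
  have hmax' : ∀ Y' ⊆ Y0, Y'.Nonempty →
      tightAvg A Y' * (Y'.card : ℝ) ^ κ ≤ tightAvg A Y1 * (Y1.card : ℝ) ^ κ := hmax
  set m1 := tightAvg A Y1 with hm1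
  have hm1_0 : 0 ≤ m1 := tightAvg_nonneg A Y1
  have h10 := hmax' Y0 (Finset.Subset.refl _) hY0
  have hcard10 : (Y1.card : ℝ) ≤ Y0.card := by exact_mod_cast Finset.card_le_card hY1s
  have hpow0 : (0:ℝ) < (Y0.card : ℝ) ^ κ := Real.rpow_pos_of_pos hY0pos κ
  have hpow1 : (0:ℝ) < (Y1.card : ℝ) ^ κ := Real.rpow_pos_of_pos hY1pos κ
  have hpow10 : (Y1.card : ℝ) ^ κ ≤ (Y0.card : ℝ) ^ κ :=
    Real.rpow_le_rpow hY1pos.le hcard10 hκpos.le
  have hm01 : tightAvg A Y0 ≤ m1 := by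
    have h1 : tightAvg A Y0 * (Y0.card : ℝ) ^ κ ≤ m1 * (Y0.card : ℝ) ^ κ :=
      h10.trans (mul_le_mul_of_nonneg_left hpow10 hm1_0)
    exact le_of_mul_le_mul_right h1 hpow0
  have hm1N : N ≤ m1 := hm0N.trans hm01
  have hm1pos : 0 < m1 := hN.trans_le hm1N
  have hm1a : m1 ≤ A.card := tightAvg_le A Y1 hY1
  have hY1low : Real.exp (-(L / κ)) * (Y0.card : ℝ) ≤ Y1.card := by
    have h1 : Real.exp (-L) * (Y0.card : ℝ) ^ κ ≤ (Y1.card : ℝ) ^ κ := by
      have h2 : Real.exp (-L) * (A.card : ℝ) * (Y0.card : ℝ) ^ κ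
          ≤ (A.card : ℝ) * (Y1.card : ℝ) ^ κ := by
        calc Real.exp (-L) * (A.card : ℝ) * (Y0.card : ℝ) ^ κ
            ≤ tightAvg A Y0 * (Y0.card : ℝ) ^ κ :=
              mul_le_mul_of_nonneg_right (hNL.trans hm0N) hpow0.le
          _ ≤ m1 * (Y1.card : ℝ) ^ κ := h10
          _ ≤ (A.card : ℝ) * (Y1.card : ℝ) ^ κ := mul_le_mul_of_nonneg_right hm1a hpow1.le
      have h3 : (A.card : ℝ) * (Real.exp (-L) * (Y0.card : ℝ) ^ κ)
          ≤ (A.card : ℝ) * (Y1.card : ℝ) ^ κ := by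
        linarith only [h2]
      exact le_of_mul_le_mul_left h3 ha
    have h4 : (Real.exp (-(L / κ)) * (Y0.card : ℝ)) ^ κ ≤ (Y1.card : ℝ) ^ κ := by
      rw [Real.mul_rpow (Real.exp_pos _).le hY0pos.le, ← Real.exp_mul]
      have : -(L / κ) * κ = -L := by (clear * - hκpos hL; field_simp)
      rw [this]
      exact h1
    exact (Real.rpow_le_rpow_iff (by (clear * - hY0; positivity)) hY1pos.le hκpos).mp h4
  -- step 3
  obtain ⟨Y2, hY2s, hY2, hc2, hb2⟩ := sift A Y1 hY1 Q m1 (1/1000) (1/1000)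
    hm1pos (by norm_num) (by norm_num) (by norm_num) hQ (tight_power_mean A Y1 hY1 Q hQ0)
  have hY2pos : (0:ℝ) < Y2.card := by exact_mod_cast hY2.card_pos
  have hc2' : 1/2 * Real.exp (-(Q * L)) * (Y1.card : ℝ) ≤ Y2.card := by
    refine le_trans ?_ hc2
    have h1 : Real.exp (-L) ≤ m1 / A.card := by
      refine hNa.trans ?_
      rw [div_le_div_iff_of_pos_right ha]
      exact hm1N
    have h2 : Real.exp (-(Q * L)) = Real.exp (-L) ^ Q := by
      rw [← Real.exp_nat_mul]; congr 1; ring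
    rw [h2]
    (clear * - h1 hY1; gcongr)
  have h20 := hmax' Y2 (hY2s.trans hY1s) hY2
  have hm2 : tightAvg A Y2 ≤ 1001/1000 * m1 := by
    have h1 : (Y1.card : ℝ) ≤ Real.exp q * Y2.card := by
      have h2 : Real.exp q = 2 * Real.exp (Q * L) := by
        rw [hq, Real.exp_add, Real.exp_log (by norm_num)]
      have h3 : Real.exp (Q * L) * Real.exp (-(Q * L)) = 1 := by
        rw [← Real.exp_add]; simp
      rw [h2]
      have h4 : 0 < Real.exp (Q * L) := Real.exp_pos _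
      calc (Y1.card : ℝ) = 2 * Real.exp (Q * L) * (1/2 * Real.exp (-(Q * L)) * (Y1.card : ℝ)) := by
            have : 2 * Real.exp (Q * L) * (1/2 * Real.exp (-(Q * L)) * (Y1.card : ℝ))
              = (Real.exp (Q * L) * Real.exp (-(Q * L))) * (Y1.card : ℝ) := by ring
            rw [this, h3, one_mul]
        _ ≤ 2 * Real.exp (Q * L) * Y2.card := mul_le_mul_of_nonneg_left hc2' (by positivity)
    have h5 : (Y1.card : ℝ) ^ κ ≤ 1001/1000 * (Y2.card : ℝ) ^ κ := by
      calc (Y1.card : ℝ) ^ κ ≤ (Real.exp q * Y2.card) ^ κ :=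
            Real.rpow_le_rpow hY1pos.le h1 hκpos.le
        _ = 1001/1000 * (Y2.card : ℝ) ^ κ := by
            rw [Real.mul_rpow (Real.exp_pos _).le hY2pos.le, ← Real.exp_mul]
            have : q * κ = Real.log (1001/1000) := by rw [hκ]; (clear * - hqpos; field_simp)
            rw [this, Real.exp_log (by norm_num)]
    have hpow2 : (0:ℝ) < (Y2.card : ℝ) ^ κ := Real.rpow_pos_of_pos hY2pos κ
    have h6 : tightAvg A Y2 * (Y2.card : ℝ) ^ κ ≤ 1001/1000 * m1 * (Y2.card : ℝ) ^ κ := by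
      calc tightAvg A Y2 * (Y2.card : ℝ) ^ κ ≤ m1 * (Y1.card : ℝ) ^ κ := h20
        _ ≤ m1 * (1001/1000 * (Y2.card : ℝ) ^ κ) := mul_le_mul_of_nonneg_left h5 hm1_0
        _ = 1001/1000 * m1 * (Y2.card : ℝ) ^ κ := by ring
    exact le_of_mul_le_mul_right h6 hpow2
  refine ⟨Y2, (hY2s.trans hY1s).trans hY0K, hY2, (1 - 1/1000) * m1, ?_, ?_, hb2, ?_⟩
  · nlinarith only [hN, hm0, hm01]
  · have e1 : L * (Real.log 2 + Q * L) / Real.log (1001/1000) = L / κ := by
      rw [hκ, div_div_eq_mul_div, hq]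
    rw [e1]
    have e2 : Real.exp (-(P * L + (2 * Real.log 2 + Q * L + L / κ)))
        = 1/2 * Real.exp (-(Q * L)) * (Real.exp (-(L / κ)) * (1/2 * Real.exp (-(P * L)))) := by
      have e3 : -(P * L + (2 * Real.log 2 + Q * L + L / κ))
        = -(P * L) + (-(L / κ)) + (-(Q * L)) + (-Real.log 2) + (-Real.log 2) := by ring
      rw [e3]
      simp only [Real.exp_add]
      rw [Real.exp_neg (Real.log 2), Real.exp_log (by norm_num)]
      ring
    rw [e2]
    have hexp1 : 0 < Real.exp (-(Q * L)) := Real.exp_pos _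
    have hexp2 : 0 < Real.exp (-(L / κ)) := Real.exp_pos _
    calc 1/2 * Real.exp (-(Q * L)) * (Real.exp (-(L / κ)) * (1/2 * Real.exp (-(P * L)))) * K.card
        = 1/2 * Real.exp (-(Q * L)) * (Real.exp (-(L / κ))
            * (1/2 * Real.exp (-(P * L)) * K.card)) := by ring
      _ ≤ 1/2 * Real.exp (-(Q * L)) * (Real.exp (-(L / κ)) * Y0.card) := by (clear * - hc0'; gcongr)
      _ ≤ 1/2 * Real.exp (-(Q * L)) * Y1.card := by (clear * - hY1low; gcongr)
      _ ≤ Y2.card := hc2'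
  · rw [← tightAvg_mul A Y2 hY2]
    have : (0:ℝ) < (Y2.card : ℝ) ^ 2 := by (clear * - hY2; positivity)
    refine mul_le_mul_of_nonneg_right ?_ this.le
    nlinarith only [hN, hm0, hm01, hm2]

theorem tight_pow_bound (n : ℕ) (hn : 8000 ≤ n) : (1 - 1/1000 : ℝ) ^ n ≤ (1/1000) / 2 := by
  have h1 : (1 - 1/1000 : ℝ) ≤ Real.exp (-(1/1000)) := by
    have := Real.add_one_le_exp (-(1/1000) : ℝ)
    linarith
  have h2 : (1 - 1/1000 : ℝ) ^ n ≤ Real.exp (-(1/1000)) ^ n :=
    pow_le_pow_left₀ (by norm_num) h1 n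
  have h3 : Real.exp (-(1/1000)) ^ n = Real.exp (-(n/1000)) := by
    rw [← Real.exp_nat_mul]; congr 1; ring
  have h4 : Real.exp (-((n:ℝ)/1000)) ≤ Real.exp (-8) := by
    apply Real.exp_le_exp.mpr
    have : (8000:ℝ) ≤ n := by exact_mod_cast hn
    linarith only [this]
  have h5 : Real.exp (-8) ≤ (1/1000)/2 := by
    rw [Real.exp_neg]
    have h6 : (2000:ℝ) ≤ Real.exp 8 := by
      have h7 : Real.exp 8 = Real.exp 1 ^ 8 := by
        rw [← Real.exp_nat_mul]; norm_num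
      rw [h7]
      have h8 : (2.7182818283:ℝ) < Real.exp 1 := Real.exp_one_gt_d9
      calc (2000:ℝ) ≤ 2.7 ^ 8 := by norm_num
        _ ≤ Real.exp 1 ^ 8 := pow_le_pow_left₀ (by norm_num) (by linarith only [h8]) 8
    rw [inv_le_comm₀ (Real.exp_pos _) (by norm_num)]
    norm_num
    exact h6
  linarith only [h3, h4, h5, h2]

theorem exists_tight (A K : Finset G) (hK : K.Nonempty) (hA : A.Nonempty) (L N : ℝ)
    (hL : 1 ≤ L) (hN : 0 < N) (hNL : Real.exp (-L) * (A.card : ℝ) ≤ N) (P : ℕ) (hP : 8000 ≤ P)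
    (h : (21/20 * N) ^ P * (K.card : ℝ) ^ 2 ≤ ∑ k ∈ K, ∑ k' ∈ K, (corr (ind A) (k - k')) ^ P) :
    ∃ Y ⊆ K, Y.Nonempty ∧ ∃ t : ℝ, 26/25 * N ≤ t ∧
      Real.exp (-(P * L + 10^7 * L^2)) * (K.card : ℝ) ≤ (Y.card : ℝ) ∧
      (((Y ×ˢ Y).filter (fun q => corr (ind A) (q.1 - q.2) < t)).card : ℝ)
        ≤ 1/1000 * (Y.card : ℝ) ^ 2 ∧
      ∑ y ∈ Y, ∑ y' ∈ Y, corr (ind A) (y - y') ≤ (1 + 3/1000) * t * (Y.card : ℝ) ^ 2 := by
  obtain ⟨Y, hYK, hY, t, ht, hcard, hbad, hsum⟩ := exists_tight_aux A K hK hA L N hL hN hNL P 8000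
    (by norm_num) (tight_pow_bound P hP) (tight_pow_bound 8000 (le_refl _)) h
  refine ⟨Y, hYK, hY, t, ht, le_trans ?_ hcard, hbad, hsum⟩
  refine mul_le_mul_of_nonneg_right (Real.exp_le_exp.mpr ?_) (by (clear * - hK; positivity))
  have hlog2 : Real.log 2 ≤ 1 := by
    have := Real.log_two_lt_d9
    linarith only [this]
  have hlog2' : 0 < Real.log 2 := Real.log_pos (by norm_num)
  have hlog : (9/10000 : ℝ) ≤ Real.log (1001/1000) := by
    have h1 := Real.one_sub_inv_le_log_of_pos (show (0:ℝ) < 1001/1000 by norm_num)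
    have h2 : (9/10000:ℝ) ≤ 1 - (1001/1000 : ℝ)⁻¹ := by norm_num
    linarith only [h1]
  have hlogpos : 0 < Real.log (1001/1000) := by linarith only [hlog]
  have h1 : L * (Real.log 2 + (8000:ℕ) * L) / Real.log (1001/1000)
      ≤ L * (8001 * L) / (9/10000) := by
    push_cast
    gcongr
    nlinarith only [hL, hlog2]
  have h2 : L * (8001 * L) / (9/10000) ≤ 8891000 * L ^ 2 := by
    rw [div_le_iff₀ (by norm_num)]
    nlinarith only []
  have h3 : 2 * Real.log 2 + (8000:ℕ) * L ≤ 8002 * L ^ 2 := by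
    push_cast
    nlinarith only [hL, hlog2]
  nlinarith only [hL, hlog2, h1]

end Vale.Agent.P057
end
end

section

section

open Finset

namespace Vale.Agent.P057

variable {G : Type*} [AddCommGroup G] [Fintype G] [DecidableEq G]

theorem os_sum_translates (A0 B V : Finset G) (h : ∀ a ∈ A0, ∀ b ∈ B, a - b ∈ V) :
    ∑ u ∈ V, ((B.filter (fun b => u + b ∈ A0)).card : ℝ) = (A0.card : ℝ) * (B.card : ℝ) := by
  have h1 : ∀ u ∈ V, ((B.filter (fun b => u + b ∈ A0)).card : ℝ)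
      = ∑ b ∈ B, if u + b ∈ A0 then (1:ℝ) else 0 := by
    intro u _
    rw [Finset.sum_boole]
  rw [Finset.sum_congr rfl h1, Finset.sum_comm]
  have h2 : ∀ b ∈ B, (∑ u ∈ V, if u + b ∈ A0 then (1:ℝ) else 0) = (A0.card : ℝ) := by
    intro b hb
    rw [Finset.sum_boole]
    congr 1
    apply Finset.card_bij' (fun u _ => u + b) (fun a _ => a - b)
    · intro u hu
      exact (Finset.mem_filter.mp hu).2
    · intro a ha
      rw [Finset.mem_filter]
      exact ⟨h a ha b hb, by simpa using ha⟩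
    · intro u _; simp
    · intro a _; simp
  rw [Finset.sum_congr rfl h2]
  simp [mul_comm]

/-- boundary estimate -/
theorem os_boundary (Γ : Finset (AddChar G ℂ)) (d : ℕ) (A1 : Finset G) (ρ1 ρ2 : ℝ)
    (hρ2 : 0 < ρ2) (h3 : 3 * ρ2 ≤ kap d * ρ1)
    (hreg : Regular Γ d ρ1) (hA1 : A1 ⊆ bohr Γ ρ1) (β : ℝ) (hβ : 0 ≤ β)
    (hNI : ∀ v : G, (((bohr Γ ρ2).filter (fun b => v + b ∈ A1)).card : ℝ)
      ≤ β * ((bohr Γ ρ2).card : ℝ))
    (z : G) (hz : z ∈ bohr Γ (2 * ρ2)) :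
    ((A1.filter (fun x => x - z ∉ bohr Γ ρ1)).card : ℝ)
      ≤ β * (1/2000 * ((bohr Γ ρ1).card : ℝ)) := by
  set X := A1.filter (fun x => x - z ∉ bohr Γ ρ1) with hX
  set V := bohr Γ (ρ1 + ρ2) \ bohr Γ (ρ1 - 3 * ρ2) with hV
  have hXn : ∀ a ∈ X, a ∉ bohr Γ (ρ1 - 2 * ρ2) := by
    intro a ha hmem
    have h2 := (Finset.mem_filter.mp ha).2
    apply h2
    have h4 := sub_mem_bohr hmem hz
    have : ρ1 - 2 * ρ2 + 2 * ρ2 = ρ1 := by ring
    rwa [this] at h4
  have hXV : ∀ a ∈ X, ∀ b ∈ bohr Γ ρ2, a - b ∈ V := by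
    intro a ha b hb
    rw [hV, Finset.mem_sdiff]
    refine ⟨sub_mem_bohr (hA1 (Finset.mem_filter.mp ha).1) hb, ?_⟩
    intro hmem
    apply hXn a ha
    have h4 := add_mem_bohr hmem hb
    have h5 : ρ1 - 3 * ρ2 + ρ2 = ρ1 - 2 * ρ2 := by ring
    rw [h5, sub_add_cancel] at h4
    exact h4
  have hsum := os_sum_translates X (bohr Γ ρ2) V hXV
  have hB2pos : (0:ℝ) < ((bohr Γ ρ2).card : ℝ) := by
    have : (0 : G) ∈ bohr Γ ρ2 := zero_mem_bohr Γ hρ2.le
    exact_mod_cast Finset.card_pos.mpr ⟨0, this⟩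
  have hle : ∑ u ∈ V, (((bohr Γ ρ2).filter (fun b => u + b ∈ X)).card : ℝ)
      ≤ ∑ u ∈ V, β * ((bohr Γ ρ2).card : ℝ) := by
    apply Finset.sum_le_sum
    intro u _
    refine le_trans ?_ (hNI u)
    have : (bohr Γ ρ2).filter (fun b => u + b ∈ X) ⊆ (bohr Γ ρ2).filter (fun b => u + b ∈ A1) := by
      intro b hb
      rw [Finset.mem_filter] at hb ⊢
      exact ⟨hb.1, (Finset.mem_filter.mp hb.2).1⟩
    exact_mod_cast Finset.card_le_card this
  rw [hsum, Finset.sum_const, nsmul_eq_mul] at hle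
  have hle2 : (X.card : ℝ) ≤ V.card * β := by
    have : (X.card : ℝ) * ((bohr Γ ρ2).card : ℝ) ≤ (V.card * β) * ((bohr Γ ρ2).card : ℝ) := by
      linarith only [hle]
    exact le_of_mul_le_mul_right this hB2pos
  -- card of V
  have hVcard : (V.card : ℝ) ≤ 1/2000 * ((bohr Γ ρ1).card : ℝ) := by
    have hsub : bohr Γ (ρ1 - 3 * ρ2) ⊆ bohr Γ (ρ1 + ρ2) := bohr_mono Γ (by linarith only [hρ2])
    have h6 : (V.card : ℝ) = ((bohr Γ (ρ1 + ρ2)).card : ℝ) - ((bohr Γ (ρ1 - 3 * ρ2)).card : ℝ) := by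
      rw [hV, Finset.card_sdiff_of_subset hsub, Nat.cast_sub (Finset.card_le_card hsub)]
    have h7 : ((bohr Γ (ρ1 + ρ2)).card : ℝ) ≤ ((bohr Γ (ρ1 + kap d * ρ1)).card : ℝ) := by
      exact_mod_cast Finset.card_le_card (bohr_mono Γ (by linarith only [hρ2, h3]))
    have h8 : ((bohr Γ (ρ1 - kap d * ρ1)).card : ℝ) ≤ ((bohr Γ (ρ1 - 3 * ρ2)).card : ℝ) := by
      exact_mod_cast Finset.card_le_card (bohr_mono Γ (by linarith only [h3]))
    have hk0 : 0 ≤ kap d := by unfold kap; (clear * -; positivity)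
    have h9 : ((bohr Γ (ρ1 - kap d * ρ1)).card : ℝ) ≤ ((bohr Γ ρ1).card : ℝ) := by
      exact_mod_cast Finset.card_le_card (bohr_mono Γ (by nlinarith only [hρ2, h3]))
    have h10 := hreg
    unfold Regular at h10
    linarith
  calc (X.card : ℝ) ≤ V.card * β := hle2
    _ ≤ (1/2000 * ((bohr Γ ρ1).card : ℝ)) * β := mul_le_mul_of_nonneg_right hVcard hβ
    _ = _ := by ring

theorem os_sum_mem_bohr (Γ : Finset (AddChar G ℂ)) (j : ℕ) (ρ : ℝ) (e : Fin j → G)
    (he : ∀ i, e i ∈ bohr Γ ρ) : ∑ i, e i ∈ bohr Γ (j * ρ) := by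
  induction j with
  | zero => simpa only [CharP.cast_eq_zero, zero_mul, univ_eq_empty, sum_empty] using zero_mem_bohr Γ le_rfl
  | succ n ih =>
    rw [Fin.sum_univ_castSucc]
    have h1 := ih (fun i => e i.castSucc) (fun i => he i.castSucc)
    have h2 := add_mem_bohr h1 (he (Fin.last n))
    have : (n : ℝ) * ρ + ρ = ((n + 1 : ℕ) : ℝ) * ρ := by push_cast; ring
    rwa [this] at h2


theorem os_card_pos (Γ : Finset (AddChar G ℂ)) {ρ : ℝ} (hρ : 0 ≤ ρ) :
    (0:ℝ) < ((bohr Γ ρ).card : ℝ) := by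
  have : (0 : G) ∈ bohr Γ ρ := zero_mem_bohr Γ hρ
  exact_mod_cast Finset.card_pos.mpr ⟨0, this⟩

theorem os_find_translate (Γ : Finset (AddChar G ℂ)) (d : ℕ) (A0 : Finset G) (ρ ρ1 ρ2 α : ℝ)
    (hρ : 0 < ρ) (hρ1 : 0 < ρ1) (hρ2 : 0 < ρ2) (h1 : ρ1 ≤ kap d * ρ) (h2 : ρ2 ≤ ρ1)
    (hreg : Regular Γ d ρ) (hα : 0 < α)
    (hA0 : A0 ⊆ bohr Γ ρ) (hdens : α * ((bohr Γ ρ).card : ℝ) ≤ (A0.card : ℝ))
    (hN1 : ∀ u : G, (((bohr Γ ρ1).filter (fun b => u + b ∈ A0)).card : ℝ)
      ≤ (1 + 1/200) * α * ((bohr Γ ρ1).card : ℝ))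
    (hN2 : ∀ u : G, (((bohr Γ ρ2).filter (fun b => u + b ∈ A0)).card : ℝ)
      ≤ (1 + 1/200) * α * ((bohr Γ ρ2).card : ℝ)) :
    ∃ u : G, 994/1000 * α * ((bohr Γ ρ1).card : ℝ)
        ≤ (((bohr Γ ρ1).filter (fun b => u + b ∈ A0)).card : ℝ) ∧
      994/1000 * α * ((bohr Γ ρ2).card : ℝ)
        ≤ (((bohr Γ ρ2).filter (fun b => u + b ∈ A0)).card : ℝ) := by
  set V := bohr Γ (ρ + ρ1) with hV
  set n1 := ((bohr Γ ρ1).card : ℝ) with hn1
  set n2 := ((bohr Γ ρ2).card : ℝ) with hn2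
  have hn1p : 0 < n1 := os_card_pos Γ hρ1.le
  have hn2p : 0 < n2 := os_card_pos Γ hρ2.le
  have hs1 := os_sum_translates A0 (bohr Γ ρ1) V (by
    intro a ha b hb
    exact sub_mem_bohr (hA0 ha) hb)
  have hs2 := os_sum_translates A0 (bohr Γ ρ2) V (by
    intro a ha b hb
    exact sub_mem_bohr (hA0 ha) (bohr_mono Γ h2 hb))
  have hVpos : 0 < (V.card : ℝ) := os_card_pos Γ (by linarith only [hρ, hρ1])
  have hk0 : 0 ≤ kap d := by unfold kap; (clear * -; positivity)
  have hVcard : (V.card : ℝ) ≤ (1 + 1/2000) * ((bohr Γ ρ).card : ℝ) := by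
    have e1 : (V.card : ℝ) ≤ ((bohr Γ (ρ + kap d * ρ)).card : ℝ) := by
      exact_mod_cast Finset.card_le_card (bohr_mono Γ (by linarith only [h1]))
    have e2 : ((bohr Γ (ρ - kap d * ρ)).card : ℝ) ≤ ((bohr Γ ρ).card : ℝ) := by
      exact_mod_cast Finset.card_le_card (bohr_mono Γ (by nlinarith only [hρ1, h1]))
    have h10 := hreg
    unfold Regular at h10
    linarith
  by_contra hcon
  push Not at hcon
  -- each u has small sum
  have key : ∀ u ∈ V, (((bohr Γ ρ1).filter (fun b => u + b ∈ A0)).card : ℝ) / n1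
      + (((bohr Γ ρ2).filter (fun b => u + b ∈ A0)).card : ℝ) / n2 < 1999/1000 * α := by
    intro u _
    have a1 := hN1 u
    have a2 := hN2 u
    have a1' : (((bohr Γ ρ1).filter (fun b => u + b ∈ A0)).card : ℝ) / n1 ≤ (1 + 1/200) * α := by
      rw [div_le_iff₀ hn1p]; exact a1
    have a2' : (((bohr Γ ρ2).filter (fun b => u + b ∈ A0)).card : ℝ) / n2 ≤ (1 + 1/200) * α := by
      rw [div_le_iff₀ hn2p]; exact a2
    by_cases hc : 994/1000 * α * n1 ≤ (((bohr Γ ρ1).filter (fun b => u + b ∈ A0)).card : ℝ)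
    · have a3 := hcon u hc
      have a3' : (((bohr Γ ρ2).filter (fun b => u + b ∈ A0)).card : ℝ) / n2 < 994/1000 * α := by
        rw [div_lt_iff₀ hn2p]; exact a3
      linarith only [a1', a3']
    · push Not at hc
      have a3' : (((bohr Γ ρ1).filter (fun b => u + b ∈ A0)).card : ℝ) / n1 < 994/1000 * α := by
        rw [div_lt_iff₀ hn1p]; exact hc
      linarith only [a2', a3']
  have hVne : V.Nonempty := Finset.card_pos.mp (by exact_mod_cast hVpos)
  have hlt := Finset.sum_lt_sum_of_nonempty hVne key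
  rw [Finset.sum_add_distrib, ← Finset.sum_div, ← Finset.sum_div, hs1, hs2,
    Finset.sum_const, nsmul_eq_mul, mul_div_assoc, mul_div_assoc, div_self hn1p.ne',
    div_self hn2p.ne'] at hlt
  nlinarith only [hdens, hlt, hVpos, hVcard]

theorem os_numeric1 (L H k y u : ℝ) (n : ℕ) (hL : 1 ≤ L) (hH : H = 45 * 10^6 * L^2)
    (hn : 2 * 10^14 * L^2 ≤ n) (hk : 0 ≤ k) (hu : u ≤ 2 * k)
    (hy : Real.exp (-H) * k ≤ y) :
    4 * Real.exp (-((1/1000:ℝ)^2 * n / 4)) * u ≤ 1/1000 * y := by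
  have hL2 : 1 ≤ L^2 := by nlinarith only [hL]
  have h1 : k ≤ Real.exp H * y := by
    have : Real.exp H * (Real.exp (-H) * k) ≤ Real.exp H * y :=
      mul_le_mul_of_nonneg_left hy (Real.exp_pos _).le
    rwa [← mul_assoc, ← Real.exp_add, add_neg_cancel, Real.exp_zero, one_mul] at this
  have hy0 : 0 ≤ y := le_trans (by positivity) hy
  have hE : Real.exp (-((1/1000:ℝ)^2 * n / 4)) * Real.exp H ≤ 1/8000 := by
    rw [← Real.exp_add]
    have h2 : -((1/1000:ℝ)^2 * n / 4) + H ≤ -(5*10^6) := by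
      rw [hH]; linarith
    have h3 : Real.exp (-((1/1000:ℝ)^2 * n / 4) + H) ≤ Real.exp (-(5*10^6)) :=
      Real.exp_le_exp.mpr h2
    refine le_trans h3 ?_
    rw [Real.exp_neg, ← one_div]
    apply one_div_le_one_div_of_le (by norm_num)
    have := Real.add_one_le_exp (5*10^6 : ℝ)
    linarith only [this]
  have hEpos := (Real.exp_pos (-((1/1000:ℝ)^2 * n / 4))).le
  calc 4 * Real.exp (-((1/1000:ℝ)^2 * n / 4)) * u
      ≤ 4 * Real.exp (-((1/1000:ℝ)^2 * n / 4)) * (2 * (Real.exp H * y)) := by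
        apply mul_le_mul_of_nonneg_left _ (by positivity)
        linarith only [hu, h1]
    _ = 8 * (Real.exp (-((1/1000:ℝ)^2 * n / 4)) * Real.exp H) * y := by ring
    _ ≤ 8 * (1/8000) * y := by
        apply mul_le_mul_of_nonneg_right _ hy0
        linarith only [hE]
    _ = 1/1000 * y := by ring

theorem os_numeric2 (L H τ : ℝ) (n R : ℕ) (hL : 1 ≤ L) (hH : H = 45 * 10^6 * L^2)
    (hn : (n : ℝ) ≤ 2 * 10^14 * L^2 + 1) (hR : 10^24 * L^4 ≤ (R : ℝ))
    (hτ : τ = 1/2 * (Real.exp (-H) / 2) ^ n) :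
    16 * Real.log (4 / τ) < R := by
  have hL2 : 1 ≤ L^2 := by nlinarith only [hL]
  have hlog : Real.log (4 / τ) = Real.log 8 + n * (H + Real.log 2) := by
    have : 4 / τ = 8 * (Real.exp H * 2) ^ n := by
      have hx : Real.exp (-H) / 2 = (Real.exp H * 2)⁻¹ := by
        rw [Real.exp_neg, mul_inv]; ring
      rw [hτ, hx, inv_pow]
      have hpos : (0:ℝ) < (Real.exp H * 2) ^ n := by positivity
      field_simp
      norm_num
    rw [this, Real.log_mul (by norm_num) (by positivity), Real.log_pow,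
      Real.log_mul (by positivity) (by norm_num), Real.log_exp]
  have hl2 : Real.log 2 ≤ 1 := by
    have := Real.log_two_lt_d9; linarith only [this]
  have hl8 : Real.log 8 ≤ 3 := by
    have : (8:ℝ) = 2^3 := by norm_num
    rw [this, Real.log_pow]
    push_cast
    linarith only [hl2]
  rw [hlog]
  have hH0 : 0 ≤ H := by rw [hH]; positivity
  have hl20 : 0 ≤ Real.log 2 := Real.log_nonneg (by norm_num)
  have hn0 : (0:ℝ) ≤ n := Nat.cast_nonneg n
  have h4 : (n : ℝ) * (H + Real.log 2) ≤ (2 * 10^14 * L^2 + 1) * (H + 1) :=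
    mul_le_mul hn (by linarith only [hl2]) (by positivity) (by positivity)
  have h5 : (2 * 10^14 * L^2 + 1) * (H + 1) ≤ 10^22 * L^4 := by
    rw [hH]
    have : L^4 = L^2 * L^2 := by ring
    rw [this]
    nlinarith only [hL2]
  nlinarith only [hR, hL2, hl8, h4, h5]


theorem os_kap_pos (d : ℕ) : 0 < kap d := by unfold kap; positivity

theorem os_kap_le (d : ℕ) : kap d ≤ 1/80000 := by
  unfold kap
  apply one_div_le_one_div_of_le (by norm_num)
  have : (0:ℝ) ≤ d := Nat.cast_nonneg d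
  linarith


theorem os_corr_nonneg (A : Finset G) (z : G) : 0 ≤ corr (ind A) z := by
  unfold corr ind
  apply Finset.sum_nonneg
  intro x _
  split_ifs <;> norm_num

theorem os_fourfold (A1 Y T : Finset G) (t : ℝ) (htpos : 0 < t)
    (hYbad : (((Y ×ˢ Y).filter (fun q => corr (ind A1) (q.1 - q.2) < t)).card : ℝ)
        ≤ 1/1000 * (Y.card : ℝ) ^ 2)
    (hTper : ∀ s ∈ T, ∀ s' ∈ T,
        (((Y ×ˢ Y).filter (fun q => q.1 - q.2 ∈ univ.filter
          (fun z => t ≤ corr (ind A1) z))).card : ℝ) - 4 * (1/1000) * (Y.card : ℝ) ^ 2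
        ≤ (((Y ×ˢ Y).filter (fun q => q.1 - q.2 + (s - s') ∈ univ.filter
          (fun z => t ≤ corr (ind A1) z))).card : ℝ)) :
    (1 - 5/1000) * t * (Y.card : ℝ) ^ 2 * (T.card : ℝ) ^ 2 ≤
      ∑ y ∈ Y, ∑ y' ∈ Y, ∑ s ∈ T, ∑ s' ∈ T, corr (ind A1) (y - y' + (s - s')) := by
  have hgood : (1 - 1/1000) * (Y.card : ℝ)^2
      ≤ (((Y ×ˢ Y).filter (fun q => q.1 - q.2 ∈ univ.filter
          (fun z => t ≤ corr (ind A1) z))).card : ℝ) := by
    have e1 := Finset.card_filter_add_card_filter_not (s := Y ×ˢ Y)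
      (fun q : G × G => q.1 - q.2 ∈ univ.filter (fun z => t ≤ corr (ind A1) z))
    have e2 : ((Y ×ˢ Y).filter (fun q => ¬ (q.1 - q.2 ∈ univ.filter
          (fun z => t ≤ corr (ind A1) z))))
        = ((Y ×ˢ Y).filter (fun q => corr (ind A1) (q.1 - q.2) < t)) := by
      apply Finset.filter_congr
      intro q _
      rw [Finset.mem_filter]
      simp only [mem_univ, true_and, not_le]
    rw [e2, Finset.card_product] at e1
    have e3 : (((Y ×ˢ Y).filter (fun q => q.1 - q.2 ∈ univ.filter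
          (fun z => t ≤ corr (ind A1) z))).card : ℝ)
        + (((Y ×ˢ Y).filter (fun q => corr (ind A1) (q.1 - q.2) < t)).card : ℝ)
        = (Y.card : ℝ) * (Y.card : ℝ) := by exact_mod_cast e1
    linarith
  have hss : ∀ s ∈ T, ∀ s' ∈ T, (1 - 5/1000) * t * (Y.card : ℝ)^2
      ≤ ∑ y ∈ Y, ∑ y' ∈ Y, corr (ind A1) (y - y' + (s - s')) := by
    intro s hs s' hs'
    have e1 := hTper s hs s' hs'
    rw [← Finset.sum_product' (f := fun y y' => corr (ind A1) (y - y' + (s - s')))]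
    have e2 : ∑ q ∈ (Y ×ˢ Y).filter (fun q => q.1 - q.2 + (s - s') ∈ univ.filter
          (fun z => t ≤ corr (ind A1) z)), t
        ≤ ∑ q ∈ Y ×ˢ Y, corr (ind A1) (q.1 - q.2 + (s - s')) := by
      calc ∑ q ∈ (Y ×ˢ Y).filter (fun q => q.1 - q.2 + (s - s') ∈ univ.filter
          (fun z => t ≤ corr (ind A1) z)), t
          ≤ ∑ q ∈ (Y ×ˢ Y).filter (fun q => q.1 - q.2 + (s - s') ∈ univ.filter
          (fun z => t ≤ corr (ind A1) z)),
              corr (ind A1) (q.1 - q.2 + (s - s')) := by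
            apply Finset.sum_le_sum
            intro q hq
            have := (Finset.mem_filter.mp hq).2
            rw [Finset.mem_filter] at this
            exact this.2
        _ ≤ _ := by
            apply Finset.sum_le_sum_of_subset_of_nonneg (Finset.filter_subset _ _)
            intro q _ _
            exact os_corr_nonneg _ _
    rw [Finset.sum_const, nsmul_eq_mul] at e2
    refine le_trans ?_ e2
    have e3 : (1 - 5/1000) * (Y.card : ℝ)^2
        ≤ (((Y ×ˢ Y).filter (fun q => q.1 - q.2 + (s - s') ∈ univ.filter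
          (fun z => t ≤ corr (ind A1) z))).card : ℝ) := by
      linarith only [hgood, e1]
    have e4 := mul_le_mul_of_nonneg_right e3 htpos.le
    linarith only [e4]
  calc (1 - 5/1000) * t * (Y.card : ℝ) ^ 2 * (T.card : ℝ) ^ 2
      = ∑ s ∈ T, ∑ s' ∈ T, (1 - 5/1000) * t * (Y.card : ℝ) ^ 2 := by
        simp only [Finset.sum_const, nsmul_eq_mul]; ring
    _ ≤ ∑ s ∈ T, ∑ s' ∈ T, ∑ y ∈ Y, ∑ y' ∈ Y, corr (ind A1) (y - y' + (s - s')) := by
        apply Finset.sum_le_sum; intro s hs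
        apply Finset.sum_le_sum; intro s' hs'
        exact hss s hs s' hs'
    _ = _ := by
        have : ∀ s ∈ T, ∑ s' ∈ T, ∑ y ∈ Y, ∑ y' ∈ Y, corr (ind A1) (y - y' + (s - s'))
            = ∑ y ∈ Y, ∑ y' ∈ Y, ∑ s' ∈ T, corr (ind A1) (y - y' + (s - s')) := by
          intro s _
          rw [Finset.sum_comm]
          apply Finset.sum_congr rfl; intro y _
          rw [Finset.sum_comm]
        rw [Finset.sum_congr rfl this, Finset.sum_comm]
        apply Finset.sum_congr rfl; intro y _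
        rw [Finset.sum_comm]


theorem os_card_narrow {Γ : Finset (AddChar G ℂ)} {d : ℕ} {ρ σ : ℝ} (hρ : 0 < ρ)
    (hr : Regular Γ d ρ) (hσ : σ ≤ ρ + kap d * ρ) :
    ((bohr Γ σ).card : ℝ) ≤ 2 * ((bohr Γ ρ).card : ℝ) := by
  have hk0 := mul_pos (os_kap_pos d) hρ
  have e1 : ((bohr Γ σ).card : ℝ) ≤ ((bohr Γ (ρ + kap d * ρ)).card : ℝ) := by
    exact_mod_cast Finset.card_le_card (bohr_mono Γ hσ)
  have e2 : ((bohr Γ (ρ - kap d * ρ)).card : ℝ) ≤ ((bohr Γ ρ).card : ℝ) := by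
    exact_mod_cast Finset.card_le_card (bohr_mono Γ (by linarith))
  have e3 := hr
  unfold Regular at e3
  have e4 : (0:ℝ) ≤ (bohr Γ ρ).card := Nat.cast_nonneg _
  linarith only [e1, e2, e3]

theorem os_density (Y K U B T : ℝ) (H : ℝ) (n : ℕ) (hU : 0 < U) (hB : 0 ≤ B) (hUK : U ≤ 2 * K)
    (hY : Real.exp (-H) * K ≤ Y) (hT : (1/2) * (Y / U) ^ n * B ≤ T) :
    1/2 * (Real.exp (-H) / 2) ^ n * B ≤ T := by
  refine le_trans ?_ hT
  apply mul_le_mul_of_nonneg_right _ hB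
  apply mul_le_mul_of_nonneg_left _ (by norm_num)
  apply pow_le_pow_left₀ (by positivity)
  rw [div_le_div_iff₀ (by norm_num) hU]
  have := mul_le_mul_of_nonneg_left hUK (Real.exp_pos (-H)).le
  linarith only [hY, this]

theorem os_Hbound (L p : ℝ) (hL : 1 ≤ L) (hP2 : p ≤ 24 * 10^5 * L) :
    p * (L + 1) + 10^7 * (L + 1)^2 ≤ 45 * 10^6 * L^2 := by
  have e1 : p * (L + 1) ≤ 24 * 10^5 * L * (L + 1) :=
    mul_le_mul_of_nonneg_right hP2 (by linarith)
  nlinarith only [hL, e1]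

theorem os_radius (κ R ρ3 ρ4 ρ5 ρ6 : ℝ) (hκ : 0 < κ) (hR : 0 < R)
    (h4 : κ * ρ3 / 2 / 2 ≤ ρ4) (h5 : κ * ρ4 / R / 2 ≤ ρ5) (h6 : κ * ρ5 / 2 ≤ ρ6) :
    ρ3 * κ^3 / (16 * R) ≤ ρ6 := by
  have e0 : κ * (κ * (κ * ρ3 / 2 / 2) / R / 2) / 2 ≤ κ * (κ * ρ4 / R / 2) / 2 := by
    gcongr
  have e1 : κ * (κ * ρ4 / R / 2) / 2 ≤ κ * ρ5 / 2 := by
    gcongr
  refine le_trans (le_of_eq ?_) (le_trans e0 (le_trans e1 h6))
  field_simp
  ring

theorem os_Rrho6 (κ R ρ4 ρ5 ρ6 : ℝ) (hκ : 0 < κ) (hκ1 : κ ≤ 1/80000) (hR : 0 < R)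
    (hρ4 : 0 < ρ4) (hρ4' : ρ4 ≤ 2) (h5 : R * ρ5 ≤ κ * ρ4) (h6 : ρ6 ≤ κ * ρ5) :
    R * ρ6 ≤ 1/2000 := by
  have e1 : R * ρ6 ≤ R * (κ * ρ5) := mul_le_mul_of_nonneg_left h6 hR.le
  have e2 : R * (κ * ρ5) = κ * (R * ρ5) := by ring
  have e3 : κ * (R * ρ5) ≤ κ * (κ * ρ4) := mul_le_mul_of_nonneg_left h5 hκ.le
  have e4 : κ * ρ4 ≤ 1/80000 * 2 := mul_le_mul hκ1 hρ4' hρ4.le (by norm_num)
  have e5 : κ * (κ * ρ4) ≤ 1/80000 * (1/80000 * 2) :=
    mul_le_mul hκ1 e4 (by positivity) (by norm_num)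
  linarith only [e1, e3, e5]

/-- characters in the large spectrum are nearly one on the final Bohr set -/
theorem os_char (Γ' Λ : Finset (AddChar G ℂ)) (d : ℕ) (R : ℝ) (ρ5 ρ6 : ℝ)
    (hρ5 : 0 < ρ5) (hρ6 : 0 < ρ6) (hreg5 : Regular Γ' d ρ5) (h6b : ρ6 ≤ kap d * ρ5)
    (hRρ6 : R * ρ6 ≤ 1/2000) (hΛcard : (Λ.card : ℝ) ≤ R)
    (γ χ : AddChar G ℂ) (hχ : ((bohr Γ' ρ5).card : ℝ) / 2 ≤ ‖∑ x ∈ bohr Γ' ρ5, χ x‖)
    (b : G) (hb1 : ∀ g ∈ Γ', ‖g b - 1‖ ≤ ρ6) (hb2 : ∀ g ∈ Λ, ‖g b - 1‖ ≤ ρ6)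
    (hle : ‖γ b - 1‖ ≤ ∑ lam ∈ Λ, ‖lam b - 1‖ + ‖χ b - 1‖) :
    ‖γ b - 1‖ ≤ 1/400 := by
  have hsum : ∑ lam ∈ Λ, ‖lam b - 1‖ ≤ R * ρ6 := by
    calc ∑ lam ∈ Λ, ‖lam b - 1‖ ≤ ∑ lam ∈ Λ, ρ6 := by
          apply Finset.sum_le_sum
          intro lam hlam
          exact hb2 lam hlam
      _ = Λ.card * ρ6 := by rw [Finset.sum_const, nsmul_eq_mul]
      _ ≤ R * ρ6 := mul_le_mul_of_nonneg_right hΛcard hρ6.le
  have hbk : b ∈ bohr Γ' (kap d * ρ5) := by
    rw [bohr, Finset.mem_filter]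
    refine ⟨Finset.mem_univ _, ?_⟩
    intro g hg
    exact le_trans (hb1 g hg) h6b
  have hχb := large_char_on_regular hρ5 hreg5 χ hχ hbk
  linarith only [hRρ6, hle, hsum, hχb]

/-- From a translate with good density to the final increment, abstract part.
`A1` lives in `bohr Γ ρ1`. -/
theorem os_increment (Γ' : Finset (AddChar G ℂ)) (d : ℕ) (hd : Γ'.card ≤ d)
    (A1 : Finset G) (L N ρ3 : ℝ) (R : ℕ) (hL : 1 ≤ L) (hR : 10^24 * L^4 ≤ (R : ℝ))
    (hρ3 : 0 < ρ3) (hρ32 : ρ3 ≤ 2) (hreg3 : Regular Γ' d ρ3)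
    (hA1 : A1.Nonempty) (hN : 0 < N) (hNL : Real.exp (-(L+1)) * (A1.card : ℝ) ≤ N)
    (P : ℕ) (hP : 8000 ≤ P) (hP2 : (P : ℝ) ≤ 24 * 10^5 * L)
    (hmom : (21/20 * N) ^ P * ((bohr Γ' ρ3).card : ℝ) ^ 2 ≤
      ∑ k ∈ bohr Γ' ρ3, ∑ k' ∈ bohr Γ' ρ3, (corr (ind A1) (k - k')) ^ P) :
    ∃ (Γ2 : Finset (AddChar G ℂ)) (ρ' : ℝ) (x : G), Γ2.card ≤ d + R ∧ 0 < ρ' ∧ ρ' ≤ 2 ∧
      ρ3 * (kap d)^3 / (16 * R) ≤ ρ' ∧ Regular Γ2 (d + R) ρ' ∧
      (49/50) * (26/25) * N * ((bohr Γ2 ρ').card : ℝ)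
        ≤ (A1.card : ℝ) * (((bohr Γ2 ρ').filter (fun b => x + b ∈ A1)).card : ℝ) := by
  have hk0 := os_kap_pos d
  have hk1 := os_kap_le d
  have hL4 : (1:ℝ) ≤ L^4 := one_le_pow₀ hL
  have hR1 : (1:ℝ) ≤ R := by linarith only [hR, hL4]
  have hRpos : (0:ℝ) < R := by linarith only [hR, hL4]
  obtain ⟨Y, hYK, hYne, t, ht, hYcard, hYbad, hYavg⟩ :=
    exists_tight A1 (bohr Γ' ρ3) ⟨0, zero_mem_bohr Γ' hρ3.le⟩ hA1 (L+1) N (by linarith only [hL]) hN hNL
      P hP hmom
  have htpos : 0 < t := lt_of_lt_of_le (by positivity) ht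
  -- simplify the lower bound on Y
  have hYcard2 : Real.exp (-(45 * 10^6 * L^2)) * ((bohr Γ' ρ3).card : ℝ) ≤ (Y.card : ℝ) := by
    refine le_trans ?_ hYcard
    apply mul_le_mul_of_nonneg_right _ (Nat.cast_nonneg _)
    exact Real.exp_le_exp.mpr (neg_le_neg (os_Hbound L P hL hP2))
  -- radii
  obtain ⟨ρ4, h4a, h4b, hreg4⟩ := exists_regular Γ' d hd (ρ := kap d * ρ3 / 2) (by positivity)
  have hρ4 : 0 < ρ4 := lt_of_lt_of_le (by positivity) h4a
  obtain ⟨ρ5, h5a, h5b, hreg5⟩ := exists_regular Γ' d hd (ρ := kap d * ρ4 / R) (by (clear * - hk0 hρ4 hR1; positivity))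
  have hρ5 : 0 < ρ5 := lt_of_lt_of_le (by (clear * - hk0 hρ4 hR1; positivity)) h5a
  -- Croot-Sisask
  have hUcard : ((bohr Γ' (ρ3 + 2 * ρ4)).card : ℝ) ≤ 2 * ((bohr Γ' ρ3).card : ℝ) :=
    os_card_narrow hρ3 hreg3 (by linarith only [h4b])
  have hUY : ∀ x ∈ Y, ∀ s ∈ bohr Γ' ρ4, ∀ s' ∈ bohr Γ' ρ4, x + s - s' ∈ bohr Γ' (ρ3 + 2 * ρ4) := by
    intro x hx s hs s' hs'
    have := sub_mem_bohr (add_mem_bohr (hYK hx) hs) hs'
    have e : ρ3 + ρ4 + ρ4 = ρ3 + 2 * ρ4 := by ring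
    rwa [e] at this
  have hn1 : 2 * 10^14 * L^2 ≤ ((⌈2 * 10^14 * L^2⌉₊ : ℕ) : ℝ) := Nat.le_ceil _
  have hn2 : ((⌈2 * 10^14 * L^2⌉₊ : ℕ) : ℝ) ≤ 2 * 10^14 * L^2 + 1 :=
    (Nat.ceil_lt_add_one (by positivity)).le
  generalize (⌈2 * 10^14 * L^2⌉₊ : ℕ) = n at hn1 hn2
  obtain ⟨T, hTB, hTne, hTcard, hTper⟩ := croot_sisask Y (bohr Γ' ρ4) (bohr Γ' (ρ3 + 2 * ρ4))
    (univ.filter (fun z => t ≤ corr (ind A1) z)) hYne
    (zero_mem_bohr Γ' hρ4.le) hUY (1/1000) (by norm_num) (by norm_num) n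
    (os_numeric1 L _ ((bohr Γ' ρ3).card) Y.card _ n hL rfl hn1 (Nat.cast_nonneg _) hUcard hYcard2)
  -- density of T
  have hTτ := os_density (Y.card) ((bohr Γ' ρ3).card) ((bohr Γ' (ρ3 + 2 * ρ4)).card)
    ((bohr Γ' ρ4).card) T.card _ n (os_card_pos Γ' (by positivity)) (Nat.cast_nonneg _) hUcard
    hYcard2 hTcard
  -- fourfold average
  have hfour := os_fourfold A1 Y T t htpos hYbad hTper
  clear hTcard hTper hYcard hYcard2 hUcard hUY hmom
  -- local Chang
  have hRρ5 : R * ρ5 ≤ kap d * ρ4 := by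
    rw [le_div_iff₀ hRpos] at h5b
    rw [mul_comm]; exact h5b
  have hD'card : ((bohr Γ' (ρ4 + R * ρ5)).card : ℝ) ≤ 2 * ((bohr Γ' ρ4).card : ℝ) :=
    os_card_narrow hρ4 hreg4 (by linarith only [hRρ5])
  obtain ⟨Λ, hΛcard, hΛ⟩ := local_chang T (bohr Γ' ρ4) (bohr Γ' (ρ4 + R * ρ5)) (bohr Γ' ρ5) R
    hTB hTne ⟨0, zero_mem_bohr Γ' hρ5.le⟩
    (by
      intro x hx e he
      exact sub_mem_bohr hx (os_sum_mem_bohr Γ' R ρ5 e he))
    hD'card _ (by positivity) hTτ (os_numeric2 L _ _ n R hL rfl hn2 hR rfl)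
  -- final Bohr set
  classical
  have hΓ2card : (Γ' ∪ Λ).card ≤ d + R := le_trans (Finset.card_union_le _ _) (by omega)
  obtain ⟨ρ6, h6a, h6b, hreg6⟩ := exists_regular (Γ' ∪ Λ) (d + R) hΓ2card (ρ := kap d * ρ5)
    (by positivity)
  have hρ6 : 0 < ρ6 := lt_of_lt_of_le (by positivity) h6a
  have hρ4le : ρ4 ≤ 2 := by
    have e1 : kap d * ρ3 ≤ 1 * 2 := mul_le_mul (by linarith only [hk1]) hρ32 hρ3.le (by norm_num)
    linarith only [h4b, e1]
  have hRρ6 : R * ρ6 ≤ 1/2000 :=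
    os_Rrho6 (kap d) R ρ4 ρ5 ρ6 hk0 hk1 hRpos hρ4 hρ4le hRρ5 h6b
  have hchar : ∀ γ : AddChar G ℂ, (T.card : ℝ) / 2 ≤ ‖∑ x ∈ T, γ x‖ →
      ∀ b ∈ bohr (Γ' ∪ Λ) ρ6, ‖γ b - 1‖ ≤ 1/400 := by
    intro γ hγ b hb
    obtain ⟨χ, hχ, hle⟩ := hΛ γ hγ
    rw [bohr, Finset.mem_filter] at hb
    exact os_char Γ' Λ d R ρ5 ρ6 hρ5 hρ6 hreg5 h6b hRρ6 (by exact_mod_cast hΛcard) γ χ hχ b
      (fun g hg => hb.2 g (Finset.mem_union_left _ hg))
      (fun g hg => hb.2 g (Finset.mem_union_right _ hg)) (hle b)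
  obtain ⟨x, hx⟩ := fourier_step A1 Y T (bohr (Γ' ∪ Λ) ρ6) hA1 hYne hTne
    ⟨0, zero_mem_bohr _ hρ6.le⟩ t htpos hYavg hfour hchar
  refine ⟨Γ' ∪ Λ, ρ6, x, hΓ2card, hρ6, ?_, ?_, hreg6, ?_⟩
  · have e1 : ρ6 ≤ R * ρ6 := le_mul_of_one_le_left hρ6.le hR1
    linarith only [hRρ6, e1]
  · exact os_radius (kap d) R ρ3 ρ4 ρ5 ρ6 hk0 hRpos h4a h5a h6a
  · refine le_trans ?_ hx
    apply mul_le_mul_of_nonneg_right _ (Nat.cast_nonneg _)
    linarith only [ht]


theorem os_regular_dilate {Γ Γ' : Finset (AddChar G ℂ)} {d : ℕ} {ρ : ℝ}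
    (h : ∀ ρ, (bohr Γ' ρ).card = (bohr Γ ρ).card) (hr : Regular Γ d ρ) : Regular Γ' d ρ := by
  unfold Regular at hr ⊢
  rw [h, h]
  exact hr

theorem os_pow_two (L : ℝ) (hL : 1 ≤ L) (p : ℕ) (hp : 8000 * L ≤ p) (α x y : ℝ)
    (hα : Real.exp (-L) ≤ α) (hx : 0 ≤ x) (hy : 994/1000 * α * x ≤ y) :
    x ≤ 2 ^ p * y := by
  have h1 : Real.exp (2 * L) ≤ 2 ^ p := by
    have h2 : Real.exp ((p:ℝ) * (1/2)) ≤ 2 ^ p := by
      rw [Real.exp_nat_mul]
      apply pow_le_pow_left₀ (Real.exp_pos _).le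
      have h3 : Real.exp (1/2) ^ 2 ≤ 2 ^ 2 := by
        rw [← Real.exp_nat_mul]
        have := Real.exp_one_lt_d9
        norm_num
        linarith only [this]
      exact le_of_sq_le_sq h3 (by norm_num)
    refine le_trans (Real.exp_le_exp.mpr ?_) h2
    linarith only [hp]
  have h4 : x ≤ Real.exp (2*L) * y := by
    have h5 : Real.exp (2*L) * (994/1000 * Real.exp (-L) * x) ≤ Real.exp (2*L) * y := by
      apply mul_le_mul_of_nonneg_left _ (Real.exp_pos _).le
      refine le_trans ?_ hy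
      gcongr
    refine le_trans ?_ h5
    have h6 : Real.exp (2*L) * (994/1000 * Real.exp (-L) * x) = 994/1000 * Real.exp L * x := by
      have : Real.exp (2*L) = Real.exp L * Real.exp L := by rw [← Real.exp_add]; ring_nf
      rw [this, Real.exp_neg]
      field_simp
    rw [h6]
    have h7 := Real.add_one_le_exp L
    have h8 : 1 ≤ 994/1000 * Real.exp L := by linarith only [hL, h7]
    nlinarith only [hx, hL, h7]
  have hy0 : 0 ≤ y := by
    refine le_trans ?_ hy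
    have := (Real.exp_pos (-L)).le
    have : 0 ≤ α := le_trans this hα
    positivity
  exact le_trans h4 (mul_le_mul_of_nonneg_right h1 hy0)

theorem os_final_const (α X y : ℝ) (h0 : 0 ≤ α * X)
    (h : (49/50) * (26/25) * (994/1000) * α * X ≤ y) : (1 + 1/200) * α * X ≤ y := by
  linarith

/-- the abstract no-increment step: from A0 in bohr Γ ρ -/
theorem os_core (hodd : Odd (Fintype.card G))
    (L : ℝ) (hL : 1 ≤ L) (R : ℕ) (hR : 10^24 * L^4 ≤ (R : ℝ))
    (Γ : Finset (AddChar G ℂ)) (d : ℕ) (hd : Γ.card ≤ d) (ρ1 ρ2 : ℝ) (hρ1 : 0 < ρ1)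
    (hρ12 : ρ1 ≤ 2) (hρ2 : 0 < ρ2) (h21 : 3 * ρ2 ≤ kap d * ρ1)
    (hreg1 : Regular Γ d ρ1) (hreg2 : Regular Γ d ρ2) (α : ℝ) (hα : Real.exp (-L) ≤ α)
    (A1 : Finset G) (hA1 : A1 ⊆ bohr Γ ρ1) (hA1free : ThreeAPFree (A1 : Set G))
    (hd1 : 994/1000 * α * ((bohr Γ ρ1).card : ℝ) ≤ (A1.card : ℝ))
    (hd2 : 994/1000 * α * ((bohr Γ ρ2).card : ℝ) ≤ ((A1 ∩ bohr Γ ρ2).card : ℝ))
    (hNI : ∀ v : G, (((bohr Γ ρ2).filter (fun b => v + b ∈ A1)).card : ℝ)
      ≤ (1 + 1/200) * α * ((bohr Γ ρ2).card : ℝ))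
    (hbig : 16 < α^2 * ((bohr Γ ρ1).card : ℝ)) :
    ∃ (Γ2 : Finset (AddChar G ℂ)) (ρ' : ℝ) (x : G), Γ2.card ≤ d + R ∧ 0 < ρ' ∧ ρ' ≤ 2 ∧
      ρ2 * (kap d)^4 / (64 * R) ≤ ρ' ∧ Regular Γ2 (d + R) ρ' ∧
      (1 + 1/200) * α * ((bohr Γ2 ρ').card : ℝ)
        ≤ (((bohr Γ2 ρ').filter (fun b => x + b ∈ A1)).card : ℝ) := by
  have hk0 := os_kap_pos d
  have hk1 := os_kap_le d
  have hα0 : 0 < α := lt_of_lt_of_le (Real.exp_pos _) hα
  have hn1 : (0:ℝ) < ((bohr Γ ρ1).card : ℝ) := os_card_pos Γ hρ1.le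
  have hn2 : (0:ℝ) < ((bohr Γ ρ2).card : ℝ) := os_card_pos Γ hρ2.le
  have hA1pos : (0:ℝ) < A1.card := lt_of_lt_of_le (by (clear * - hα0 hn1; positivity)) hd1
  have hA1ne : A1.Nonempty := Finset.card_pos.mp (by exact_mod_cast hA1pos)
  have hA2pos : (0:ℝ) < (A1 ∩ bohr Γ ρ2).card := lt_of_lt_of_le (by (clear * - hα0 hn2; positivity)) hd2
  have hA2ne : (A1 ∩ bohr Γ ρ2).Nonempty := Finset.card_pos.mp (by exact_mod_cast hA2pos)
  obtain ⟨Γ', hΓ'card, hΓ'⟩ := exists_dilate hodd Γ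
  have hinj : Function.Injective (fun x : G => x + x) := double_injective hodd
  have hcardeq : ∀ ρ, (bohr Γ' ρ).card = (bohr Γ ρ).card := by
    intro ρ
    rw [hΓ', Finset.card_image_of_injective _ hinj]
  obtain ⟨ρ3, h3a, h3b, hreg3⟩ := exists_regular Γ d hd (ρ := kap d * ρ2 / 2) (by positivity)
  have hρ3 : 0 < ρ3 := lt_of_lt_of_le (by positivity) h3a
  have hreg3' : Regular Γ' d ρ3 := os_regular_dilate hcardeq hreg3
  have hkρ2 : kap d * ρ2 ≤ ρ2 := by nlinarith only [hρ2, hk1]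
  have hkρ1 : kap d * ρ1 ≤ ρ1 := by nlinarith only [hρ1, hk1]
  -- boundary
  have hbd : ∀ z ∈ bohr Γ (2 * ρ2), ((A1.filter (fun x => x - z ∉ bohr Γ ρ1)).card : ℝ)
      ≤ 1/1000 * (A1.card : ℝ) := by
    intro z hz
    refine le_trans (os_boundary Γ d A1 ρ1 ρ2 hρ2 h21 hreg1 hA1 ((1 + 1/200) * α)
      (by positivity) hNI z hz) ?_
    nlinarith only [hd1]
  -- p
  obtain ⟨p, hp1, hp2, hpe, hp3⟩ : ∃ p : ℕ, 8000 * L ≤ (p : ℝ) ∧ (p : ℝ) ≤ 16000 * L ∧ Even p ∧
      8000 ≤ p := by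
    refine ⟨8000 * ⌈L⌉₊, ?_, ?_, ?_, ?_⟩
    · push_cast
      have := Nat.le_ceil L
      linarith only [this]
    · push_cast
      have := (Nat.ceil_lt_add_one (by linarith only [hL] : (0:ℝ) ≤ L)).le
      linarith only [hL, this]
    · exact Even.mul_right (by decide) _
    · have : 1 ≤ ⌈L⌉₊ := Nat.one_le_ceil_iff.mpr (by linarith only [hL])
      omega
  -- moment
  have hNdef : (A1.card : ℝ)^2 / ((bohr Γ ρ1).card : ℝ) * ((bohr Γ ρ1).card : ℝ)
      = (A1.card : ℝ)^2 := by (clear * - hn1 hA1ne; field_simp)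
  have hNlow : 994/1000 * α * (A1.card : ℝ) ≤ (A1.card : ℝ)^2 / ((bohr Γ ρ1).card : ℝ) := by
    rw [le_div_iff₀ hn1]
    nlinarith only [hd1]
  generalize hNeq : (A1.card : ℝ)^2 / ((bohr Γ ρ1).card : ℝ) = N at hNdef hNlow
  have hN4 : 4 ≤ N := by
    have e1 : 994/1000 * α * (994/1000 * α * ((bohr Γ ρ1).card : ℝ)) ≤ 994/1000 * α * (A1.card : ℝ) :=
      mul_le_mul_of_nonneg_left hd1 (by positivity)
    nlinarith only [hbig, hNlow, e1]
  have hU : ∀ y ∈ bohr Γ ρ2, ∀ b ∈ bohr Γ ρ3, ∀ b' ∈ bohr Γ ρ3,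
      y - b + b' ∈ bohr Γ (ρ2 + 2 * ρ3) := by
    intro y hy b hb b' hb'
    have := add_mem_bohr (sub_mem_bohr hy hb) hb'
    have e : ρ2 + ρ3 + ρ3 = ρ2 + 2 * ρ3 := by ring
    rwa [e] at this
  obtain ⟨P, hP1, hP2, hmom⟩ := moment_from_AP A1 (A1 ∩ bohr Γ ρ2) (bohr Γ ρ1) (bohr Γ ρ2)
    (bohr Γ ρ3) (bohr Γ (ρ2 + 2 * ρ3)) hinj hA1 Finset.inter_subset_right
    Finset.inter_subset_left (fun x hx => neg_mem_bohr hx) (fun x hx => neg_mem_bohr hx)
    ⟨0, zero_mem_bohr Γ hρ3.le⟩ hA2ne hU (os_card_narrow hρ2 hreg2 (by linarith only [h3b])) p (by omega) hpe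
    (os_pow_two L hL p hp1 α _ _ hα hn2.le hd2) N hNdef hN4
    (by
      intro y hy a ha a' ha' h
      exact hA1free (by exact_mod_cast ha) (by exact_mod_cast (Finset.mem_inter.mp hy).1)
        (by exact_mod_cast ha') h)
    (by
      intro y hy
      apply hbd
      have := add_mem_bohr (Finset.mem_inter.mp hy).2 (Finset.mem_inter.mp hy).2
      rwa [← two_mul] at this)
    (by
      intro b hb b' hb'
      apply hbd
      have := sub_mem_bohr (add_mem_bohr hb hb) (add_mem_bohr hb' hb')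
      exact bohr_mono Γ (by linarith only [h3b, hkρ2]) this)
  rw [← hΓ'] at hmom
  have hP3 : (P : ℝ) ≤ 24 * 10^5 * L := by
    have : (P : ℝ) ≤ 150 * p := by exact_mod_cast hP2
    linarith only [hp2, this]
  have hNL : Real.exp (-(L+1)) * (A1.card : ℝ) ≤ N := by
    refine le_trans ?_ hNlow
    apply mul_le_mul_of_nonneg_right _ hA1pos.le
    have e1 : Real.exp (-(L+1)) = Real.exp (-L) * Real.exp (-1) := by
      rw [← Real.exp_add]; ring_nf
    have e2 : Real.exp (-1) ≤ 994/1000 := by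
      have := Real.exp_neg_one_lt_d9
      linarith only [this]
    rw [e1]
    have e3 : Real.exp (-L) * Real.exp (-1) ≤ α * (994/1000) :=
      mul_le_mul hα e2 (Real.exp_pos _).le hα0.le
    linarith only [e3]
  obtain ⟨Γ2, ρ', x, hc, hpos, hle2, hrad, hreg, hinc⟩ := os_increment Γ' d (hΓ'card.trans hd) A1
    L N ρ3 R hL hR hρ3 (by linarith only [hρ12, h21, h3b, hkρ2, hkρ1]) hreg3' hA1ne (by linarith only [hN4]) hNL P (by omega) hP3 hmom
  refine ⟨Γ2, ρ', x, hc, hpos, hle2, ?_, hreg, ?_⟩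
  · refine le_trans ?_ hrad
    have hRpos : (0:ℝ) < R := by
      have : (0:ℝ) < 10^24 * L^4 := by positivity
      linarith only [hR, this]
    have : ρ2 * (kap d)^4 / (64 * R) = (kap d * ρ2 / 2 / 2) * (kap d)^3 / (16 * R) := by
      field_simp
      ring
    rw [this]
    (clear * - h3a hk0 hRpos; gcongr)
  · have e1 : (49/50) * (26/25) * (994/1000 * α * (A1.card:ℝ)) * ((bohr Γ2 ρ').card : ℝ)
        ≤ (A1.card : ℝ) * (((bohr Γ2 ρ').filter (fun b => x + b ∈ A1)).card : ℝ) := by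
      refine le_trans ?_ hinc
      (clear * - hNlow; gcongr)
    have e2 : (A1.card : ℝ) * ((49/50) * (26/25) * (994/1000) * α * ((bohr Γ2 ρ').card : ℝ))
        ≤ (A1.card : ℝ) * (((bohr Γ2 ρ').filter (fun b => x + b ∈ A1)).card : ℝ) := by
      refine le_trans (le_of_eq ?_) e1
      ring
    have e3 := le_of_mul_le_mul_left e2 hA1pos
    exact os_final_const α _ _ (by (clear * - hα0; positivity)) e3

theorem os_free (A B : Finset G) (hA : ThreeAPFree (A : Set G)) (u : G) :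
    ThreeAPFree ((B.filter (fun b => u + b ∈ A) : Finset G) : Set G) := by
  intro a ha b hb c hc h
  rw [Finset.mem_coe, Finset.mem_filter] at ha hb hc
  have h1 : (u + a) + (u + c) = (u + b) + (u + b) := by
    have e1 : (u + a) + (u + c) = u + u + (a + c) := by abel
    have e2 : (u + b) + (u + b) = u + u + (b + b) := by abel
    rw [e1, e2, h]
  have h2 := hA (by exact_mod_cast ha.2) (by exact_mod_cast hb.2) (by exact_mod_cast hc.2) h1
  exact add_left_cancel h2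

theorem os_rad1 (κ R ρ ρ1 : ℝ) (hκ : 0 < κ) (hκ1 : κ ≤ 1/80000) (hR : 1 ≤ R) (hρ : 0 < ρ)
    (h1 : κ * ρ / 2 ≤ ρ1) : ρ * κ^6 / (1000 * R) ≤ ρ1 := by
  refine le_trans ?_ h1
  rw [div_le_div_iff₀ (by positivity) (by norm_num)]
  have h5 : κ^5 ≤ 1 := pow_le_one₀ hκ.le (by linarith only [hκ1])
  have h6 : κ^6 = κ * κ^5 := by ring
  rw [h6]
  have h7 : ρ * (κ * κ^5) ≤ ρ * (κ * 1) := by gcongr
  have h8 : κ * ρ * 1 ≤ κ * ρ * R := mul_le_mul_of_nonneg_left hR (by positivity)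
  nlinarith only [h7, h8, hκ, hρ]

theorem os_rad2 (κ R ρ ρ1 ρ2 : ℝ) (hκ : 0 < κ) (hκ1 : κ ≤ 1/80000) (hR : 1 ≤ R) (hρ : 0 < ρ)
    (h1 : κ * ρ / 2 ≤ ρ1) (h2 : κ * ρ1 / 3 / 2 ≤ ρ2) : ρ * κ^6 / (1000 * R) ≤ ρ2 := by
  have h3 : κ * (κ * ρ / 2) / 3 / 2 ≤ ρ2 := by
    refine le_trans ?_ h2
    gcongr
  refine le_trans ?_ h3
  have h4 : κ * (κ * ρ / 2) / 3 / 2 = ρ * κ^2 / 12 := by ring
  rw [h4, div_le_div_iff₀ (by positivity) (by norm_num)]
  have h5 : κ^4 ≤ 1 := pow_le_one₀ hκ.le (by linarith only [hκ1])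
  have h6 : κ^6 = κ^2 * κ^4 := by ring
  rw [h6]
  have h7 : ρ * (κ^2 * κ^4) ≤ ρ * (κ^2 * 1) := by gcongr
  have h8 : ρ * κ^2 * 1 ≤ ρ * κ^2 * R := mul_le_mul_of_nonneg_left hR (by positivity)
  nlinarith only [h7, h8, hρ]

theorem os_rad3 (κ R ρ ρ1 ρ2 ρ' : ℝ) (hκ : 0 < κ) (hR : 1 ≤ R) (hρ : 0 < ρ)
    (h1 : κ * ρ / 2 ≤ ρ1) (h2 : κ * ρ1 / 3 / 2 ≤ ρ2) (h3 : ρ2 * κ^4 / (64 * R) ≤ ρ') :
    ρ * κ^6 / (1000 * R) ≤ ρ' := by
  have h4 : κ * (κ * ρ / 2) / 3 / 2 ≤ ρ2 := by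
    refine le_trans ?_ h2
    gcongr
  have h5 : (κ * (κ * ρ / 2) / 3 / 2) * κ^4 / (64 * R) ≤ ρ' := by
    refine le_trans ?_ h3
    gcongr
  refine le_trans ?_ h5
  have h6 : (κ * (κ * ρ / 2) / 3 / 2) * κ^4 / (64 * R) = ρ * κ^6 / (768 * R) := by
    field_simp
    ring
  rw [h6]
  gcongr
  norm_num

theorem one_step (hodd : Odd (Fintype.card G)) (A : Finset G) (hA : ThreeAPFree (A : Set G))
    (L : ℝ) (hL : 1 ≤ L) (R : ℕ) (hR : 10^24 * L^4 ≤ (R : ℝ))
    (Γ : Finset (AddChar G ℂ)) (d : ℕ) (hd : Γ.card ≤ d) (ρ : ℝ) (hρ : 0 < ρ) (hρ2 : ρ ≤ 2)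
    (hreg : Regular Γ d ρ) (x0 : G) (α : ℝ) (hα : Real.exp (-L) ≤ α)
    (hdens : α * ((bohr Γ ρ).card : ℝ) ≤ (((bohr Γ ρ).filter (fun b => x0 + b ∈ A)).card : ℝ))
    (hbig : 16 < α^2 * ((bohr Γ (kap d * ρ / 2)).card : ℝ)) :
    ∃ (Γ' : Finset (AddChar G ℂ)) (ρ' : ℝ) (x' : G), Γ'.card ≤ d + R ∧ 0 < ρ' ∧ ρ' ≤ 2 ∧
      ρ * (kap d)^6 / (1000 * R) ≤ ρ' ∧ Regular Γ' (d + R) ρ' ∧
      (1 + 1/200) * α * ((bohr Γ' ρ').card : ℝ)
        ≤ (((bohr Γ' ρ').filter (fun b => x' + b ∈ A)).card : ℝ) := by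
  have hk0 := os_kap_pos d
  have hk1 := os_kap_le d
  have hα0 : 0 < α := lt_of_lt_of_le (Real.exp_pos _) hα
  have hL4 : (1:ℝ) ≤ L^4 := one_le_pow₀ hL
  have hR1 : (1:ℝ) ≤ R := by linarith only [hR, hL4]
  obtain ⟨ρ1, h1a, h1b, hreg1⟩ := exists_regular Γ d hd (ρ := kap d * ρ) (by positivity)
  have hρ1 : 0 < ρ1 := lt_of_lt_of_le (by positivity) h1a
  obtain ⟨ρ2, h2a, h2b, hreg2⟩ := exists_regular Γ d hd (ρ := kap d * ρ1 / 3) (by positivity)
  have hρ2' : 0 < ρ2 := lt_of_lt_of_le (by positivity) h2a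
  have hkρ : kap d * ρ ≤ 1 * 2 := mul_le_mul (by linarith only [hk1]) hρ2 hρ.le (by norm_num)
  have hkρ1 : kap d * ρ1 ≤ 1 * ρ1 := mul_le_mul_of_nonneg_right (by linarith only [hk1]) hρ1.le
  have hρ12 : ρ1 ≤ 2 := by linarith only [h1b, hkρ]
  have hρ21 : ρ2 ≤ ρ1 := by linarith only [h2b, hρ2', hkρ1]
  by_contra hcon
  push Not at hcon
  -- no increment on translates of the two Bohr sets
  have hNI1 : ∀ u : G, (((bohr Γ ρ1).filter (fun b => u + b ∈ A)).card : ℝ)
      ≤ (1 + 1/200) * α * ((bohr Γ ρ1).card : ℝ) := by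
    intro u
    exact (hcon Γ ρ1 u (by omega) hρ1 hρ12 (os_rad1 _ _ _ _ hk0 hk1 hR1 hρ h1a)
      (regular_mono (by omega) hρ1 hreg1)).le
  have hNI2 : ∀ u : G, (((bohr Γ ρ2).filter (fun b => u + b ∈ A)).card : ℝ)
      ≤ (1 + 1/200) * α * ((bohr Γ ρ2).card : ℝ) := by
    intro u
    exact (hcon Γ ρ2 u (by omega) hρ2' (by linarith only [h1b, h2b, hkρ, hkρ1]) (os_rad2 _ _ _ _ _ hk0 hk1 hR1 hρ h1a h2a)
      (regular_mono (by omega) hρ2' hreg2)).le
  set A0 := (bohr Γ ρ).filter (fun b => x0 + b ∈ A) with hA0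
  have htr : ∀ (B : Finset G) (u : G), B.filter (fun b => u + b ∈ A0)
      ⊆ B.filter (fun b => (x0 + u) + b ∈ A) := by
    intro B u b hb
    rw [Finset.mem_filter] at hb ⊢
    refine ⟨hb.1, ?_⟩
    have := (Finset.mem_filter.mp hb.2).2
    rwa [← add_assoc] at this
  have hNA1 : ∀ u : G, (((bohr Γ ρ1).filter (fun b => u + b ∈ A0)).card : ℝ)
      ≤ (1 + 1/200) * α * ((bohr Γ ρ1).card : ℝ) := by
    intro u
    refine le_trans ?_ (hNI1 (x0 + u))
    exact_mod_cast Finset.card_le_card (htr _ u)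
  have hNA2 : ∀ u : G, (((bohr Γ ρ2).filter (fun b => u + b ∈ A0)).card : ℝ)
      ≤ (1 + 1/200) * α * ((bohr Γ ρ2).card : ℝ) := by
    intro u
    refine le_trans ?_ (hNI2 (x0 + u))
    exact_mod_cast Finset.card_le_card (htr _ u)
  obtain ⟨u, hu1, hu2⟩ := os_find_translate Γ d A0 ρ ρ1 ρ2 α hρ hρ1 hρ2' h1b hρ21 hreg hα0
    (Finset.filter_subset _ _) hdens hNA1 hNA2
  set A1 := (bohr Γ ρ1).filter (fun b => u + b ∈ A0) with hA1
  have hA1sub : A1 ⊆ (bohr Γ ρ1).filter (fun b => (x0 + u) + b ∈ A) := htr _ u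
  have hA1free : ThreeAPFree (A1 : Set G) := by
    apply (os_free A (bohr Γ ρ1) hA (x0 + u)).mono
    exact_mod_cast hA1sub
  have hA2eq : A1 ∩ bohr Γ ρ2 = (bohr Γ ρ2).filter (fun b => u + b ∈ A0) := by
    ext b
    constructor
    · intro h
      obtain ⟨h1, h3⟩ := Finset.mem_inter.mp h
      exact Finset.mem_filter.mpr ⟨h3, (Finset.mem_filter.mp h1).2⟩
    · intro h
      obtain ⟨h3, h2⟩ := Finset.mem_filter.mp h
      exact Finset.mem_inter.mpr ⟨Finset.mem_filter.mpr ⟨bohr_mono Γ hρ21 h3, h2⟩, h3⟩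
  have hNI : ∀ v : G, (((bohr Γ ρ2).filter (fun b => v + b ∈ A1)).card : ℝ)
      ≤ (1 + 1/200) * α * ((bohr Γ ρ2).card : ℝ) := by
    intro v
    refine le_trans ?_ (hNI2 (x0 + u + v))
    have : (bohr Γ ρ2).filter (fun b => v + b ∈ A1)
        ⊆ (bohr Γ ρ2).filter (fun b => x0 + u + v + b ∈ A) := by
      intro b hb
      rw [Finset.mem_filter] at hb ⊢
      refine ⟨hb.1, ?_⟩
      have := (Finset.mem_filter.mp (hA1sub hb.2)).2
      rwa [← add_assoc] at this
    exact_mod_cast Finset.card_le_card this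
  have hbig1 : 16 < α^2 * ((bohr Γ ρ1).card : ℝ) := by
    refine lt_of_lt_of_le hbig ?_
    apply mul_le_mul_of_nonneg_left _ (by positivity)
    exact_mod_cast Finset.card_le_card (bohr_mono Γ h1a)
  obtain ⟨Γ2, ρ', x, hc, hpos, hle2, hrad, hreg', hinc⟩ := os_core hodd L hL R hR Γ d hd ρ1 ρ2 hρ1
    hρ12 hρ2' (by linarith only [h2b]) hreg1 hreg2 α hα A1 (Finset.filter_subset _ _) hA1free hu1
    (by rw [hA2eq]; exact hu2) hNI hbig1
  have hcon' := hcon Γ2 ρ' (x0 + u + x) hc hpos hle2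
    (os_rad3 _ _ _ _ _ _ hk0 hR1 hρ h1a h2a hrad) hreg'
  apply absurd hinc
  rw [not_le]
  refine lt_of_le_of_lt ?_ hcon'
  have : (bohr Γ2 ρ').filter (fun b => x + b ∈ A1)
      ⊆ (bohr Γ2 ρ').filter (fun b => x0 + u + x + b ∈ A) := by
    intro b hb
    rw [Finset.mem_filter] at hb ⊢
    refine ⟨hb.1, ?_⟩
    have := (Finset.mem_filter.mp (hA1sub hb.2)).2
    rwa [← add_assoc] at this
  exact_mod_cast Finset.card_le_card this

end Vale.Agent.P057
end
end

section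

section

open Finset

namespace Vale.Agent.P057

theorem iterate_exists_pow (x : ℝ) (hx : 1 ≤ x) :
    ∃ k : ℕ, x ≤ 2 ^ k ∧ (k : ℝ) ≤ 2 * Real.log x + 1 := by
  have hl2 : (1 : ℝ) / 2 < Real.log 2 := by
    have := Real.log_two_gt_d9
    linarith
  have hlx : 0 ≤ Real.log x := Real.log_nonneg hx
  refine ⟨⌈Real.log x / Real.log 2⌉₊, ?_, ?_⟩
  · have h1 : Real.log x / Real.log 2 ≤ (⌈Real.log x / Real.log 2⌉₊ : ℝ) := Nat.le_ceil _
    rw [div_le_iff₀ (by linarith only [hl2])] at h1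
    have h2 : Real.log x ≤ Real.log ((2 : ℝ) ^ ⌈Real.log x / Real.log 2⌉₊) := by
      rw [Real.log_pow]; exact h1
    exact (Real.log_le_log_iff (by linarith only [hx]) (by positivity)).1 h2
  · have h1 : (⌈Real.log x / Real.log 2⌉₊ : ℝ) < Real.log x / Real.log 2 + 1 :=
      Nat.ceil_lt_add_one (by positivity)
    have h2 : Real.log x / Real.log 2 ≤ 2 * Real.log x := by
      rw [div_le_iff₀ (by linarith only [hl2])]
      nlinarith only [hl2, hlx]
    linarith

theorem iterate_kap_pos (d : ℕ) : 0 < kap d := by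
  unfold kap; positivity

theorem iterate_kap_le {d d' : ℕ} (h : d ≤ d') : kap d' ≤ kap d := by
  unfold kap
  apply one_div_le_one_div_of_le (by positivity)
  have : (d : ℝ) ≤ d' := by exact_mod_cast h
  linarith only [this]

/-- numerical estimate -/
theorem iterate_numeric (L : ℝ) (hL : 1 ≤ L) (K R i k : ℕ) (hi : i ≤ K)
    (hK : (K : ℝ) ≤ 202 * L) (hR : (R : ℝ) ≤ 2 * 10 ^ 24 * L ^ 4) (hR1 : 1 ≤ R)
    (hk : (k : ℝ) ≤ 2 * Real.log (4 / (kap (i * R) *
      (2 * ((kap (K * R)) ^ 6 / (1000 * R)) ^ i))) + 1) :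
    Real.log (81 ^ ((i * R) * k) * (16 * Real.exp (2 * L))) ≤
      10 ^ 35 * L ^ 6 * (1 + Real.log L) := by
  have hlogL : 0 ≤ Real.log L := Real.log_nonneg hL
  have hRr : (1 : ℝ) ≤ R := by exact_mod_cast hR1
  have hLpos : 0 < L := by linarith only [hL]
  set q : ℝ := (kap (K * R)) ^ 6 / (1000 * R) with hq
  have hkp : 0 < kap (K * R) := iterate_kap_pos _
  have hqpos : 0 < q := by positivity
  have hkap_le1 : kap (K * R) ≤ 1 := by
    unfold kap
    rw [div_le_one (by positivity)]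
    have : (0 : ℝ) ≤ ((K * R : ℕ) : ℝ) := by positivity
    linarith only []
  have hqk : q ≤ kap (K * R) := by
    rw [hq, div_le_iff₀ (by positivity)]
    have h1 : kap (K * R) ^ 6 ≤ kap (K * R) := by
      calc kap (K * R) ^ 6 = kap (K * R) * kap (K * R) ^ 5 := by ring
        _ ≤ kap (K * R) * 1 := by
            apply mul_le_mul_of_nonneg_left _ hkp.le
            exact pow_le_one₀ hkp.le hkap_le1
        _ = _ := mul_one _
    nlinarith only [hkp, h1, hRr]
  have hq1 : q ≤ 1 := hqk.trans hkap_le1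
  -- the argument of the logarithm
  have hki : kap (K * R) ≤ kap (i * R) := iterate_kap_le (Nat.mul_le_mul_right _ hi)
  have harg : 4 / (kap (i * R) * (2 * q ^ i)) ≤ 2 * (1 / q) ^ (K + 1) := by
    rw [div_le_iff₀ (by have := iterate_kap_pos (i * R); positivity)]
    have h1 : q ^ (K + 1) ≤ kap (i * R) * q ^ i := by
      rw [pow_succ, mul_comm]
      apply mul_le_mul (hqk.trans hki) _ (by positivity) (iterate_kap_pos _).le
      exact pow_le_pow_of_le_one hqpos.le hq1 hi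
    have h2 : 2 * (1 / q) ^ (K + 1) * (kap (i * R) * (2 * q ^ i)) =
        4 * ((1 / q) ^ (K + 1) * (kap (i * R) * q ^ i)) := by ring
    rw [h2]
    have h3 : 1 ≤ (1 / q) ^ (K + 1) * (kap (i * R) * q ^ i) := by
      have h4 : (1 / q) ^ (K + 1) * q ^ (K + 1) = 1 := by
        rw [← mul_pow, one_div, inv_mul_cancel₀ hqpos.ne', one_pow]
      calc 1 = (1 / q) ^ (K + 1) * q ^ (K + 1) := h4.symm
        _ ≤ _ := by
          apply mul_le_mul_of_nonneg_left h1 (by positivity)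
    linarith only [h3]
  have hlogarg : Real.log (4 / (kap (i * R) * (2 * q ^ i))) ≤
      Real.log 2 + (K + 1) * Real.log (1 / q) := by
    have h1 := Real.log_le_log (by have := iterate_kap_pos (i * R); positivity) harg
    rw [Real.log_mul (by norm_num) (by positivity), Real.log_pow] at h1
    push_cast at h1
    exact h1
  -- log (1/q)
  have hqinv : 1 / q ≤ 10 ^ 220 * L ^ 34 := by
    have h1 : 1 / q = (80000 * (((K * R : ℕ) : ℝ) + 1)) ^ 6 * (1000 * R) := by
      rw [hq]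
      unfold kap
      have : (80000 * (((K * R : ℕ) : ℝ) + 1)) ≠ 0 := by positivity
      field_simp
    rw [h1]
    have hKR : ((K * R : ℕ) : ℝ) + 1 ≤ 10 ^ 27 * L ^ 5 := by
      push_cast
      have h2 : (K : ℝ) * R ≤ (202 * L) * (2 * 10 ^ 24 * L ^ 4) := by
        apply mul_le_mul hK hR (by positivity) (by positivity)
      have h3 : (1 : ℝ) ≤ L ^ 5 := one_le_pow₀ hL
      nlinarith only [h2, h3]
    have h4 : (80000 * (((K * R : ℕ) : ℝ) + 1)) ^ 6 ≤ (10 ^ 32 * L ^ 5) ^ 6 := by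
      apply pow_le_pow_left₀ (by (clear * -; positivity))
      have : (0 : ℝ) ≤ L ^ 5 := by positivity
      nlinarith only [hKR]
    have h5 : 1000 * (R : ℝ) ≤ 10 ^ 28 * L ^ 4 := by
      have : (0 : ℝ) ≤ L ^ 4 := by positivity
      nlinarith only [hR]
    calc (80000 * (((K * R : ℕ) : ℝ) + 1)) ^ 6 * (1000 * R)
        ≤ (10 ^ 32 * L ^ 5) ^ 6 * (10 ^ 28 * L ^ 4) := by
          apply mul_le_mul h4 h5 (by positivity) (by positivity)
      _ = 10 ^ 220 * L ^ 34 := by ring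
  have hlogq : Real.log (1 / q) ≤ 660 * (1 + Real.log L) := by
    have h1 := Real.log_le_log (by positivity) hqinv
    rw [Real.log_mul (by positivity) (by positivity), Real.log_pow, Real.log_pow] at h1
    have h10 : Real.log 10 ≤ 3 := by
      rw [Real.log_le_iff_le_exp (by norm_num)]
      have h2 : (2.7 : ℝ) ≤ Real.exp 1 := by
        have := Real.exp_one_gt_d9
        linarith only [this]
      have h3 : Real.exp 3 = Real.exp 1 ^ 3 := by
        rw [← Real.exp_nat_mul]; norm_num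
      rw [h3]
      calc (10 : ℝ) ≤ 2.7 ^ 3 := by norm_num
        _ ≤ _ := pow_le_pow_left₀ (by norm_num) h2 3
    push_cast at h1
    linarith only [hlogL, h1, h10]
  have hlogq0 : 0 ≤ Real.log (1 / q) := by
    apply Real.log_nonneg
    rw [le_div_iff₀ hqpos]; linarith only [hkap_le1, hqk]
  have hlog2 : Real.log 2 ≤ 1 := by
    have := Real.log_two_lt_d9
    linarith only [this]
  have hk2 : (k : ℝ) ≤ 300000 * L * (1 + Real.log L) := by
    have h1 : ((K : ℝ) + 1) * Real.log (1 / q) ≤ (203 * L) * (660 * (1 + Real.log L)) := by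
      apply mul_le_mul (by linarith only [hL, hK]) hlogq hlogq0 (by positivity)
    have h2 : 1 ≤ L * (1 + Real.log L) := by nlinarith only [hL, hlogL]
    linarith
  -- final
  have hL5 : (i : ℝ) * R ≤ 404 * 10 ^ 24 * L ^ 5 := by
    have hi' : (i : ℝ) ≤ 202 * L := le_trans (by exact_mod_cast hi) hK
    have : (i : ℝ) * R ≤ (202 * L) * (2 * 10 ^ 24 * L ^ 4) := by
      apply mul_le_mul hi' hR (by positivity) (by positivity)
    nlinarith only [this]
  have hlog81 : Real.log 81 ≤ 5 := by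
    rw [Real.log_le_iff_le_exp (by norm_num)]
    have h2 : (2.7 : ℝ) ≤ Real.exp 1 := by
      have := Real.exp_one_gt_d9
      linarith only [this]
    have h3 : Real.exp 5 = Real.exp 1 ^ 5 := by
      rw [← Real.exp_nat_mul]; norm_num
    rw [h3]
    calc (81 : ℝ) ≤ 2.7 ^ 5 := by norm_num
      _ ≤ _ := pow_le_pow_left₀ (by norm_num) h2 5
  have hlog16 : Real.log 16 ≤ 3 := by
    rw [Real.log_le_iff_le_exp (by norm_num)]
    have h2 : (2.7 : ℝ) ≤ Real.exp 1 := by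
      have := Real.exp_one_gt_d9
      linarith only [this]
    have h3 : Real.exp 3 = Real.exp 1 ^ 3 := by
      rw [← Real.exp_nat_mul]; norm_num
    rw [h3]
    calc (16 : ℝ) ≤ 2.7 ^ 3 := by norm_num
      _ ≤ _ := pow_le_pow_left₀ (by norm_num) h2 3
  rw [Real.log_mul (by positivity) (by positivity), Real.log_pow,
    Real.log_mul (by norm_num) (by positivity), Real.log_exp]
  have h81nn : 0 ≤ Real.log 81 := Real.log_nonneg (by norm_num)
  have hA : ((i * R * k : ℕ) : ℝ) * Real.log 81 ≤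
      (404 * 10 ^ 24 * L ^ 5) * (300000 * L * (1 + Real.log L)) * 5 := by
    push_cast
    apply mul_le_mul _ hlog81 h81nn (by positivity)
    apply mul_le_mul hL5 hk2 (by positivity) (by positivity)
  have hB : Real.log 16 + 2 * L ≤ 5 * L ^ 6 * (1 + Real.log L) := by
    have h1 : L ≤ L ^ 6 := by
      calc L = L ^ 1 := (pow_one L).symm
        _ ≤ L ^ 6 := pow_le_pow_right₀ hL (by norm_num)
    have h2 : 0 ≤ L ^ 6 * Real.log L := by (clear * - hL hlogL; positivity)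
    nlinarith only [hL, hlog16, h1, h2]
  have hC : (404 * 10 ^ 24 * L ^ 5) * (300000 * L * (1 + Real.log L)) * 5 =
      6.06e32 * (L ^ 6 * (1 + Real.log L)) := by ring
  have hD : 0 ≤ L ^ 6 * (1 + Real.log L) := by (clear * - hL hlogL; positivity)
  rw [hC] at hA
  nlinarith only [hA, hB, hD]

theorem group_bound_of_step (one_step : ∀ (G : Type) [AddCommGroup G] [Fintype G] [DecidableEq G]
    (_ : Odd (Fintype.card G)) (A : Finset G) (_ : ThreeAPFree (A : Set G))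
    (L : ℝ) (_ : 1 ≤ L) (R : ℕ) (_ : 10^24 * L^4 ≤ (R : ℝ))
    (Γ : Finset (AddChar G ℂ)) (d : ℕ) (_ : Γ.card ≤ d) (ρ : ℝ) (_ : 0 < ρ) (_ : ρ ≤ 2)
    (_ : Regular Γ d ρ) (x0 : G) (α : ℝ) (_ : Real.exp (-L) ≤ α)
    (_ : α * ((bohr Γ ρ).card : ℝ) ≤ (((bohr Γ ρ).filter (fun b => x0 + b ∈ A)).card : ℝ))
    (_ : 16 < α^2 * ((bohr Γ (kap d * ρ / 2)).card : ℝ)),
    ∃ (Γ' : Finset (AddChar G ℂ)) (ρ' : ℝ) (x' : G), Γ'.card ≤ d + R ∧ 0 < ρ' ∧ ρ' ≤ 2 ∧
      ρ * (kap d)^6 / (1000 * R) ≤ ρ' ∧ Regular Γ' (d + R) ρ' ∧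
      (1 + 1/200) * α * ((bohr Γ' ρ').card : ℝ)
        ≤ (((bohr Γ' ρ').filter (fun b => x' + b ∈ A)).card : ℝ)) :
    ∃ C : ℝ, 0 < C ∧ ∀ (G : Type) [AddCommGroup G] [Fintype G] [DecidableEq G],
    Odd (Fintype.card G) → ∀ A : Finset G, ThreeAPFree (A : Set G) → ∀ L : ℝ, 1 ≤ L →
    Real.exp (-L) * (Fintype.card G : ℝ) ≤ (A.card : ℝ) →
    Real.log (Fintype.card G) ≤ C * L^6 * (1 + Real.log L) := by
  refine ⟨10 ^ 35, by positivity, ?_⟩
  intro G _ _ _ hodd A hA L hL hdens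
  by_contra hcon
  push Not at hcon
  have hLpos : 0 < L := by linarith
  set R : ℕ := ⌈10 ^ 24 * L ^ 4⌉₊ with hRdef
  have hR : 10 ^ 24 * L ^ 4 ≤ (R : ℝ) := Nat.le_ceil _
  have hL4 : (1 : ℝ) ≤ L ^ 4 := one_le_pow₀ hL
  have hR2 : (R : ℝ) ≤ 2 * 10 ^ 24 * L ^ 4 := by
    have := Nat.ceil_lt_add_one (a := 10 ^ 24 * L ^ 4) (by positivity)
    nlinarith only [hL4, this]
  have hR1 : 1 ≤ R := by
    have : (1 : ℝ) ≤ R := by nlinarith only [hR, hL4]
    exact_mod_cast this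
  set K : ℕ := ⌊201 * L⌋₊ + 1 with hKdef
  have hK1 : 201 * L < (K : ℝ) := by
    rw [hKdef]; push_cast; exact Nat.lt_floor_add_one _
  have hK2 : (K : ℝ) ≤ 202 * L := by
    have : (⌊201 * L⌋₊ : ℝ) ≤ 201 * L := Nat.floor_le (by positivity)
    rw [hKdef]; push_cast; linarith only [hL, this]
  set q : ℝ := (kap (K * R)) ^ 6 / (1000 * R) with hq
  have hkp : 0 < kap (K * R) := iterate_kap_pos _
  have hRpos : (0 : ℝ) < R := by exact_mod_cast hR1
  have hqpos : 0 < q := by positivity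
  -- the inductive statement
  have key : ∀ i : ℕ, i ≤ K → ∃ (Γ : Finset (AddChar G ℂ)) (ρ : ℝ) (x0 : G) (α : ℝ),
      Γ.card ≤ i * R ∧ 0 < ρ ∧ ρ ≤ 2 ∧ 2 * q ^ i ≤ ρ ∧ Regular Γ (i * R) ρ ∧
      (201 / 200) ^ i * Real.exp (-L) ≤ α ∧
      α * ((bohr Γ ρ).card : ℝ) ≤ (((bohr Γ ρ).filter (fun b => x0 + b ∈ A)).card : ℝ) := by
    intro i
    induction i with
    | zero =>
      intro _
      have hb : ∀ r : ℝ, bohr (∅ : Finset (AddChar G ℂ)) r = univ := by
        intro r; unfold bohr; simp only [notMem_empty, IsEmpty.forall_iff, implies_true, filter_true]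
      refine ⟨∅, 2, 0, Real.exp (-L), by simp, by norm_num, le_rfl, by simp, ?_, by simp, ?_⟩
      · unfold Regular
        rw [hb, hb]
        have : (0 : ℝ) ≤ ((univ : Finset G).card : ℝ) := by (clear * -; positivity)
        linarith only []
      · rw [hb]
        have h1 : (univ.filter (fun b : G => (0 : G) + b ∈ A)) = A := by
          ext b; simp only [zero_add, subset_univ, filter_mem_eq_of_subset]
        rw [h1, Finset.card_univ]
        exact hdens
    | succ i ih =>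
      intro hi
      obtain ⟨Γ, ρ, x0, α, hΓ, hρ0, hρ2, hρq, hreg, hα, hd⟩ := ih (by omega)
      have h201 : (1 : ℝ) ≤ (201 / 200) ^ i := one_le_pow₀ (by norm_num)
      have hαL : Real.exp (-L) ≤ α := by
        refine le_trans ?_ hα
        have := Real.exp_pos (-L)
        nlinarith only [h201, this]
      have hαpos : 0 < α := lt_of_lt_of_le (Real.exp_pos _) hαL
      by_cases hbig : 16 < α ^ 2 * ((bohr Γ (kap (i * R) * ρ / 2)).card : ℝ)
      · obtain ⟨Γ', ρ', x', h1, h2, h3, h4, h5, h6⟩ :=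
          one_step G hodd A hA L hL R hR Γ (i * R) hΓ ρ hρ0 hρ2 hreg x0 α hαL hd hbig
        have hdd : (i + 1) * R = i * R + R := by ring
        refine ⟨Γ', ρ', x', (1 + 1 / 200) * α, ?_, h2, h3, ?_, ?_, ?_, h6⟩
        · rw [hdd]; exact h1
        · refine le_trans ?_ h4
          have hkk : kap (K * R) ≤ kap (i * R) :=
            iterate_kap_le (Nat.mul_le_mul_right _ (by omega))
          have h7 : q ≤ (kap (i * R)) ^ 6 / (1000 * R) := by
            rw [hq]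
            (clear * - hkp hkk hL; gcongr)
          calc 2 * q ^ (i + 1) = (2 * q ^ i) * q := by ring
            _ ≤ ρ * ((kap (i * R)) ^ 6 / (1000 * R)) :=
                mul_le_mul hρq h7 hqpos.le hρ0.le
            _ = ρ * (kap (i * R)) ^ 6 / (1000 * R) := by ring
        · rw [hdd]; exact h5
        · rw [pow_succ]
          nlinarith only [hα]
      · exfalso
        push Not at hbig
        have hkpos := iterate_kap_pos (i * R)
        have hkle1 : kap (i * R) ≤ 1 := by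
          unfold kap
          rw [div_le_one (by (clear * -; positivity))]
          have : (0 : ℝ) ≤ ((i * R : ℕ) : ℝ) := by (clear * -; positivity)
          linarith only []
        have hqi : 0 < q ^ i := by positivity
        -- choose k
        have harg1 : 1 ≤ 4 / (kap (i * R) * (2 * q ^ i)) := by
          rw [le_div_iff₀ (by positivity)]
          have : 2 * q ^ i ≤ 2 := hρq.trans hρ2
          nlinarith only [hρ2, hkle1, hρq, hkpos]
        obtain ⟨k, hk1, hk2⟩ := iterate_exists_pow _ harg1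
        have hrad : 2 / 2 ^ k ≤ kap (i * R) * ρ / 2 := by
          rw [div_le_iff₀ (by positivity)]
          rw [div_le_iff₀ (by (clear * - hkpos hkp hL; positivity))] at hk1
          have h8 : kap (i * R) * (2 * q ^ i) ≤ kap (i * R) * ρ :=
            mul_le_mul_of_nonneg_left hρq hkpos.le
          have h9 : (2 : ℝ) ^ k * (kap (i * R) * (2 * q ^ i)) ≤ 2 ^ k * (kap (i * R) * ρ) :=
            mul_le_mul_of_nonneg_left h8 (by positivity)
          nlinarith only [hk1, h9]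
        have hcard1 := bohr_card_lower Γ k
        have hcard2 : ((bohr Γ (2 / 2 ^ k)).card : ℝ) ≤
            ((bohr Γ (kap (i * R) * ρ / 2)).card : ℝ) := by
          exact_mod_cast Finset.card_le_card (bohr_mono Γ hrad)
        have hcard3 : ((bohr Γ (kap (i * R) * ρ / 2)).card : ℝ) ≤ 16 * Real.exp (2 * L) := by
          have h10 : Real.exp (-L) ^ 2 ≤ α ^ 2 := pow_le_pow_left₀ (Real.exp_pos _).le hαL 2
          have h11 : Real.exp (-L) ^ 2 * ((bohr Γ (kap (i * R) * ρ / 2)).card : ℝ) ≤ 16 :=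
            le_trans (mul_le_mul_of_nonneg_right h10 (by (clear * -; positivity))) hbig
          have h12 : Real.exp (2 * L) * Real.exp (-L) ^ 2 = 1 := by
            rw [← Real.exp_nat_mul, ← Real.exp_add]
            norm_num
          calc ((bohr Γ (kap (i * R) * ρ / 2)).card : ℝ)
              = Real.exp (2 * L) * (Real.exp (-L) ^ 2 *
                  ((bohr Γ (kap (i * R) * ρ / 2)).card : ℝ)) := by
                rw [← mul_assoc, h12, one_mul]
            _ ≤ Real.exp (2 * L) * 16 :=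
                mul_le_mul_of_nonneg_left h11 (Real.exp_pos _).le
            _ = _ := by ring
        have hpow : (81 : ℝ) ^ (Γ.card * k) ≤ 81 ^ ((i * R) * k) :=
          pow_le_pow_right₀ (by norm_num) (Nat.mul_le_mul_right _ hΓ)
        have hn : (Fintype.card G : ℝ) ≤ 81 ^ ((i * R) * k) * (16 * Real.exp (2 * L)) := by
          calc (Fintype.card G : ℝ) ≤ 81 ^ (Γ.card * k) * ((bohr Γ (2 / 2 ^ k)).card : ℝ) := hcard1
            _ ≤ 81 ^ ((i * R) * k) * (16 * Real.exp (2 * L)) := by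
              apply mul_le_mul hpow (hcard2.trans hcard3) (by (clear * -; positivity)) (by positivity)
        have hGpos : (0 : ℝ) < Fintype.card G := by
          exact_mod_cast Fintype.card_pos
        have hlog := Real.log_le_log hGpos hn
        have hnum := iterate_numeric L hL K R i k (by omega) hK2 hR2 hR1 hk2
        linarith only [hcon, hlog, hnum]
  obtain ⟨Γ, ρ, x0, α, hΓ, hρ0, hρ2, hρq, hreg, hα, hd⟩ := key K le_rfl
  have hcpos : (0 : ℝ) < ((bohr Γ ρ).card : ℝ) := by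
    have : (0 : G) ∈ bohr Γ ρ := zero_mem_bohr Γ hρ0.le
    exact_mod_cast Finset.card_pos.2 ⟨0, this⟩
  have hα1 : α ≤ 1 := by
    have h1 : (((bohr Γ ρ).filter (fun b => x0 + b ∈ A)).card : ℝ) ≤ ((bohr Γ ρ).card : ℝ) := by
      exact_mod_cast Finset.card_filter_le _ _
    by_contra h
    push Not at h
    nlinarith only [hd, h1, hcpos, h]
  have h1 : (201 / 200 : ℝ) ^ K * Real.exp (-L) ≤ 1 := hα.trans hα1
  have h2 : Real.log ((201 / 200 : ℝ) ^ K * Real.exp (-L)) ≤ 0 := by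
    rw [← Real.log_one]
    exact Real.log_le_log (by positivity) h1
  rw [Real.log_mul (by positivity) (by positivity), Real.log_pow, Real.log_exp] at h2
  have h3 : (1 : ℝ) / 201 ≤ Real.log (201 / 200) := by
    have := Real.one_sub_inv_le_log_of_pos (show (0 : ℝ) < 201 / 200 by norm_num)
    norm_num at this ⊢
    linarith only [this]
  have h4 : (K : ℝ) * (1 / 201) ≤ (K : ℝ) * Real.log (201 / 200) :=
    mul_le_mul_of_nonneg_left h3 (by (clear * -; positivity))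
  linarith only [hK1, h2, h4]

end Vale.Agent.P057
end
end

section

section

namespace Vale.Agent.P057

open Finset

theorem roth_transfer (N : ℕ) : ∃ A : Finset (ZMod (2*N+1)), ThreeAPFree (A : Set (ZMod (2*N+1))) ∧
    A.card = rothNumberNat N := by
  have hk : (N : ℕ) < 2 * N + 1 := by omega
  let k : Fin (2 * N + 1) := ⟨N, hk⟩
  have h := Fin.addRothNumber_eq_rothNumberNat (n := 2 * N) (k := k) (by simp [k])
  obtain ⟨t, ht, htc, hfree⟩ := addRothNumber_spec (Finset.Iio k)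
  exact ⟨t, hfree, htc.trans h⟩

/-- The passage from the bound for odd cyclic groups to the bound for `rothNumberNat`. -/
theorem final_of_group_bound
    (hgb : ∃ C : ℝ, 0 < C ∧ ∀ (G : Type) [AddCommGroup G] [Fintype G] [DecidableEq G],
    Odd (Fintype.card G) → ∀ A : Finset G, ThreeAPFree (A : Set G) → ∀ L : ℝ, 1 ≤ L →
    Real.exp (-L) * (Fintype.card G : ℝ) ≤ (A.card : ℝ) →
    Real.log (Fintype.card G) ≤ C * L^6 * (1 + Real.log L)) :
    ∃ c : ℝ, 0 < c ∧ ∃ N₀ : ℕ, ∀ N : ℕ, N₀ ≤ N →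
    (rothNumberNat N : ℝ) ≤
      N * Real.exp (-c * (Real.log N / Real.log (Real.log N)) ^ ((1:ℝ)/6)) := by
  obtain ⟨C, hC, h⟩ := hgb
  set c : ℝ := 1 / (4 * (1 + C)) with hc
  have hcpos : 0 < c := by positivity
  have hc2 : 2 * c ≤ 1 / 2 := by
    rw [hc]
    rw [show 2 * (1 / (4 * (1 + C))) = 1 / (2 * (1 + C)) by field_simp; ring]
    apply one_div_le_one_div_of_le (by norm_num)
    linarith only [hC]
  have hc6 : C * (2 * c) ^ 6 < 1 := by
    have h1 : (2 * c) ^ 6 ≤ 2 * c := by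
      have : (2 * c) ^ 6 = (2 * c) * (2 * c) ^ 5 := by ring
      rw [this]
      have h5 : (2 * c) ^ 5 ≤ 1 := pow_le_one₀ (by positivity) (by linarith only [hc2])
      nlinarith only [hcpos, h5]
    have h2 : C * (2 * c) < 1 := by
      rw [hc]
      rw [show C * (2 * (1 / (4 * (1 + C)))) = C / (2 * (1 + C)) by field_simp; ring]
      rw [div_lt_one (by positivity)]
      linarith only [hC]
    nlinarith only [h2, hC, h1]
  -- limits
  have hlog : Filter.Tendsto (fun N : ℕ => Real.log N) Filter.atTop Filter.atTop :=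
    Real.tendsto_log_atTop.comp tendsto_natCast_atTop_atTop
  have hX : Filter.Tendsto (fun x : ℝ => (x / Real.log x) ^ ((1 : ℝ) / 6)) Filter.atTop
      Filter.atTop := by
    have h1 : Filter.Tendsto (fun x : ℝ => x / Real.log x) Filter.atTop Filter.atTop := by
      have h2 : Filter.Tendsto (fun x : ℝ => Real.log x / x) Filter.atTop (nhds 0) := by
        have := Real.isLittleO_log_id_atTop
        exact this.tendsto_div_nhds_zero
      have h3 : Filter.Tendsto (fun x : ℝ => Real.log x / x) Filter.atTop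
          (nhdsWithin 0 (Set.Ioi 0)) := by
        rw [tendsto_nhdsWithin_iff]
        refine ⟨h2, ?_⟩
        filter_upwards [Filter.eventually_gt_atTop (1 : ℝ)] with x hx
        exact div_pos (Real.log_pos hx) (by linarith only [hx])
      have h4 := h3.inv_tendsto_nhdsGT_zero
      refine h4.congr (fun x => ?_)
      simp
    exact (tendsto_rpow_atTop (by norm_num)).comp h1
  have hev : ∀ᶠ N : ℕ in Filter.atTop,
      1 ≤ N ∧ Real.exp 2 ≤ Real.log N ∧ (Real.log 3) / c ≤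
        (Real.log N / Real.log (Real.log N)) ^ ((1 : ℝ) / 6) := by
    refine (Filter.eventually_ge_atTop 1).and ((hlog.eventually_ge_atTop (Real.exp 2)).and ?_)
    exact (hX.comp hlog).eventually_ge_atTop _
  obtain ⟨N₀, hN₀⟩ := Filter.eventually_atTop.1 hev
  refine ⟨c, hcpos, N₀, fun N hN => ?_⟩
  obtain ⟨hN1, hN3, hNX⟩ := hN₀ N hN
  set x : ℝ := Real.log N with hx
  set y : ℝ := Real.log x with hy
  set X : ℝ := (x / y) ^ ((1 : ℝ) / 6) with hXdef
  by_contra hcon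
  push Not at hcon
  have hxpos : 0 < x := lt_of_lt_of_le (Real.exp_pos 2) hN3
  have hNpos : (0 : ℝ) < N := by exact_mod_cast hN1
  have hypos : 2 ≤ y := by
    rw [hy, Real.le_log_iff_exp_le hxpos]
    exact hN3
  have hxy0 : 0 < x / y := div_pos hxpos (by linarith only [hypos])
  have hXpos : 0 < X := Real.rpow_pos_of_pos hxy0 _
  have hX6 : X ^ 6 = x / y := by
    rw [hXdef, ← Real.rpow_natCast, ← Real.rpow_mul hxy0.le]
    norm_num
  have hlogX : Real.log X ≤ y / 6 := by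
    rw [hXdef, Real.log_rpow hxy0, Real.log_div hxpos.ne' (by linarith only [hypos]), ← hy]
    have : 0 ≤ Real.log y := Real.log_nonneg (by linarith only [hypos])
    linarith only [this]
  obtain ⟨A, hAfree, hAcard⟩ := roth_transfer N
  have hlog3 : 1 ≤ Real.log 3 := by
    rw [Real.le_log_iff_exp_le (by norm_num)]
    have := Real.exp_one_lt_d9
    linarith only [this]
  set L : ℝ := Real.log 3 + c * X with hL
  have hcX : 0 < c * X := mul_pos hcpos hXpos
  have hL1 : 1 ≤ L := by linarith only [hlog3, hcX]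
  have hcardG : Fintype.card (ZMod (2 * N + 1)) = 2 * N + 1 := ZMod.card _
  have hdens : Real.exp (-L) * (Fintype.card (ZMod (2 * N + 1)) : ℝ) ≤ (A.card : ℝ) := by
    rw [hcardG, hAcard]
    have h1 : Real.exp (-L) = (1 / 3) * Real.exp (-c * X) := by
      rw [hL, neg_add, Real.exp_add, Real.exp_neg, Real.exp_log (by norm_num)]
      rw [neg_mul]
      norm_num
    rw [h1]
    have h5 : ((2 * N + 1 : ℕ) : ℝ) ≤ 3 * N := by
      push_cast
      have : (1 : ℝ) ≤ N := by exact_mod_cast hN1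
      linarith only [this]
    have h6 : 0 < Real.exp (-c * X) := Real.exp_pos _
    calc 1 / 3 * Real.exp (-c * X) * ((2 * N + 1 : ℕ) : ℝ)
        ≤ 1 / 3 * Real.exp (-c * X) * (3 * N) := by (clear * - h5; gcongr)
      _ = N * Real.exp (-c * X) := by ring
      _ ≤ _ := hcon.le
  have hM := h (ZMod (2 * N + 1)) (by rw [hcardG]; exact ⟨N, rfl⟩) A hAfree L hL1 hdens
  rw [hcardG] at hM
  have hcX2 : Real.log 3 ≤ c * X := by
    rw [div_le_iff₀ hcpos] at hNX
    linarith only [hNX]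
  have hL2 : L ≤ 2 * c * X := by linarith only [hcX2]
  have hLX : L ≤ X := by nlinarith only [hc2, hcX2, hXpos]
  have hlogL : 1 + Real.log L ≤ y := by
    have : Real.log L ≤ Real.log X := Real.log_le_log (by linarith only [hlog3, hcX2]) hLX
    linarith only [hypos, hlogX, this]
  have hlogL0 : 0 ≤ Real.log L := Real.log_nonneg hL1
  have hfin : C * L ^ 6 * (1 + Real.log L) ≤ C * (2 * c) ^ 6 * x := by
    have h1 : L ^ 6 ≤ (2 * c * X) ^ 6 := pow_le_pow_left₀ (by linarith only [hlog3, hcX2]) hL2 6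
    have h2 : (2 * c * X) ^ 6 = (2 * c) ^ 6 * (x / y) := by
      rw [mul_pow, hX6]
    calc C * L ^ 6 * (1 + Real.log L)
        ≤ C * ((2 * c) ^ 6 * (x / y)) * y := by
          rw [← h2]
          (clear * - h1 hC hlogL hlogL0 hxpos hypos; gcongr)
      _ = C * (2 * c) ^ 6 * x := by
          have : y ≠ 0 := by linarith only [hypos]
          (clear * - this hxpos hcpos hC; field_simp)
  have hlogM : x ≤ Real.log ((2 * N + 1 : ℕ) : ℝ) := by
    rw [hx]
    apply Real.log_le_log hNpos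
    push_cast
    linarith only []
  have : x < x := by
    calc x ≤ Real.log ((2 * N + 1 : ℕ) : ℝ) := hlogM
      _ ≤ C * L ^ 6 * (1 + Real.log L) := hM
      _ ≤ C * (2 * c) ^ 6 * x := hfin
      _ < 1 * x := by
          apply mul_lt_mul_of_pos_right hc6 hxpos
      _ = x := one_mul x
  exact lt_irrefl _ this

end Vale.Agent.P057
end
end

section

section

open Finset

namespace Vale.Agent.P057

theorem group_bound : ∃ C : ℝ, 0 < C ∧ ∀ (G : Type) [AddCommGroup G] [Fintype G] [DecidableEq G],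
    Odd (Fintype.card G) → ∀ A : Finset G, ThreeAPFree (A : Set G) → ∀ L : ℝ, 1 ≤ L →
    Real.exp (-L) * (Fintype.card G : ℝ) ≤ (A.card : ℝ) →
    Real.log (Fintype.card G) ≤ C * L^6 * (1 + Real.log L) :=
  group_bound_of_step (fun G _ _ _ hodd A hA L hL R hR Γ d hd ρ hρ hρ2 hreg x0 α hα hdens hbig =>
    one_step hodd A hA L hL R hR Γ d hd ρ hρ hρ2 hreg x0 α hα hdens hbig)

theorem main : ∃ c : ℝ, 0 < c ∧ ∃ N₀ : ℕ, ∀ N : ℕ, N₀ ≤ N →
    (rothNumberNat N : ℝ) ≤
      N * Real.exp (-c * (Real.log N / Real.log (Real.log N)) ^ ((1:ℝ)/6)) :=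
  final_of_group_bound group_bound

end Vale.Agent.P057
end
end

section

section

open Finset Polynomial

namespace Vale.Agent.P057.Lower

/-- bound for iterated differences -/
theorem abs_diff_le (h : ℤ) (n : ℕ) : ∀ (u : ℕ → ℤ) (j : ℕ), (∀ i, j ≤ i → i ≤ j + n → |u i| ≤ h) →
    |(fwdDiff 1)^[n] u j| ≤ 2 ^ n * h := by
  induction n with
  | zero =>
    intro u j hu
    simpa using hu j le_rfl le_rfl
  | succ n ih =>
    intro u j hu
    rw [Function.iterate_succ_apply']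
    have e : fwdDiff 1 ((fwdDiff 1)^[n] u) j = (fwdDiff 1)^[n] u (j + 1) - (fwdDiff 1)^[n] u j := rfl
    rw [e]
    have h1 := ih u (j + 1) (fun i hi hi' => hu i (by omega) (by omega))
    have h2 := ih u j (fun i hi hi' => hu i (by omega) (by omega))
    calc |(fwdDiff 1)^[n] u (j + 1) - (fwdDiff 1)^[n] u j|
        ≤ |(fwdDiff 1)^[n] u (j + 1)| + |(fwdDiff 1)^[n] u j| := abs_sub _ _
      _ ≤ 2 ^ n * h + 2 ^ n * h := add_le_add h1 h2
      _ = 2 ^ (n + 1) * h := by ring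

/-- iterated differences only depend on nearby values -/
theorem diff_congr {R : Type*} [AddCommGroup R] (n : ℕ) : ∀ (u v : ℕ → R) (j : ℕ),
    (∀ i, j ≤ i → i ≤ j + n → u i = v i) → (fwdDiff 1)^[n] u j = (fwdDiff 1)^[n] v j := by
  induction n with
  | zero =>
    intro u v j hu
    simpa using hu j le_rfl le_rfl
  | succ n ih =>
    intro u v j hu
    rw [Function.iterate_succ_apply', Function.iterate_succ_apply']
    have e : ∀ w : ℕ → R, fwdDiff 1 ((fwdDiff 1)^[n] w) j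
      = (fwdDiff 1)^[n] w (j + 1) - (fwdDiff 1)^[n] w j := fun w => rfl
    rw [e, e, ih u v (j + 1) (fun i hi hi' => hu i (by omega) (by omega)),
      ih u v j (fun i hi hi' => hu i (by omega) (by omega))]

/-- differences vanish further on -/
theorem diff_zero_of {R : Type*} [AddCommGroup R] (u : ℕ → R) (k n : ℕ)
    (h : ∀ j, j + n < k → (fwdDiff 1)^[n] u j = 0) (t : ℕ) :
    ∀ j, j + (n + t) < k → (fwdDiff 1)^[n + t] u j = 0 := by
  induction t with
  | zero => simpa only [add_zero] using h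
  | succ t ih =>
    intro j hj
    have e0 : n + (t + 1) = (n + t) + 1 := by ring
    rw [e0, Function.iterate_succ_apply']
    have e : fwdDiff 1 ((fwdDiff 1)^[n + t] u) j
      = (fwdDiff 1)^[n + t] u (j + 1) - (fwdDiff 1)^[n + t] u j := rfl
    rw [e, ih (j + 1) (by omega), ih j (by omega), sub_zero]

/-- the binomial coefficient as a rational polynomial -/
noncomputable def binPoly (i : ℕ) : ℚ[X] := C (1 / (i.factorial : ℚ)) * descPochhammer ℚ i

theorem binPoly_eval (i j : ℕ) : (binPoly i).eval (j : ℚ) = (j.choose i : ℚ) := by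
  unfold binPoly
  rw [eval_mul, eval_C, descPochhammer_eval_eq_descFactorial, Nat.descFactorial_eq_factorial_mul_choose]
  have : (i.factorial : ℚ) ≠ 0 := by exact_mod_cast Nat.factorial_ne_zero i
  push_cast
  field_simp

theorem binPoly_natDegree_le (i : ℕ) : (binPoly i).natDegree ≤ i := by
  unfold binPoly
  refine le_trans (natDegree_C_mul_le _ _) ?_
  rw [descPochhammer_natDegree]

/-- a sequence with vanishing differences is polynomial -/
theorem exists_poly (u : ℕ → ℤ) (k n : ℕ)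
    (h : ∀ j, j + (n + 1) < k → (fwdDiff 1)^[n + 1] u j = 0) :
    ∃ Q : ℚ[X], Q.natDegree ≤ n ∧ ∀ j < k, Q.eval (j : ℚ) = (u j : ℚ) := by
  refine ⟨∑ i ∈ range (n + 1), C (((fwdDiff 1)^[i] u 0 : ℤ) : ℚ) * binPoly i, ?_, ?_⟩
  · refine natDegree_sum_le_of_forall_le _ _ (fun i hi => ?_)
    refine le_trans (natDegree_C_mul_le _ _) (le_trans (binPoly_natDegree_le i) ?_)
    have := mem_range.1 hi
    omega
  · intro j hj
    have h0 := shift_eq_sum_fwdDiff_iter (h := 1) u j 0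
    simp only [zero_add, smul_eq_mul, mul_one] at h0
    rw [h0]
    rw [eval_finsetSum]
    push_cast
    have e1 : ∀ i, (C (((fwdDiff 1)^[i] u 0 : ℤ) : ℚ) * binPoly i).eval (j : ℚ)
        = (j.choose i : ℚ) * (((fwdDiff 1)^[i] u 0 : ℤ) : ℚ) := by
      intro i
      rw [eval_mul, eval_C, binPoly_eval, mul_comm]
    simp only [e1]
    -- compare both sums with the sum over range (max)
    have hz1 : ∀ i, n + 1 ≤ i → i < k → (fwdDiff 1)^[i] u 0 = 0 := by
      intro i hi hik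
      obtain ⟨t, rfl⟩ := Nat.exists_eq_add_of_le hi
      exact diff_zero_of u k (n + 1) h t 0 (by omega)
    rcases le_total (n + 1) (j + 1) with hnj | hnj
    · rw [← sum_subset (range_mono hnj)]
      · simp only [Int.nsmul_eq_mul, Int.cast_mul, Int.cast_natCast]
      · intro i hi hi'
        rw [hz1 i (by simpa only [Order.add_one_le_iff, mem_range, Order.lt_add_one_iff, not_le] using hi') (by have := mem_range.1 hi; omega)]
        simp
    · rw [← sum_subset (range_mono hnj)]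
      · simp only [Int.nsmul_eq_mul, Int.cast_mul, Int.cast_natCast]
      · intro i hi hi'
        rw [Nat.choose_eq_zero_of_lt (by simpa using hi')]
        simp

end Vale.Agent.P057.Lower
end
end

section

section

open Finset

namespace Vale.Agent.P057.Lower

theorem crt_exists {ι : Type*} [Fintype ι] (p : ι → ℕ)
    (hp : Pairwise (Function.onFun Nat.Coprime p)) (hp0 : ∀ i, 0 < p i) :
    ∃ (M : ℕ) (crt : (ι → ℤ) → ZMod M), M = ∏ i, p i ∧ 0 < M ∧
      (∀ (x : ℤ) (v : ι → ℤ), (x : ZMod M) = crt v → ∀ i, (p i : ℤ) ∣ x - v i) ∧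
      (∀ v v' : ι → ℤ, crt v = crt v' → ∀ i, (p i : ℤ) ∣ v i - v' i) := by
  have : ∀ i, NeZero (p i) := fun i => ⟨(hp0 i).ne'⟩
  let e : ZMod (∏ i, p i) ≃+* (∀ i, ZMod (p i)) := ZMod.prodEquivPi p hp
  refine ⟨∏ i, p i, fun v => e.symm (fun i => ((v i : ℤ) : ZMod (p i))), rfl,
    Finset.prod_pos (fun i _ => hp0 i), ?_, ?_⟩
  · intro x v hx i
    have h1 : e (x : ZMod (∏ i, p i)) = fun i => ((v i : ℤ) : ZMod (p i)) := by
      rw [hx]; exact e.apply_symm_apply _
    have h2 : e (x : ZMod (∏ i, p i)) = fun i => ((x : ℤ) : ZMod (p i)) := by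
      rw [map_intCast]; rfl
    have h3 : ((x : ℤ) : ZMod (p i)) = ((v i : ℤ) : ZMod (p i)) := congrFun (h2.symm.trans h1) i
    have h4 : ((x - v i : ℤ) : ZMod (p i)) = 0 := by push_cast; rw [h3, sub_self]
    exact (ZMod.intCast_zmod_eq_zero_iff_dvd _ _).1 h4
  · intro v v' h i
    have h3 : (fun i => ((v i : ℤ) : ZMod (p i))) = fun i => ((v' i : ℤ) : ZMod (p i)) :=
      e.symm.injective h
    have h4 := congrFun h3 i
    have h5 : ((v i - v' i : ℤ) : ZMod (p i)) = 0 := by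
      push_cast; rw [sub_eq_zero]; exact h4
    exact (ZMod.intCast_zmod_eq_zero_iff_dvd _ _).1 h5

theorem pigeon_count {ι : Type*} (M : ℕ) (hM : 0 < M) (crt : (ι → ℤ) → ZMod M)
    (V : Finset (ι → ℤ)) (hV : ∀ v ∈ V, ∀ v' ∈ V, crt v = crt v' → v = v')
    (F : (ι → ℤ) → ℤ) (L : ℕ) (hL : 0 < L) (hF : ∀ v ∈ V, 0 ≤ F v ∧ F v < L)
    (B : Finset ℤ) (hB : B ⊆ Finset.Ico 0 (L : ℤ)) (W : ℕ) :
    ∃ (s : ZMod M) (t : ℤ) (A : Finset ℤ), A ⊆ Finset.Ico 0 (W : ℤ) ∧
      (∀ y ∈ A, ∃ v ∈ V, crt v - (y : ZMod M) = s ∧ F v + t ∈ B) ∧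
      (V.card * W * B.card : ℝ) / (M * (2 * L)) ≤ A.card := by
  classical
  have : NeZero M := ⟨hM.ne'⟩
  let T : Finset ((ι → ℤ) × ℤ × ℤ) := V ×ˢ (Finset.Ico 0 (W : ℤ)) ×ˢ B
  let g : (ι → ℤ) × ℤ × ℤ → ZMod M × ℤ := fun q => (crt q.1 - (q.2.1 : ZMod M), q.2.2 - F q.1)
  let R : Finset (ZMod M × ℤ) := Finset.univ ×ˢ Finset.Ioo (-(L : ℤ)) L
  have memT : ∀ q, q ∈ T ↔ q.1 ∈ V ∧ q.2.1 ∈ Finset.Ico 0 (W : ℤ) ∧ q.2.2 ∈ B := by
    intro q
    rw [Finset.mem_product, Finset.mem_product]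
  have hmaps : ∀ q ∈ T, g q ∈ R := by
    intro q hq
    obtain ⟨hq1, hq2, hq3⟩ := (memT q).1 hq
    have h1 := hF q.1 hq1
    have h2 := Finset.mem_Ico.1 (hB hq3)
    refine Finset.mem_product.2 ⟨Finset.mem_univ _, Finset.mem_Ioo.2 ?_⟩
    show -(L : ℤ) < q.2.2 - F q.1 ∧ q.2.2 - F q.1 < L
    constructor <;> omega
  have hRne : R.Nonempty :=
    ⟨(0, 0), Finset.mem_product.2 ⟨Finset.mem_univ _, Finset.mem_Ioo.2
      ⟨by show -(L : ℤ) < 0; omega, by show (0 : ℤ) < L; omega⟩⟩⟩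
  have hRcard : R.card = M * (2 * L - 1) := by
    have h1 : (Finset.univ : Finset (ZMod M)).card = M := by
      rw [Finset.card_univ]; exact ZMod.card M
    have h2 : (Finset.Ioo (-(L : ℤ)) L).card = 2 * L - 1 := by
      rw [Int.card_Ioo]; omega
    show (Finset.univ ×ˢ Finset.Ioo (-(L : ℤ)) L).card = _
    rw [card_product, h1, h2]
  have hTcard : T.card = V.card * (W * B.card) := by
    show (V ×ˢ ((Finset.Ico 0 (W : ℤ)) ×ˢ B)).card = _
    rw [card_product, card_product, Int.card_Ico, sub_zero, Int.toNat_natCast]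
  have hL' : (0 : ℝ) < L := by exact_mod_cast hL
  have hM' : (0 : ℝ) < M := by exact_mod_cast hM
  have hle : R.card • ((V.card * W * B.card : ℝ) / (M * (2 * L))) ≤ (T.card : ℝ) := by
    rw [nsmul_eq_mul, hRcard, hTcard]
    have h2L : ((2 * L - 1 : ℕ) : ℝ) ≤ 2 * L := by
      have : (2 * L - 1 : ℕ) ≤ 2 * L := Nat.sub_le _ _
      exact_mod_cast this
    push_cast
    rw [← mul_div_assoc, div_le_iff₀ (by positivity)]
    have hX : (0 : ℝ) ≤ V.card * W * B.card * M := by (clear * - hM; positivity)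
    nlinarith only [h2L, hX]
  obtain ⟨⟨s0, t⟩, _, hst⟩ := Finset.exists_le_card_fiber_of_nsmul_le_card_of_maps_to hmaps hRne hle
  refine ⟨s0, t, ((T.filter (fun q => g q = (s0, t))).image (fun q => q.2.1)), ?_, ?_, ?_⟩
  · intro y hy
    obtain ⟨q, hq, rfl⟩ := Finset.mem_image.1 hy
    exact ((memT q).1 (Finset.mem_filter.1 hq).1).2.1
  · intro y hy
    obtain ⟨q, hq, rfl⟩ := Finset.mem_image.1 hy
    obtain ⟨hqT, hqg⟩ := Finset.mem_filter.1 hq
    obtain ⟨hq1, hq2, hq3⟩ := (memT q).1 hqT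
    have h1 : crt q.1 - (q.2.1 : ZMod M) = s0 := congrArg Prod.fst hqg
    have h2 : q.2.2 - F q.1 = t := congrArg Prod.snd hqg
    refine ⟨q.1, hq1, h1, ?_⟩
    have : F q.1 + t = q.2.2 := by rw [← h2]; ring
    rw [this]; exact hq3
  · rw [Finset.card_image_of_injOn]
    · exact hst
    · intro q hq q' hq' hqq
      obtain ⟨hqT, hqg⟩ := Finset.mem_filter.1 (Finset.mem_coe.1 hq)
      obtain ⟨hqT', hqg'⟩ := Finset.mem_filter.1 (Finset.mem_coe.1 hq')
      have hy : q.2.1 = q'.2.1 := hqq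
      have h1 : crt q.1 - (q.2.1 : ZMod M) = s0 := congrArg Prod.fst hqg
      have h1' : crt q'.1 - (q'.2.1 : ZMod M) = s0 := congrArg Prod.fst hqg'
      have h2 : q.2.2 - F q.1 = t := congrArg Prod.snd hqg
      have h2' : q'.2.2 - F q'.1 = t := congrArg Prod.snd hqg'
      have hc : crt q.1 = crt q'.1 := by
        rw [hy] at h1
        exact sub_left_injective (h1.trans h1'.symm)
      have hv : q.1 = q'.1 := hV _ ((memT q).1 hqT).1 _ ((memT q').1 hqT').1 hc
      have hbb : q.2.2 = q'.2.2 := by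
        rw [hv] at h2
        exact sub_left_injective (h2.trans h2'.symm)
      exact Prod.ext hv (Prod.ext hy hbb)

theorem pigeon {ι : Type*} [Fintype ι] [DecidableEq ι] (p : ι → ℕ)
    (hp : Pairwise (Function.onFun Nat.Coprime p)) (hp0 : ∀ i, 0 < p i) (U : ι → Finset ℤ)
    (hU : ∀ i, ∀ u ∈ U i, ∀ v ∈ U i, (p i : ℤ) ∣ u - v → u = v)
    (F : (ι → ℤ) → ℤ) (L : ℕ) (hL : 0 < L)
    (hF : ∀ v, (∀ i, v i ∈ U i) → 0 ≤ F v ∧ F v < L)
    (B : Finset ℤ) (hB : B ⊆ Finset.Ico 0 (L : ℤ)) (W : ℕ) :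
    ∃ (s t : ℤ) (A : Finset ℤ), A ⊆ Finset.Ico 0 (W : ℤ) ∧
      (∀ y ∈ A, ∃ v : ι → ℤ, (∀ i, v i ∈ U i) ∧ (∀ i, (p i : ℤ) ∣ (s + y) - v i) ∧ F v + t ∈ B) ∧
      (W : ℝ) * (∏ i, ((U i).card : ℝ) / p i) * ((B.card : ℝ) / (2 * L)) ≤ A.card := by
  classical
  obtain ⟨M, crt, hM, hM0, hcrt, hinj⟩ := crt_exists p hp hp0
  obtain ⟨s0, t, A, hA, hprop, hcard⟩ := pigeon_count M hM0 crt (Fintype.piFinset U)
    (fun v hv v' hv' h => funext fun i => hU i _ (Fintype.mem_piFinset.1 hv i) _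
      (Fintype.mem_piFinset.1 hv' i) (hinj v v' h i)) F L hL
    (fun v hv => hF v (Fintype.mem_piFinset.1 hv)) B hB W
  have : NeZero M := ⟨hM0.ne'⟩
  refine ⟨(s0.val : ℤ), t, A, hA, ?_, ?_⟩
  · intro y hy
    obtain ⟨v, hv, hs, hb⟩ := hprop y hy
    refine ⟨v, Fintype.mem_piFinset.1 hv, ?_, hb⟩
    apply hcrt
    rw [Int.cast_add, Int.cast_natCast, ZMod.natCast_val, ZMod.cast_id', id_eq, ← hs,
      sub_add_cancel]
  · refine le_trans (le_of_eq ?_) hcard
    have hMR : (M : ℝ) = ∏ i, (p i : ℝ) := by rw [hM]; push_cast; rfl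
    rw [Finset.prod_div_distrib, Fintype.card_piFinset, Nat.cast_prod, hMR]
    have hP : (∏ i, (p i : ℝ)) ≠ 0 := by rw [← hMR]; exact_mod_cast hM0.ne'
    have hL' : (L : ℝ) ≠ 0 := by exact_mod_cast hL.ne'
    (clear * - hL' hP; field_simp)

end Vale.Agent.P057.Lower
end
end

section

section

open Finset Polynomial

namespace Vale.Agent.P057.Lower

theorem fwdDiff_succ_apply {R : Type*} [AddCommGroup R] (n : ℕ) (u : ℕ → R) (j : ℕ) :
    (fwdDiff 1)^[n + 1] u j = (fwdDiff 1)^[n] u (j + 1) - (fwdDiff 1)^[n] u j := by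
  rw [Function.iterate_succ_apply']; rfl

theorem dvd_diff_sub (p : ℤ) (n : ℕ) : ∀ (u v : ℕ → ℤ) (j : ℕ),
    (∀ i, j ≤ i → i ≤ j + n → p ∣ u i - v i) →
    p ∣ (fwdDiff 1)^[n] u j - (fwdDiff 1)^[n] v j := by
  induction n with
  | zero =>
    intro u v j h
    simpa only [Function.iterate_zero, id_eq] using h j le_rfl le_rfl
  | succ n ih =>
    intro u v j h
    rw [fwdDiff_succ_apply, fwdDiff_succ_apply]
    have h1 := ih u v (j + 1) (fun i hi hi' => h i (by omega) (by omega))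
    have h2 := ih u v j (fun i hi hi' => h i (by omega) (by omega))
    have e : (fwdDiff 1)^[n] u (j + 1) - (fwdDiff 1)^[n] u j -
      ((fwdDiff 1)^[n] v (j + 1) - (fwdDiff 1)^[n] v j) =
      ((fwdDiff 1)^[n] u (j + 1) - (fwdDiff 1)^[n] v (j + 1)) -
      ((fwdDiff 1)^[n] u j - (fwdDiff 1)^[n] v j) := by ring
    rw [e]
    exact dvd_sub h1 h2

theorem diff_natCast (f : ℚ → ℚ) (n : ℕ) : ∀ j : ℕ,
    (fwdDiff 1)^[n] (fun i : ℕ => f (i : ℚ)) j = (fwdDiff 1)^[n] f (j : ℚ) := by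
  induction n with
  | zero => intro j; rfl
  | succ n ih =>
    intro j
    rw [fwdDiff_succ_apply, Function.iterate_succ_apply']
    have e : fwdDiff 1 ((fwdDiff 1)^[n] f) (j : ℚ)
      = (fwdDiff 1)^[n] f ((j : ℚ) + 1) - (fwdDiff 1)^[n] f j := rfl
    rw [e, ih, ih]
    push_cast
    rfl

theorem diff_intCast (u : ℕ → ℤ) (n : ℕ) : ∀ j : ℕ,
    (fwdDiff 1)^[n] (fun i : ℕ => (u i : ℚ)) j = (((fwdDiff 1)^[n] u j : ℤ) : ℚ) := by
  induction n with
  | zero => intro j; rfl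
  | succ n ih =>
    intro j
    rw [fwdDiff_succ_apply, fwdDiff_succ_apply, ih, ih]
    push_cast
    rfl

/-- differences of an integer sequence given by a rational polynomial -/
theorem diff_poly (P : ℚ[X]) (D k : ℕ) (hP : P.natDegree ≤ D) (a : ℕ → ℤ)
    (ha : ∀ j < k, P.eval (j : ℚ) = (a j : ℚ)) (j : ℕ) (hj : j + D < k) :
    (((fwdDiff 1)^[D] a j : ℤ) : ℚ) = P.coeff D * (D.factorial : ℚ) := by
  rw [← diff_intCast, diff_congr D (fun i : ℕ => (a i : ℚ)) (fun i : ℕ => P.eval (i : ℚ)) j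
    (fun i hi hi' => (ha i (by omega)).symm), diff_natCast (fun x => P.eval x)]
  rcases hP.eq_or_lt with h | h
  · have := congrFun (Polynomial.fwdDiff_iter_degree_eq_factorial P) (j : ℚ)
    rw [h] at this
    rw [this, leadingCoeff, h]
    simp
  · have := congrFun (Polynomial.fwdDiff_iter_eq_zero_of_degree_lt h) (j : ℚ)
    rw [this, coeff_eq_zero_of_natDegree_lt h]
    simp

theorem diff_poly_succ (P : ℚ[X]) (D k : ℕ) (hP : P.natDegree ≤ D) (a : ℕ → ℤ)
    (ha : ∀ j < k, P.eval (j : ℚ) = (a j : ℚ)) (j : ℕ) (hj : j + (D + 1) < k) :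
    (fwdDiff 1)^[D + 1] a j = 0 := by
  have h := diff_poly P (D + 1) k (by omega) a ha j hj
  rw [coeff_eq_zero_of_natDegree_lt (by omega), zero_mul] at h
  exact_mod_cast h

/-- no degree `D` polynomial progression of length `k` -/
def Free (k D : ℕ) (A : Finset ℤ) : Prop :=
  ∀ P : ℚ[X], P.natDegree = D → ∃ j < k, ∀ a ∈ A, P.eval (j : ℚ) ≠ (a : ℚ)

/-- building block: congruential progressions of degree `D` are genuine -/
def Block (k D p : ℕ) (U : Finset ℤ) : Prop :=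
  (∀ u ∈ U, ∀ v ∈ U, (p : ℤ) ∣ u - v → u = v) ∧
  ∀ u : ℕ → ℤ, (∀ j < k, u j ∈ U) →
    (∀ j, j + (D + 1) < k → (p : ℤ) ∣ (fwdDiff 1)^[D + 1] u j) →
    ∀ j, j + (D + 1) < k → (fwdDiff 1)^[D + 1] u j = 0

theorem free_singleton (k D : ℕ) (hD : 1 ≤ D) (hDk : D < k) (a : ℤ) : Free k D {a} := by
  intro P hP
  by_contra hcon
  push Not at hcon
  have h1 : ∀ j < k, P.eval (j : ℚ) = (a : ℚ) := by
    intro j hj
    obtain ⟨b, hb, hb'⟩ := hcon j hj
    rw [Finset.mem_singleton] at hb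
    rw [hb', hb]
  have h2 : P = C (a : ℚ) := by
    apply Polynomial.eq_of_natDegree_lt_card_of_eval_eq (f := fun j : Fin k => ((j : ℕ) : ℚ))
    · intro i j hij
      have hij' : ((i : ℕ) : ℚ) = ((j : ℕ) : ℚ) := hij
      exact Fin.ext (by exact_mod_cast hij')
    · intro i
      rw [h1 i i.2, eval_C]
    · simp only [natDegree_C, Fintype.card_fin]
      rw [hP]
      omega
  rw [h2, natDegree_C] at hP
  omega

theorem level {ι : Type*} [Fintype ι] [DecidableEq ι] (k D : ℕ) (hD : 1 ≤ D) (hDk : D < k)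
    (p : ι → ℕ) (hp : Pairwise (Function.onFun Nat.Coprime p)) (hp0 : ∀ i, 0 < p i)
    (U : ι → Finset ℤ) (hU : ∀ i, Block k D (p i) (U i)) (L : ℕ) (hL : 0 < L)
    (hF : ∀ v : ι → ℤ, (∀ i, v i ∈ U i) → ∑ i, (v i) ^ 2 < (L : ℤ))
    (B : Finset ℤ) (hB : B ⊆ Finset.Ico 0 (L : ℤ)) (hBf : Free k (2 * D) B) (W : ℕ)
    (hW : 2 ^ D * W ≤ ∏ i, p i) :
    ∃ A : Finset ℤ, A ⊆ Finset.Ico 0 (W : ℤ) ∧ Free k D A ∧
      (W : ℝ) * (∏ i, ((U i).card : ℝ) / p i) * ((B.card : ℝ) / (2 * L)) ≤ A.card := by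
  obtain ⟨s, t, A, hA, hprop, hcard⟩ := pigeon p hp hp0 U (fun i => (hU i).1)
    (fun v => ∑ i, (v i) ^ 2) L hL
    (fun v hv => ⟨Finset.sum_nonneg (fun i _ => sq_nonneg _), hF v hv⟩) B hB W
  refine ⟨A, hA, ?_, hcard⟩
  intro P hP
  by_contra hcon
  push Not at hcon
  have hex : ∀ j : ℕ, ∃ a : ℤ, j < k → a ∈ A ∧ P.eval (j : ℚ) = (a : ℚ) := by
    intro j
    by_cases hj : j < k
    · obtain ⟨a, ha, ha'⟩ := hcon j hj
      exact ⟨a, fun _ => ⟨ha, ha'⟩⟩
    · exact ⟨0, fun h => absurd h hj⟩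
  choose a ha using hex
  have hex2 : ∀ j : ℕ, ∃ v : ι → ℤ, j < k → (∀ i, v i ∈ U i) ∧
      (∀ i, (p i : ℤ) ∣ (s + a j) - v i) ∧ (∑ i, (v i) ^ 2) + t ∈ B := by
    intro j
    by_cases hj : j < k
    · obtain ⟨v, hv⟩ := hprop (a j) (ha j hj).1
      exact ⟨v, fun _ => hv⟩
    · exact ⟨0, fun h => absurd h hj⟩
  choose v hv using hex2
  have hPs : ∀ j < k, (P + C (s : ℚ)).eval (j : ℚ) = ((s + a j : ℤ) : ℚ) := by
    intro j hj
    rw [eval_add, eval_C, (ha j hj).2]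
    push_cast
    ring
  have hPsd : (P + C (s : ℚ)).natDegree ≤ D := by
    rw [natDegree_add_C, hP]
  have hQ : ∀ i, ∃ Q : ℚ[X], Q.natDegree ≤ D ∧ ∀ j < k, Q.eval (j : ℚ) = (v j i : ℚ) := by
    intro i
    apply exists_poly (fun j => v j i) k D
    apply (hU i).2 (fun j => v j i) (fun j hj => (hv j hj).1 i)
    intro j hj
    have h1 := dvd_diff_sub (p i : ℤ) (D + 1) (fun j => s + a j) (fun j => v j i) j
      (fun l hl hl' => (hv l (by omega)).2.1 i)
    have h2 : (fwdDiff 1)^[D + 1] (fun j => s + a j) j = 0 :=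
      diff_poly_succ (P + C (s : ℚ)) D k hPsd (fun j => s + a j) hPs j hj
    rw [h2, zero_sub] at h1
    exact (dvd_neg).1 h1
  choose Q hQd hQe using hQ
  by_cases hall : ∀ i, (Q i).coeff D = 0
  · have hdvd : ∀ i, (p i : ℤ) ∣ (fwdDiff 1)^[D] (fun j => s + a j) 0 := by
      intro i
      have h1 := dvd_diff_sub (p i : ℤ) D (fun j => s + a j) (fun j => v j i) 0
        (fun l hl hl' => (hv l (by (clear * - hDk hP hl'; omega))).2.1 i)
      have h2 : (fwdDiff 1)^[D] (fun j => v j i) 0 = 0 := by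
        have := diff_poly (Q i) D k (hQd i) (fun j => v j i) (hQe i) 0 (by omega)
        rw [hall i, zero_mul] at this
        exact_mod_cast this
      rw [h2, sub_zero] at h1
      exact h1
    have hcop : (∏ i, (p i : ℤ)) ∣ (fwdDiff 1)^[D] (fun j => s + a j) 0 := by
      apply Fintype.prod_dvd_of_coprime _ hdvd
      intro i j hij
      exact Nat.isCoprime_iff_coprime.2 (hp hij)
    have e1 := diff_poly (P + C (s : ℚ)) D k hPsd (fun j => s + a j) hPs 0 (by omega)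
    have e2 := diff_poly P D k hP.le a (fun j hj => (ha j hj).2) 0 (by omega)
    have e3 : (P + C (s : ℚ)).coeff D = P.coeff D := by
      rw [coeff_add, coeff_C, if_neg (by omega), add_zero]
    rw [e3, ← e2] at e1
    have e4 : (fwdDiff 1)^[D] (fun j => s + a j) 0 = (fwdDiff 1)^[D] a 0 := by exact_mod_cast e1
    rw [e4] at hcop
    have hPD : P.coeff D ≠ 0 := by
      rw [← hP]
      exact leadingCoeff_ne_zero.2 (fun h => by rw [h, natDegree_zero] at hP; omega)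
    have hne : (fwdDiff 1)^[D] a 0 ≠ 0 := by
      intro h
      rw [h, Int.cast_zero] at e2
      rcases mul_eq_zero.1 e2.symm with h' | h'
      · exact hPD h'
      · exact (by exact_mod_cast Nat.factorial_ne_zero D : (D.factorial : ℚ) ≠ 0) h'
    have hbd : |(fwdDiff 1)^[D] a 0| ≤ 2 ^ D * ((W : ℤ) - 1) := by
      apply abs_diff_le
      intro i _ hi
      have := Finset.mem_Ico.1 (hA (ha i (by omega)).1)
      rw [abs_le]
      constructor <;> omega
    have hlt : |(fwdDiff 1)^[D] a 0| < ∏ i, (p i : ℤ) := by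
      have h3 : ((2 ^ D * W : ℕ) : ℤ) ≤ ((∏ i, p i : ℕ) : ℤ) := by exact_mod_cast hW
      push_cast at h3
      have h4 : (0 : ℤ) < 2 ^ D := by positivity
      calc |(fwdDiff 1)^[D] a 0| ≤ 2 ^ D * ((W : ℤ) - 1) := hbd
        _ < 2 ^ D * (W : ℤ) := by nlinarith only [h4]
        _ ≤ _ := h3
    exact hne (Int.eq_zero_of_abs_lt_dvd hcop hlt)
  · push Not at hall
    obtain ⟨i0, hi0⟩ := hall
    have hR : (∑ i, (Q i) ^ 2 + C (t : ℚ)).natDegree = 2 * D := by
      apply le_antisymm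
      · rw [natDegree_add_C]
        refine natDegree_sum_le_of_forall_le _ _ (fun i _ => ?_)
        refine le_trans natDegree_pow_le ?_
        have := hQd i
        omega
      · apply le_natDegree_of_ne_zero
        rw [coeff_add, coeff_C, if_neg (by omega), add_zero, finsetSum_coeff]
        have : ∀ i, ((Q i) ^ 2).coeff (2 * D) = ((Q i).coeff D) ^ 2 := fun i =>
          coeff_pow_of_natDegree_le (hQd i)
        simp only [this]
        have hpos : 0 < ∑ i, ((Q i).coeff D) ^ 2 :=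
          Finset.sum_pos' (fun i _ => sq_nonneg _) ⟨i0, Finset.mem_univ _, by positivity⟩
        exact hpos.ne'
    obtain ⟨j, hj, hjB⟩ := hBf _ hR
    apply hjB _ (hv j hj).2.2
    rw [eval_add, eval_C, eval_finsetSum]
    push_cast
    congr 1
    apply Finset.sum_congr rfl
    intro i _
    rw [eval_pow, hQe i j hj]

end Vale.Agent.P057.Lower
end
end

section

section

open Finset

namespace Vale.Agent.P057.Lower

theorem block_interval (k D p h : ℕ) (hp : 2 ^ (D + 1) * h < p) :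
    Block k D p (Finset.Icc (-(h : ℤ)) h) := by
  have h2 : 2 * h < p := by
    have h1 : 2 ≤ 2 ^ (D + 1) := by
      calc 2 = 2 ^ 1 := rfl
        _ ≤ 2 ^ (D + 1) := Nat.pow_le_pow_right (by norm_num) (by omega)
    nlinarith
  constructor
  · intro u hu v hv hdvd
    rw [Finset.mem_Icc] at hu hv
    have h3 : |u - v| < p := by
      rw [abs_lt]
      constructor <;> omega
    have := Int.eq_zero_of_abs_lt_dvd hdvd h3
    omega
  · intro u hu hdvd j hj
    have h3 : |(fwdDiff 1)^[D + 1] u j| ≤ 2 ^ (D + 1) * (h : ℤ) := by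
      apply abs_diff_le
      intro i _ hi
      have := Finset.mem_Icc.1 (hu i (by omega))
      rw [abs_le]
      exact this
    have h4 : |(fwdDiff 1)^[D + 1] u j| < p := by
      refine lt_of_le_of_lt h3 ?_
      exact_mod_cast hp
    exact Int.eq_zero_of_abs_lt_dvd (hdvd j hj) h4

/-- the parity block: even numbers up to `p / 3`, odd numbers up to `2 p / 9` -/
noncomputable def parityBlock (p : ℕ) : Finset ℤ :=
  (Finset.Icc (-(p : ℤ)) p).filter
    (fun u => (u % 2 = 0 ∧ -(p : ℤ) < 3 * u ∧ 3 * u < p) ∨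
      (u % 2 = 1 ∧ -(2 * p : ℤ) < 9 * u ∧ 9 * u < 2 * p))

theorem mem_parityBlock {p : ℕ} {u : ℤ} (hu : u ∈ parityBlock p) :
    (u % 2 = 0 ∧ -(p : ℤ) < 3 * u ∧ 3 * u < p) ∨
      (u % 2 = 1 ∧ -(2 * p : ℤ) < 9 * u ∧ 9 * u < 2 * p) :=
  (Finset.mem_filter.1 hu).2

/-- second differences of a congruential progression inside the parity block -/
theorem parity_q {p : ℕ} (hp : p % 2 = 1) {a b c : ℤ} (ha : a ∈ parityBlock p)
    (hb : b ∈ parityBlock p) (hc : c ∈ parityBlock p) (h : (p : ℤ) ∣ a - 2 * b + c) :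
    a - 2 * b + c = 0 ∨ a - 2 * b + c = p ∨ a - 2 * b + c = -p := by
  obtain ⟨q, hq⟩ := h
  have h1 := mem_parityBlock ha
  have h2 := mem_parityBlock hb
  have h3 := mem_parityBlock hc
  have hp0 : 0 < (p : ℤ) := by omega
  have hlt : |a - 2 * b + c| < 2 * (p : ℤ) := by
    rw [abs_lt]
    constructor <;> omega
  rw [hq, abs_mul, abs_of_pos hp0] at hlt
  have hq2 : |q| < 2 := by
    by_contra hcon
    push Not at hcon
    nlinarith only [hlt, hcon]
  rw [abs_lt] at hq2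
  have : q = 0 ∨ q = 1 ∨ q = -1 := by omega
  rcases this with rfl | rfl | rfl
  · left; rw [hq]; ring
  · right; left; rw [hq]; ring
  · right; right; rw [hq]; ring

/-- four term congruential progressions inside the parity block are genuine progressions
or follow the pattern odd, even, even, odd -/
theorem parity_four {p : ℕ} (hp : p % 2 = 1) {a b c d : ℤ} (ha : a ∈ parityBlock p)
    (hb : b ∈ parityBlock p) (hc : c ∈ parityBlock p) (hd : d ∈ parityBlock p)
    (h1 : (p : ℤ) ∣ a - 2 * b + c) (h2 : (p : ℤ) ∣ b - 2 * c + d) :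
    (a - 2 * b + c = 0 ∧ b - 2 * c + d = 0) ∨
    (a % 2 = 1 ∧ b % 2 = 0 ∧ c % 2 = 0 ∧ d % 2 = 1) := by
  have e1 := parity_q hp ha hb hc h1
  have e2 := parity_q hp hb hc hd h2
  have f1 := mem_parityBlock ha
  have f2 := mem_parityBlock hb
  have f3 := mem_parityBlock hc
  have f4 := mem_parityBlock hd
  have hp0 : 0 < (p : ℤ) := by omega
  rcases e1 with e1 | e1 | e1 <;> rcases e2 with e2 | e2 | e2
  · left; exact ⟨e1, e2⟩
  all_goals omega

theorem diff_two (u : ℕ → ℤ) (j : ℕ) :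
    (fwdDiff 1)^[1 + 1] u j = u j - 2 * u (j + 1) + u (j + 2) := by
  rw [fwdDiff_succ_apply, fwdDiff_succ_apply 0, fwdDiff_succ_apply 0]
  show u (j + 1 + 1) - u (j + 1) - (u (j + 1) - u j) = _
  ring

theorem parity_inj {p : ℕ} (hp : 0 < p) {a b : ℤ} (ha : a ∈ parityBlock p)
    (hb : b ∈ parityBlock p) (h : (p : ℤ) ∣ a - b) : a = b := by
  have h1 := mem_parityBlock ha
  have h2 := mem_parityBlock hb
  have hlt : |a - b| < (p : ℤ) := by
    rw [abs_lt]
    constructor <;> omega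
  have := Int.eq_zero_of_abs_lt_dvd h hlt
  omega

theorem block_parity (k p : ℕ) (hk : 5 ≤ k) (hp : p % 2 = 1) : Block k 1 p (parityBlock p) := by
  refine ⟨fun u hu v hv h => parity_inj (by omega) hu hv h, fun u hu hdvd => ?_⟩
  have hd : ∀ j, j + 2 < k → (p : ℤ) ∣ u j - 2 * u (j + 1) + u (j + 2) := by
    intro j hj
    have := hdvd j (by omega)
    rwa [diff_two] at this
  have four : ∀ j, j + 3 < k →
      (u j - 2 * u (j + 1) + u (j + 2) = 0 ∧ u (j + 1) - 2 * u (j + 2) + u (j + 3) = 0) ∨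
      (u j % 2 = 1 ∧ u (j + 1) % 2 = 0 ∧ u (j + 2) % 2 = 0 ∧ u (j + 3) % 2 = 1) := by
    intro j hj
    exact parity_four hp (hu j (by omega)) (hu (j + 1) (by omega)) (hu (j + 2) (by omega))
      (hu (j + 3) (by omega)) (hd j (by omega)) (hd (j + 1) (by omega))
  have key : ∀ j, j + 4 < k →
      u j - 2 * u (j + 1) + u (j + 2) = 0 ∧ u (j + 1) - 2 * u (j + 2) + u (j + 3) = 0 ∧
      u (j + 2) - 2 * u (j + 3) + u (j + 4) = 0 := by
    intro j hj
    have f1 := four j (by omega)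
    have f2 := four (j + 1) (by omega)
    have e1 : j + 1 + 1 = j + 2 := by ring
    have e2 : j + 1 + 2 = j + 3 := by ring
    have e3 : j + 1 + 3 = j + 4 := by ring
    rw [e1, e2, e3] at f2
    rcases f1 with f1 | f1
    · rcases f2 with f2 | f2
      · exact ⟨f1.1, f1.2, f2.2⟩
      · exfalso
        -- then the window has odd second difference, hence it is not zero
        have g1 := f1.2
        have g2 := mem_parityBlock (hu (j + 1) (by omega))
        have g3 := mem_parityBlock (hu (j + 2) (by omega))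
        have g4 := mem_parityBlock (hu (j + 3) (by omega))
        omega
    · exfalso
      rcases f2 with f2 | f2
      · have g1 := f2.1
        omega
      · omega
  intro j hj
  rw [diff_two]
  rcases Nat.lt_or_ge (j + 4) k with h | h
  · exact (key j h).1
  · rcases Nat.lt_or_ge (j + 3) k with h3 | h3
    · have := (key (j - 1) (by omega)).2.1
      have e1 : j - 1 + 1 = j := by omega
      have e2 : j - 1 + 2 = j + 1 := by omega
      have e3 : j - 1 + 3 = j + 2 := by omega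
      rw [e1, e2, e3] at this
      exact this
    · have := (key (j - 2) (by omega)).2.2
      have e1 : j - 2 + 2 = j := by omega
      have e2 : j - 2 + 3 = j + 1 := by omega
      have e3 : j - 2 + 4 = j + 2 := by omega
      rw [e1, e2, e3] at this
      exact this

theorem parity_card (p : ℕ) : (5 * p : ℝ) / 9 - 2 ≤ (parityBlock p).card := by
  -- the even part and the odd part
  have hsub : (Finset.Icc (-((p - 1) / 6 : ℕ) : ℤ) ((p - 1) / 6 : ℕ)).image (fun v => 2 * v) ∪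
      (Finset.Ico (-((p + 4) / 9 : ℕ) : ℤ) ((p + 4) / 9 : ℕ)).image (fun v => 2 * v + 1) ⊆
      parityBlock p ∪ (if p = 0 then {0} else ∅) := by
    intro u hu
    rcases Nat.eq_zero_or_pos p with rfl | hp0
    · simp only [Nat.zero_sub, Nat.zero_div, Nat.zero_add] at hu
      rw [Finset.mem_union]
      right
      simp at hu ⊢
      exact hu
    rw [if_neg (by omega), Finset.union_empty]
    unfold parityBlock
    rw [Finset.mem_filter, Finset.mem_Icc]
    rw [Finset.mem_union, Finset.mem_image, Finset.mem_image] at hu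
    rcases hu with ⟨v, hv, rfl⟩ | ⟨v, hv, rfl⟩
    · rw [Finset.mem_Icc] at hv
      omega
    · rw [Finset.mem_Ico] at hv
      omega
  rcases Nat.eq_zero_or_pos p with rfl | hp0
  · have : (0 : ℝ) ≤ (parityBlock 0).card := by (clear * -; positivity)
    simp only [Nat.cast_zero]
    linarith
  rw [if_neg (by omega), Finset.union_empty] at hsub
  have hdisj : Disjoint
      ((Finset.Icc (-((p - 1) / 6 : ℕ) : ℤ) ((p - 1) / 6 : ℕ)).image (fun v => 2 * v))
      ((Finset.Ico (-((p + 4) / 9 : ℕ) : ℤ) ((p + 4) / 9 : ℕ)).image (fun v => 2 * v + 1)) := by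
    rw [Finset.disjoint_left]
    intro u hu hu'
    obtain ⟨v, _, rfl⟩ := Finset.mem_image.1 hu
    obtain ⟨w, _, hw⟩ := Finset.mem_image.1 hu'
    omega
  have hcard := Finset.card_le_card hsub
  rw [Finset.card_union_of_disjoint hdisj,
    Finset.card_image_of_injective _ (fun a b h => by simpa only [mul_eq_mul_left_iff, OfNat.ofNat_ne_zero, or_false] using h),
    Finset.card_image_of_injective _ (fun a b h => by simpa only [add_left_inj, mul_eq_mul_left_iff, OfNat.ofNat_ne_zero, or_false] using h),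
    Int.card_Icc, Int.card_Ico] at hcard
  have h5 : 5 * p ≤ 9 * (parityBlock p).card + 18 := by omega
  have h6 : (5 * p : ℝ) ≤ 9 * (parityBlock p).card + 18 := by exact_mod_cast h5
  linarith only [h6]

theorem parity_abs {p : ℕ} {u : ℤ} (hu : u ∈ parityBlock p) : |u| ≤ p := by
  have := Finset.mem_Icc.1 (Finset.mem_filter.1 hu).1
  exact abs_le.2 this

end Vale.Agent.P057.Lower
end
end

section

section

open Filter Real

namespace Vale.Agent.P057.Lower

theorem ev_exp_ge (a b : ℝ) (ha : 0 < a) (hb : 0 < b) :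
    ∀ᶠ y : ℝ in atTop, (b * y + 1) ^ 2 ≤ Real.exp (y / a) := by
  have h1 : Tendsto (fun y : ℝ => Real.exp y / y ^ 3) atTop atTop :=
    Real.tendsto_exp_div_pow_atTop 3
  have h2 : Tendsto (fun y : ℝ => y / a) atTop atTop := tendsto_id.atTop_div_const ha
  have h3 := (h1.comp h2).eventually_ge_atTop ((a * (b + 1)) ^ 2)
  filter_upwards [h3, eventually_ge_atTop (1 : ℝ), eventually_ge_atTop a] with y hy hy1 hya
  simp only [Function.comp] at hy
  have hya' : 1 ≤ y / a := (one_le_div ha).2 hya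
  rw [le_div_iff₀ (by positivity)] at hy
  calc (b * y + 1) ^ 2 ≤ ((b + 1) * y) ^ 2 := by
        apply pow_le_pow_left₀ (by positivity)
        linarith
    _ = (a * (b + 1)) ^ 2 * (y / a) ^ 2 := by field_simp
    _ ≤ (a * (b + 1)) ^ 2 * (y / a) ^ 3 := by
        apply mul_le_mul_of_nonneg_left _ (by positivity)
        exact pow_le_pow_right₀ hya' (by norm_num)
    _ ≤ _ := hy

theorem ev_exp_const (a C : ℝ) (ha : 0 < a) :
    ∀ᶠ y : ℝ in atTop, C ≤ Real.exp (y / a) := by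
  have h2 : Tendsto (fun y : ℝ => y / a) atTop atTop := tendsto_id.atTop_div_const ha
  exact (Real.tendsto_exp_atTop.comp h2).eventually_ge_atTop C

theorem ev_log_le (K b e : ℝ) (hb : 0 < b) (he : 0 < e) :
    ∀ᶠ y : ℝ in atTop, K + Real.log (b * y + 1) ≤ e * y := by
  have h1 := ev_exp_ge (1 / e) (b * Real.exp K + Real.exp K) (by positivity) (by positivity)
  filter_upwards [h1, eventually_ge_atTop (1 : ℝ)] with y hy hy1
  have hK := Real.exp_pos K
  have h3 : Real.exp K * (b * y + 1) ≤ Real.exp (e * y) := by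
    have e1 : y / (1 / e) = e * y := by field_simp
    rw [e1] at hy
    refine le_trans ?_ hy
    have h4 : Real.exp K * (b * y + 1) ≤ (b * Real.exp K + Real.exp K) * y + 1 := by
      nlinarith only [hK, hy1]
    have h5 : 1 ≤ (b * Real.exp K + Real.exp K) * y + 1 := by
      have : 0 ≤ (b * Real.exp K + Real.exp K) * y := by positivity
      linarith only [this]
    nlinarith only [hy1, hK, h5]
  have hpos : 0 < b * y + 1 := by positivity
  have h6 := Real.log_le_log (by positivity) h3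
  rw [Real.log_mul hK.ne' hpos.ne', Real.log_exp, Real.log_exp] at h6
  exact h6

theorem tendsto_y (s : ℕ) :
    Tendsto (fun W : ℕ => (Real.log W) ^ ((1 : ℝ) / ((s : ℝ) + 1))) atTop atTop := by
  have h1 : Tendsto (fun W : ℕ => Real.log (W : ℝ)) atTop atTop :=
    Real.tendsto_log_atTop.comp tendsto_natCast_atTop_atTop
  exact (tendsto_rpow_atTop (by positivity)).comp h1

/-- bounds for the exponent of the prime size -/
theorem z_bounds (s D : ℕ) (hs : 1 ≤ s) (l y x dd : ℝ) (hl0 : 0 < l) (e6 : 1 ≤ y)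
    (hypow : y ^ (s + 1) = x) (hd1 : l * y ≤ dd) (hd2 : dd ≤ l * y + 1) (hd3 : 1 ≤ dd) :
    y / (l + 1) ≤ (x + D * Real.log 2) / dd ∧
    (x + D * Real.log 2) / dd ≤ y ^ s / l + D * Real.log 2 := by
  have hlog2 : 0 < Real.log 2 := Real.log_pos (by norm_num)
  have hy0 : 0 < y := by linarith only [e6]
  have hdR : 0 < dd := by linarith only [hd3]
  constructor
  · rw [div_le_div_iff₀ (by positivity) hdR]
    have h1 : dd ≤ (l + 1) * y := by nlinarith only [e6, hd2]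
    have h2 : y ^ 2 ≤ x := by
      rw [← hypow]
      exact pow_le_pow_right₀ e6 (by omega)
    have h3 : 0 ≤ (D : ℝ) * Real.log 2 := by (clear * -; positivity)
    have h4 : y * dd ≤ y * ((l + 1) * y) := mul_le_mul_of_nonneg_left h1 hy0.le
    have h5 : (l + 1) * y ^ 2 ≤ (l + 1) * x := mul_le_mul_of_nonneg_left h2 (by positivity)
    have h6 : 0 ≤ (l + 1) * (D * Real.log 2) := by positivity
    linarith only [h4, h5, h6]
  · rw [add_div]
    apply add_le_add
    · rw [div_le_div_iff₀ hdR hl0, ← hypow, pow_succ]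
      have h1 : 0 ≤ y ^ s := by positivity
      have h2 := mul_le_mul_of_nonneg_left hd1 h1
      linarith only [h2]
    · exact div_le_self (by positivity) hd3

/-- choice of the dimension and of the size of the primes -/
theorem choose_dm (s D : ℕ) (hs : 1 ≤ s) (l y : ℝ) (hl0 : 0 < l) (e6 : 1 ≤ y) (W : ℕ)
    (hW1 : 1 ≤ W) (hypow : y ^ (s + 1) = Real.log W)
    (e1 : (l * y + 1) ^ 2 ≤ Real.exp (y / (l + 1))) :
    ∃ d m : ℕ, 1 ≤ d ∧ (d : ℝ) ≤ l * y + 1 ∧ d ^ 2 ≤ m ∧ 1 ≤ m ∧ 2 ^ D * W ≤ m ^ d ∧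
      Real.exp (y / (l + 1)) ≤ m ∧ Real.log m ≤ Real.log 2 + (y ^ s / l + D * Real.log 2) := by
  have hy0 : 0 < y := by linarith only [e6]
  refine ⟨⌈l * y⌉₊, ⌈Real.exp ((Real.log W + D * Real.log 2) / ⌈l * y⌉₊)⌉₊, ?_⟩
  have hd1 : (l * y : ℝ) ≤ ⌈l * y⌉₊ := Nat.le_ceil _
  have hd2 : (⌈l * y⌉₊ : ℝ) ≤ l * y + 1 := (Nat.ceil_lt_add_one (by positivity)).le
  have hdpos : 0 < ⌈l * y⌉₊ := Nat.ceil_pos.2 (by positivity)
  generalize ⌈l * y⌉₊ = d at hd1 hd2 hdpos ⊢
  have hdR : (0 : ℝ) < d := by exact_mod_cast hdpos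
  have hd3 : (1 : ℝ) ≤ d := by exact_mod_cast hdpos
  obtain ⟨hz1, hz2⟩ := z_bounds s D hs l y _ d hl0 e6 hypow hd1 hd2 hd3
  have h1 : (Real.exp ((Real.log W + D * Real.log 2) / d)) ^ d = 2 ^ D * W := by
    rw [← Real.exp_nat_mul]
    have e : (d : ℝ) * ((Real.log W + D * Real.log 2) / d) = D * Real.log 2 + Real.log W := by
      field_simp
      ring
    rw [e, Real.exp_add, Real.exp_log (by exact_mod_cast hW1), mul_comm (D : ℝ),
      Real.exp_mul, Real.exp_log (by norm_num), Real.rpow_natCast]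
  generalize (Real.log W + D * Real.log 2) / d = z at hz1 hz2 h1 ⊢
  have hz0 : 0 ≤ z := le_trans (by positivity) hz1
  have hm1 : Real.exp z ≤ ⌈Real.exp z⌉₊ := Nat.le_ceil _
  have hm2 : (⌈Real.exp z⌉₊ : ℝ) ≤ 2 * Real.exp z := by
    have h1 := (Nat.ceil_lt_add_one (Real.exp_pos z).le).le
    have h2 : 1 ≤ Real.exp z := Real.one_le_exp hz0
    linarith only [h1, h2]
  have hmpos : 0 < ⌈Real.exp z⌉₊ := Nat.ceil_pos.2 (Real.exp_pos z)
  generalize ⌈Real.exp z⌉₊ = m at hm1 hm2 hmpos ⊢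
  have hmR : (0 : ℝ) < m := by exact_mod_cast hmpos
  have hexpz : Real.exp (y / (l + 1)) ≤ Real.exp z := Real.exp_le_exp.2 hz1
  refine ⟨hdpos, hd2, ?_, hmpos, ?_, hexpz.trans hm1, ?_⟩
  · have : (d : ℝ) ^ 2 ≤ m := by
      refine le_trans ?_ (e1.trans (hexpz.trans hm1))
      exact pow_le_pow_left₀ hdR.le hd2 2
    exact_mod_cast this
  · have h2 : (2 : ℝ) ^ D * W ≤ (m : ℝ) ^ d := by
      rw [← h1]
      exact pow_le_pow_left₀ (Real.exp_pos z).le hm1 d
    exact_mod_cast h2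
  · have h3 : Real.log m ≤ Real.log 2 + z := by
      refine (Real.log_le_log hmR hm2).trans (le_of_eq ?_)
      rw [Real.log_mul (by norm_num) (Real.exp_pos z).ne', Real.log_exp]
    linarith only [hz2, h3]

/-- the logarithm of the length of the auxiliary interval -/
theorem logL_bound (s D : ℕ) (hs : 1 ≤ s) (l y δ : ℝ) (hl0 : 0 < l) (hδ : 0 < δ) (e6 : 1 ≤ y)
    (d m : ℕ) (hd1 : 1 ≤ d) (hd2 : (d : ℝ) ≤ l * y + 1) (hm1 : 1 ≤ m)
    (hm2 : Real.log m ≤ Real.log 2 + (y ^ s / l + D * Real.log 2))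
    (e4 : Real.log 129 + 2 * (D + 1) * Real.log 2 + Real.log (l * y + 1) ≤ 2 * δ / l * y) :
    Real.log ((128 * d * m ^ 2 + 1 : ℕ) : ℝ) ≤ 2 / l * (1 + δ) * y ^ s := by
  have hdR : (0 : ℝ) < d := by exact_mod_cast hd1
  have hmR : (0 : ℝ) < m := by exact_mod_cast hm1
  have hLR : ((128 * d * m ^ 2 + 1 : ℕ) : ℝ) ≤ 129 * d * m ^ 2 := by
    have h1 : (1 : ℝ) ≤ d * m ^ 2 := by
      have : 1 ≤ d * m ^ 2 := Nat.mul_pos hd1 (by positivity)
      exact_mod_cast this
    push_cast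
    linarith only [h1]
  have hLpos : (0 : ℝ) < ((128 * d * m ^ 2 + 1 : ℕ) : ℝ) := by positivity
  have h1 : Real.log ((128 * d * m ^ 2 + 1 : ℕ) : ℝ) ≤
      Real.log 129 + Real.log d + 2 * Real.log m := by
    refine (Real.log_le_log hLpos hLR).trans (le_of_eq ?_)
    rw [Real.log_mul (by positivity) (by positivity), Real.log_mul (by norm_num) hdR.ne',
      Real.log_pow]
    push_cast
    ring
  have h2 : Real.log d ≤ Real.log (l * y + 1) := Real.log_le_log hdR hd2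
  have h4 : y ≤ y ^ s := by
    calc y = y ^ 1 := (pow_one y).symm
      _ ≤ y ^ s := pow_le_pow_right₀ e6 hs
  have h5 : 2 * δ / l * y ≤ 2 * δ / l * y ^ s := mul_le_mul_of_nonneg_left h4 (by positivity)
  have h6 : 2 / l * (1 + δ) * y ^ s = 2 * (y ^ s / l) + 2 * δ / l * y ^ s := by
    field_simp
  rw [h6]
  linarith only [h1, h2, h5, e4, hm2]

theorem root_bound (s : ℕ) (hs : 1 ≤ s) (c G μ y δ X : ℝ) (hc : 0 < c) (hG : 0 < G) (hμ0 : 0 < μ)
    (hμpow : μ ^ (s + 1) = 2 * c * G) (hδ : 0 < δ) (hy : 0 < y) (hX0 : 0 ≤ X)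
    (hX : X ≤ 2 / (μ / c) * (1 + δ) * y ^ s) :
    (G * X) ^ ((1 : ℝ) / s) ≤ μ * y * (1 + δ) := by
  have h1 : G * X ≤ (μ * y * (1 + δ)) ^ s := by
    have h2 : G * X ≤ G * (2 / (μ / c) * (1 + δ) * y ^ s) :=
      mul_le_mul_of_nonneg_left hX hG.le
    have h3 : G * (2 / (μ / c)) = μ ^ s := by
      field_simp
      rw [← pow_succ', hμpow]
      ring
    have h4 : (1 + δ) ≤ (1 + δ) ^ s := by
      calc (1 + δ) = (1 + δ) ^ 1 := (pow_one _).symm
        _ ≤ (1 + δ) ^ s := pow_le_pow_right₀ (by linarith only [hδ]) hs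
    calc G * X ≤ G * (2 / (μ / c) * (1 + δ) * y ^ s) := h2
      _ = (G * (2 / (μ / c))) * y ^ s * (1 + δ) := by ring
      _ = μ ^ s * y ^ s * (1 + δ) := by rw [h3]
      _ ≤ μ ^ s * y ^ s * (1 + δ) ^ s := mul_le_mul_of_nonneg_left h4 (by positivity)
      _ = _ := by rw [mul_pow, mul_pow]
  calc (G * X) ^ ((1 : ℝ) / s) ≤ ((μ * y * (1 + δ)) ^ s) ^ ((1 : ℝ) / s) :=
        Real.rpow_le_rpow (by positivity) h1 (by positivity)
    _ = μ * y * (1 + δ) := by
        rw [one_div]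
        exact Real.pow_rpow_inv_natCast (by positivity) (by omega)

theorem final_exp (s : ℕ) (c μ y δ ε dd X : ℝ) (hc : 0 < c) (hμ0 : 0 < μ)
    (hδ : 0 < δ) (hδ1 : δ ≤ 1) (hδε : 4 * δ ≤ ε) (hy : 0 < y)
    (hd2 : dd ≤ μ / c * y + 1) (hX : X ≤ μ * y * (1 + δ))
    (e5 : (1 + δ) * c + Real.log 2 ≤ δ * μ * y) :
    (1 + ε) * ((s + 1 : ℕ) : ℝ) * (μ * y) ≥ (c + c * δ) * dd + (1 + δ) * s * X + Real.log 2 := by
  have f1 : (c + c * δ) * dd ≤ (1 + δ) * (μ * y + c) := by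
    calc (c + c * δ) * dd ≤ (c + c * δ) * (μ / c * y + 1) :=
          mul_le_mul_of_nonneg_left hd2 (by positivity)
      _ = _ := by field_simp
  have f2 : (1 + δ) * s * X ≤ (1 + δ) * s * (μ * y * (1 + δ)) :=
    mul_le_mul_of_nonneg_left hX (by positivity)
  have f3 : (1 + δ) * s * (μ * y * (1 + δ)) ≤ s * (μ * y) * (1 + 3 * δ) := by
    have : (1 + δ) * (1 + δ) ≤ 1 + 3 * δ := by nlinarith only [hδ, hδ1]
    calc (1 + δ) * s * (μ * y * (1 + δ)) = s * (μ * y) * ((1 + δ) * (1 + δ)) := by ring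
      _ ≤ _ := mul_le_mul_of_nonneg_left this (by positivity)
  have f4 : (1 + 4 * δ) * (((s : ℝ) + 1) * (μ * y)) ≤ (1 + ε) * (((s : ℝ) + 1) * (μ * y)) :=
    mul_le_mul_of_nonneg_right (by linarith only [hδε]) (by positivity)
  have f5 : 0 ≤ (s : ℝ) * (μ * y) * δ := by positivity
  have f6 : 0 ≤ (μ * y) * δ := by positivity
  push_cast
  linarith

/-- the optimisation in the dimension, abstractly -/
theorem step_asym (s : ℕ) (hs : 1 ≤ s) (c G : ℝ) (hc : 0 < c) (hG : 0 < G) (D : ℕ)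
    (T1 T2 : ℕ → ℝ → Prop) (mono : ∀ W x y, T1 W x → y ≤ x → T1 W y)
    (H1 : ∀ η : ℝ, 0 < η → ∃ m0 : ℕ, ∀ m : ℕ, m0 ≤ m → ∀ d : ℕ, 1 ≤ d → d ^ 2 ≤ m →
      ∀ W : ℕ, 2 ^ D * W ≤ m ^ d → ∀ x : ℝ, T2 (128 * d * m ^ 2 + 1) x →
        T1 W (Real.exp (-((c + η) * d)) * (x / 2)))
    (H2 : ∀ ε : ℝ, 0 < ε → ∃ N0 : ℕ, ∀ N : ℕ, N0 ≤ N →
      T2 N (Real.exp (-((1 + ε) * s * (G * Real.log N) ^ ((1 : ℝ) / s)))))
    (ε : ℝ) (hε : 0 < ε) : ∃ N0 : ℕ, ∀ W : ℕ, N0 ≤ W →
      T1 W (Real.exp (-((1 + ε) * ((s + 1 : ℕ) : ℝ) *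
        (2 * c * G * Real.log W) ^ ((1 : ℝ) / ((s + 1 : ℕ) : ℝ))))) := by
  obtain ⟨δ, hδ, hδ1, hδε⟩ : ∃ δ : ℝ, 0 < δ ∧ δ ≤ 1 ∧ 4 * δ ≤ ε := by
    refine ⟨min 1 (ε / 4), by positivity, min_le_left _ _, ?_⟩
    have := min_le_right 1 (ε / 4)
    linarith only [this]
  obtain ⟨μ, hμ⟩ : ∃ μ : ℝ, μ = (2 * c * G) ^ ((1 : ℝ) / ((s + 1 : ℕ) : ℝ)) := ⟨_, rfl⟩
  have hμ0 : 0 < μ := by rw [hμ]; positivity
  have hμpow : μ ^ (s + 1) = 2 * c * G := by
    rw [hμ, one_div]
    exact Real.rpow_inv_natCast_pow (by positivity) (by omega)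
  have hl0 : 0 < μ / c := by positivity
  obtain ⟨m0, hm0⟩ := H1 (c * δ) (by positivity)
  obtain ⟨N0, hN0⟩ := H2 δ hδ
  have ev1 := ev_exp_ge (μ / c + 1) (μ / c) (by positivity) hl0
  have ev2 := ev_exp_const (μ / c + 1) (m0 : ℝ) (by positivity)
  have ev3 := ev_exp_const (μ / c + 1) (N0 : ℝ) (by positivity)
  have ev4 := ev_log_le (Real.log 129 + 2 * (D + 1) * Real.log 2) (μ / c) (2 * δ / (μ / c)) hl0
    (by positivity)
  have ev5 : ∀ᶠ y : ℝ in atTop, ((1 + δ) * c + Real.log 2) ≤ δ * μ * y :=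
    (tendsto_id.const_mul_atTop (by positivity : 0 < δ * μ)).eventually_ge_atTop _
  have evall := (tendsto_y s).eventually (ev1.and (ev2.and (ev3.and (ev4.and (ev5.and
    (eventually_ge_atTop (1 : ℝ)))))))
  obtain ⟨W0, hW0⟩ := eventually_atTop.1 evall
  refine ⟨max W0 1, fun W hW => ?_⟩
  have hWW0 : W0 ≤ W := le_trans (le_max_left _ _) hW
  have hW1 : 1 ≤ W := le_trans (le_max_right _ _) hW
  have hlogW : 0 ≤ Real.log W := Real.log_natCast_nonneg W
  have hypow : ((Real.log W) ^ ((1 : ℝ) / ((s : ℝ) + 1))) ^ (s + 1) = Real.log W := by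
    have := Real.rpow_inv_natCast_pow hlogW (n := s + 1) (by omega)
    rw [one_div]
    push_cast at this
    exact this
  have hμy : (2 * c * G * Real.log W) ^ ((1 : ℝ) / ((s + 1 : ℕ) : ℝ)) =
      μ * (Real.log W) ^ ((1 : ℝ) / ((s : ℝ) + 1)) := by
    rw [Real.mul_rpow (by positivity) hlogW, hμ]
    push_cast
    rfl
  rw [hμy]
  obtain ⟨e1, e2, e3, e4, e5, e6⟩ := hW0 W hWW0
  generalize (Real.log W) ^ ((1 : ℝ) / ((s : ℝ) + 1)) = y at hypow e1 e2 e3 e4 e5 e6 ⊢
  obtain ⟨d, m, hd1, hd2, hdm, hm1, hWm, hem, hlogm⟩ :=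
    choose_dm s D hs (μ / c) y hl0 e6 W hW1 hypow e1
  have hmm0 : m0 ≤ m := by exact_mod_cast (e2.trans hem)
  have hmN0 : N0 ≤ m := by exact_mod_cast (e3.trans hem)
  have hLN0 : N0 ≤ 128 * d * m ^ 2 + 1 := by
    refine hmN0.trans ?_
    nlinarith only [hd1, hm1]
  have hT := hm0 m hmm0 d hd1 hdm W hWm _ (hN0 _ hLN0)
  refine mono _ _ _ hT ?_
  have hlogL := logL_bound s D hs (μ / c) y δ hl0 hδ e6 d m hd1 hd2 hm1 hlogm e4
  have hlogL0 : 0 ≤ Real.log ((128 * d * m ^ 2 + 1 : ℕ) : ℝ) := Real.log_natCast_nonneg _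
  have hroot := root_bound s hs c G μ y δ _ hc hG hμ0 hμpow hδ (by linarith only [e6]) hlogL0 hlogL
  generalize (G * Real.log ((128 * d * m ^ 2 + 1 : ℕ) : ℝ)) ^ ((1 : ℝ) / s) = X at hroot ⊢
  have hexp2 : Real.exp (-((c + c * δ) * d)) * (Real.exp (-((1 + δ) * s * X)) / 2) =
      Real.exp (-((c + c * δ) * d) - (1 + δ) * s * X - Real.log 2) := by
    rw [Real.exp_sub, sub_eq_add_neg, Real.exp_add, Real.exp_log (by norm_num)]
    ring
  rw [hexp2]
  apply Real.exp_le_exp.2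
  have := final_exp s c μ y δ ε d X hc hμ0 hδ hδ1 hδε (by linarith only [e6]) hd2 hroot e5
  linarith only [this]

end Vale.Agent.P057.Lower
end
end

section

section

open Finset

namespace Vale.Agent.P057.Lower

theorem log_fourth {r : ℝ} (hr : 1 ≤ r) : Real.log (r ^ 4) ≤ 4 * r := by
  rw [Real.log_pow]
  push_cast
  have := Real.log_le_sub_one_of_pos (by linarith : 0 < r)
  linarith

/-- many primes between `m` and `8 m` -/
theorem primes_exist (m d : ℕ) (hm : 10 ^ 6 ≤ m) (hd : d ^ 2 ≤ m) :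
    ∃ P : Finset ℕ, P.card = d ∧ ∀ p ∈ P, p.Prime ∧ m < p ∧ p ≤ 8 * m := by
  have key : d ≤ ((Finset.Ioc m (8 * m)).filter Nat.Prime).card := by
    have h1 := Chebyshev.theta_ge (8 * m)
    have h2 := Chebyshev.theta_le_log4_mul_x (x := (m : ℝ)) (by positivity)
    have hθ8 : Chebyshev.theta ((8 * m : ℕ) : ℝ) =
        ∑ p ∈ (Finset.Ioc 0 (8 * m)).filter Nat.Prime, Real.log p := by
      unfold Chebyshev.theta
      rw [Nat.floor_natCast]
    have hθ1 : Chebyshev.theta (m : ℝ) =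
        ∑ p ∈ (Finset.Ioc 0 m).filter Nat.Prime, Real.log p := by
      unfold Chebyshev.theta
      rw [Nat.floor_natCast]
    have hunion : (Finset.Ioc 0 (8 * m)).filter Nat.Prime =
        (Finset.Ioc 0 m).filter Nat.Prime ∪ (Finset.Ioc m (8 * m)).filter Nat.Prime := by
      rw [← Finset.filter_union, Finset.Ioc_union_Ioc_eq_Ioc (by omega) (by omega)]
    have hdisj : Disjoint ((Finset.Ioc 0 m).filter Nat.Prime)
        ((Finset.Ioc m (8 * m)).filter Nat.Prime) := by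
      apply Finset.disjoint_filter_filter
      rw [Finset.disjoint_left]
      intro a ha hb
      rw [Finset.mem_Ioc] at ha hb
      omega
    have hsum : Chebyshev.theta ((8 * m : ℕ) : ℝ) = Chebyshev.theta (m : ℝ) +
        ∑ p ∈ (Finset.Ioc m (8 * m)).filter Nat.Prime, Real.log p := by
      rw [hθ8, hθ1, hunion, Finset.sum_union hdisj]
    have hmR : (1000000 : ℝ) ≤ m := by
      have : 1000000 ≤ m := by norm_num at hm; exact hm
      exact_mod_cast this
    have hub : ∑ p ∈ (Finset.Ioc m (8 * m)).filter Nat.Prime, Real.log p ≤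
        ((Finset.Ioc m (8 * m)).filter Nat.Prime).card * Real.log (8 * m) := by
      rw [← nsmul_eq_mul]
      apply Finset.sum_le_card_nsmul
      intro p hp
      have hp' := Finset.mem_filter.1 hp
      have hp2 := Finset.mem_Ioc.1 hp'.1
      apply Real.log_le_log
      · have : 0 < p := by omega
        exact_mod_cast this
      · have : p ≤ 8 * m := hp2.2
        exact_mod_cast this
    -- numerical inequality
    obtain ⟨r, hr0, hr4⟩ : ∃ r : ℝ, 0 ≤ r ∧ r ^ 4 = 8 * m + 1 := by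
      refine ⟨Real.sqrt (Real.sqrt (8 * m + 1)), Real.sqrt_nonneg _, ?_⟩
      have e : ∀ x : ℝ, 0 ≤ x → Real.sqrt (Real.sqrt x) ^ 4 = x := by
        intro x hx
        calc Real.sqrt (Real.sqrt x) ^ 4 = (Real.sqrt (Real.sqrt x) ^ 2) ^ 2 := by ring
          _ = x := by rw [Real.sq_sqrt (Real.sqrt_nonneg _), Real.sq_sqrt hx]
      exact e _ (by positivity)
    have hr40 : 40 ≤ r := by
      by_contra hcon
      push Not at hcon
      have : r ^ 4 ≤ 40 ^ 4 := pow_le_pow_left₀ hr0 hcon.le 4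
      rw [hr4] at this
      have h40 : (40 : ℝ) ^ 4 = 2560000 := by norm_num
      rw [h40] at this
      linarith only [hmR, this]
    have hlog1 : Real.log (8 * m + 1) ≤ 4 * r := by
      rw [← hr4]
      exact log_fourth (by linarith only [hr40])
    have hlog8 : Real.log (8 * m) ≤ 4 * r := by
      refine le_trans (Real.log_le_log (by positivity) (by linarith only [])) hlog1
    have hlog80 : 0 ≤ Real.log (8 * m) := Real.log_nonneg (by linarith only [hmR])
    have hsqrt8 : Real.sqrt (8 * m) ≤ r ^ 2 := by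
      rw [Real.sqrt_le_left (by positivity)]
      have : (r ^ 2) ^ 2 = r ^ 4 := by ring
      rw [this, hr4]
      linarith only []
    have hlog2 : (0.69 : ℝ) ≤ Real.log 2 := by
      have := Real.log_two_gt_d9
      norm_num at this ⊢
      linarith only [this]
    have hlog4 : Real.log 4 = 2 * Real.log 2 := by
      rw [show (4 : ℝ) = 2 ^ 2 by norm_num, Real.log_pow]
      push_cast
      ring
    have hdR : (d : ℝ) ≤ r ^ 2 / 2 := by
      have h5 : (d : ℝ) ^ 2 ≤ m := by exact_mod_cast hd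
      have h6 : (d : ℝ) ^ 2 ≤ (r ^ 2 / 2) ^ 2 := by
        have : (r ^ 2 / 2) ^ 2 = r ^ 4 / 4 := by ring
        rw [this, hr4]
        linarith only [h5]
      exact le_of_sq_le_sq h6 (by positivity)
    push_cast at h1
    by_contra hcon
    push Not at hcon
    have hcon' : (((Finset.Ioc m (8 * m)).filter Nat.Prime).card : ℝ) ≤ d := by
      exact_mod_cast hcon.le
    have h7 : (((Finset.Ioc m (8 * m)).filter Nat.Prime).card : ℝ) * Real.log (8 * m) ≤
        r ^ 2 / 2 * (4 * r) :=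
      mul_le_mul (hcon'.trans hdR) hlog8 hlog80 (by positivity)
    have h8 : 2 * Real.sqrt (8 * m) * Real.log (8 * m) ≤ 2 * r ^ 2 * (4 * r) :=
      mul_le_mul (by linarith only [hsqrt8]) hlog8 hlog80 (by positivity)
    push_cast at hsum
    rw [hlog4] at h2
    have h9 : 6 * (m : ℝ) * Real.log 2 ≤ 10 * r ^ 3 + 4 * r := by
      linarith
    have h10 : 6 * (m : ℝ) * 0.69 ≤ 10 * r ^ 3 + 4 * r := by
      have : 0 ≤ 6 * (m : ℝ) := by positivity
      nlinarith only [h2, hub, hlog1, h1, h7, h8, hsum, hlog2]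
    have h11 : (8 * m : ℝ) = r ^ 4 - 1 := by linarith only [hr4]
    have h12 : r ^ 4 ≥ 40 * r ^ 3 := by
      have : r ^ 4 = r * r ^ 3 := by ring
      rw [this]
      exact mul_le_mul_of_nonneg_right hr40 (by positivity)
    have h13 : r ^ 3 ≥ 1600 * r := by
      have : r ^ 3 = r ^ 2 * r := by ring
      rw [this]
      apply mul_le_mul_of_nonneg_right _ hr0
      nlinarith only [hmR, hr4]
    nlinarith only [hr4, h10, h12, h13]
  obtain ⟨P, hP, hPc⟩ := Finset.exists_subset_card_eq key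
  refine ⟨P, hPc, fun p hp => ?_⟩
  have := Finset.mem_filter.1 (hP hp)
  have h2 := Finset.mem_Ioc.1 this.1
  exact ⟨this.2, h2.1, h2.2⟩

end Vale.Agent.P057.Lower
end
end

section

section

open Finset Filter

namespace Vale.Agent.P057.Lower

/-- there is a set free of degree `D` progressions in `[0, W)` of density at least `x` -/
def Dens (k D W : ℕ) (x : ℝ) : Prop :=
  ∃ A : Finset ℤ, A ⊆ Finset.Ico 0 (W : ℤ) ∧ Free k D A ∧ (W : ℝ) * x ≤ A.card

/-- blocks with cost `c` exist for all large primes -/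
def Cost (k D : ℕ) (c : ℝ) : Prop :=
  ∀ η : ℝ, 0 < η → ∃ m0 : ℕ, ∀ p : ℕ, m0 ≤ p → p.Prime →
    ∃ U : Finset ℤ, Block k D p U ∧ (∀ u ∈ U, |u| ≤ p) ∧ Real.exp (-(c + η)) ≤ (U.card : ℝ) / p

theorem Dens.mono {k D W : ℕ} {x y : ℝ} (h : Dens k D W x) (hxy : y ≤ x) : Dens k D W y := by
  obtain ⟨A, h1, h2, h3⟩ := h
  exact ⟨A, h1, h2, le_trans (mul_le_mul_of_nonneg_left hxy (by positivity)) h3⟩

theorem eventually_div_le (C η : ℝ) (hη : 0 < η) : ∃ m0 : ℕ, ∀ p : ℕ, m0 ≤ p → C / p ≤ η := by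
  have h := tendsto_const_div_atTop_nhds_zero_nat C
  have h2 := h.eventually (ge_mem_nhds hη)
  exact eventually_atTop.1 h2

theorem cost_interval (k D : ℕ) : Cost k D (D * Real.log 2) := by
  intro η hη
  have hlt : Real.exp (-η) < 1 := Real.exp_lt_one_iff.2 (by linarith)
  obtain ⟨m0, hm0⟩ := eventually_div_le (2 ^ D) (1 - Real.exp (-η)) (by linarith)
  refine ⟨max m0 1, fun p hp _ => ?_⟩
  have hp0 : 1 ≤ p := le_trans (le_max_right _ _) hp
  have hpm : m0 ≤ p := le_trans (le_max_left _ _) hp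
  have hh : 2 ^ (D + 1) * ((p - 1) / 2 ^ (D + 1)) < p := by
    have := Nat.mul_div_le (p - 1) (2 ^ (D + 1))
    omega
  refine ⟨_, block_interval k D p ((p - 1) / 2 ^ (D + 1)) hh, ?_, ?_⟩
  · intro u hu
    rw [Finset.mem_Icc] at hu
    have h1 : (p - 1) / 2 ^ (D + 1) ≤ p := (Nat.div_le_self _ _).trans (Nat.sub_le _ _)
    rw [abs_le]
    constructor <;> omega
  · rw [Int.card_Icc]
    have hpR : (0 : ℝ) < p := by exact_mod_cast hp0
    have h1 : p ≤ 2 ^ (D + 1) * ((p - 1) / 2 ^ (D + 1) + 1) := by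
      have := Nat.lt_mul_div_succ (p - 1) (b := 2 ^ (D + 1)) (by positivity)
      omega
    have h2 : (p : ℝ) ≤ 2 ^ (D + 1) * (((p - 1) / 2 ^ (D + 1) : ℕ) + 1) := by exact_mod_cast h1
    have h3 : ((((p - 1) / 2 ^ (D + 1) : ℕ) : ℤ) + 1 - -(((p - 1) / 2 ^ (D + 1) : ℕ) : ℤ)).toNat =
        2 * ((p - 1) / 2 ^ (D + 1)) + 1 := by omega
    rw [h3]
    push_cast
    generalize (((p - 1) / 2 ^ (D + 1) : ℕ) : ℝ) = h at h2 ⊢
    rw [le_div_iff₀ hpR]
    have h4 := hm0 p hpm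
    rw [div_le_iff₀ hpR] at h4
    have h5 : Real.exp (-(D * Real.log 2 + η)) = Real.exp (-η) / 2 ^ D := by
      rw [neg_add, Real.exp_add, ← neg_mul, mul_comm (-(D : ℝ)), Real.exp_mul,
        Real.exp_log (by norm_num), Real.rpow_neg (by norm_num), Real.rpow_natCast]
      field_simp
    rw [h5, div_mul_eq_mul_div, div_le_iff₀ (by positivity)]
    rw [pow_succ] at h2
    nlinarith only [h2, h4]

theorem cost_parity (k : ℕ) (hk : 5 ≤ k) : Cost k 1 (Real.log (9 / 5)) := by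
  intro η hη
  have hlt : Real.exp (-η) < 1 := Real.exp_lt_one_iff.2 (by linarith only [hη])
  obtain ⟨m0, hm0⟩ := eventually_div_le 2 (5 / 9 * (1 - Real.exp (-η))) (by linarith only [hlt])
  refine ⟨max m0 3, fun p hp hpp => ?_⟩
  have hp0 : 3 ≤ p := le_trans (le_max_right _ _) hp
  have hpm : m0 ≤ p := le_trans (le_max_left _ _) hp
  have hodd : p % 2 = 1 := hpp.eq_two_or_odd.resolve_left (by omega)
  refine ⟨_, block_parity k p hk hodd, fun u hu => parity_abs hu, ?_⟩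
  have hpR : (0 : ℝ) < p := by
    have : 0 < p := by omega
    exact_mod_cast this
  have h1 := parity_card p
  have h4 := hm0 p hpm
  rw [div_le_iff₀ hpR] at h4
  have h5 : Real.exp (-(Real.log (9 / 5) + η)) = 5 / 9 * Real.exp (-η) := by
    rw [neg_add, Real.exp_add, Real.exp_neg, Real.exp_log (by norm_num)]
    norm_num
  rw [h5, le_div_iff₀ hpR]
  nlinarith only [h1, h4]

/-- one level of the construction for large parameters -/
theorem one_level (k D : ℕ) (hD : 1 ≤ D) (hDk : D < k) (c : ℝ) (hc : Cost k D c) (η : ℝ)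
    (hη : 0 < η) : ∃ m0 : ℕ, ∀ m : ℕ, m0 ≤ m → ∀ d : ℕ, 1 ≤ d → d ^ 2 ≤ m →
      ∀ W : ℕ, 2 ^ D * W ≤ m ^ d → ∀ x : ℝ, Dens k (2 * D) (128 * d * m ^ 2 + 1) x →
        Dens k D W (Real.exp (-((c + η) * d)) * (x / 2)) := by
  classical
  obtain ⟨m1, hm1⟩ := hc η hη
  refine ⟨max m1 (10 ^ 6), fun m hm d hd hdm W hW x hx => ?_⟩
  obtain ⟨P, hPc, hP⟩ := primes_exist m d (le_trans (le_max_right _ _) hm) hdm
  have hex : ∀ p : P, ∃ U : Finset ℤ, Block k D p U ∧ (∀ u ∈ U, |u| ≤ (p : ℕ)) ∧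
      Real.exp (-(c + η)) ≤ (U.card : ℝ) / (p : ℕ) := by
    intro p
    have := hP p p.2
    exact hm1 p (le_trans (le_max_left _ _) (hm.trans this.2.1.le)) this.1
  choose U hU hUabs hUcard using hex
  obtain ⟨B, hB, hBf, hBc⟩ := hx
  have hcop : Pairwise (Function.onFun Nat.Coprime (fun p : P => (p : ℕ))) := by
    intro p q hpq
    exact (Nat.coprime_primes (hP p p.2).1 (hP q q.2).1).2 (fun h => hpq (Subtype.ext h))
  have hprod : m ^ d ≤ ∏ p : P, (p : ℕ) := by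
    rw [Finset.prod_coe_sort P (fun p => p), ← hPc]
    exact Finset.pow_card_le_prod _ _ _ (fun p hp => (hP p hp).2.1.le)
  have hF : ∀ v : P → ℤ, (∀ i, v i ∈ U i) → ∑ i, (v i) ^ 2 < ((128 * d * m ^ 2 + 1 : ℕ) : ℤ) := by
    intro v hv
    have h1 : ∀ i : P, (v i) ^ 2 ≤ ((8 * m : ℕ) : ℤ) ^ 2 := by
      intro i
      rw [← sq_abs]
      apply pow_le_pow_left₀ (abs_nonneg _)
      refine (hUabs i _ (hv i)).trans ?_
      exact_mod_cast (hP i i.2).2.2
    have h2 : ∑ i, (v i) ^ 2 ≤ ∑ i : P, ((8 * m : ℕ) : ℤ) ^ 2 :=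
      Finset.sum_le_sum (fun i _ => h1 i)
    rw [Finset.sum_const, Finset.card_univ, Fintype.card_coe, hPc, nsmul_eq_mul] at h2
    push_cast at h2 ⊢
    have h3 : (0 : ℤ) ≤ d * m ^ 2 := by (clear * - hd; positivity)
    linarith only [h2, h3]
  obtain ⟨A, hA, hAf, hAc⟩ := level k D hD hDk (fun p : P => (p : ℕ)) hcop
    (fun p => (hP p p.2).1.pos) U hU (128 * d * m ^ 2 + 1) (by (clear * - hd; positivity)) hF B hB hBf W
    (hW.trans hprod)
  refine ⟨A, hA, hAf, le_trans ?_ hAc⟩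
  have h1 : Real.exp (-((c + η) * d)) ≤ ∏ p : P, ((U p).card : ℝ) / (p : ℕ) := by
    have : Real.exp (-((c + η) * d)) = ∏ _p : P, Real.exp (-(c + η)) := by
      rw [Finset.prod_const, Finset.card_univ, Fintype.card_coe, hPc, ← Real.exp_nat_mul]
      congr 1
      ring
    rw [this]
    exact Finset.prod_le_prod (fun p _ => (Real.exp_pos _).le) (fun p _ => hUcard p)
  have hL : (0 : ℝ) < ((128 * d * m ^ 2 + 1 : ℕ) : ℝ) := by (clear * - hd; positivity)
  have h2 : x / 2 ≤ (B.card : ℝ) / (2 * ((128 * d * m ^ 2 + 1 : ℕ) : ℝ)) := by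
    rw [div_le_div_iff₀ (by norm_num) (by (clear * - hd; positivity))]
    nlinarith only [hBc]
  rw [mul_assoc]
  apply mul_le_mul_of_nonneg_left _ (by (clear * -; positivity))
  calc Real.exp (-((c + η) * d)) * (x / 2)
      ≤ Real.exp (-((c + η) * d)) * ((B.card : ℝ) / (2 * ((128 * d * m ^ 2 + 1 : ℕ) : ℝ))) :=
        mul_le_mul_of_nonneg_left h2 (Real.exp_pos _).le
    _ ≤ _ := mul_le_mul_of_nonneg_right h1 (by (clear * - hd; positivity))

/-- the asymptotic density statement -/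
def Asy (k D s : ℕ) (G : ℝ) : Prop :=
  ∀ ε : ℝ, 0 < ε → ∃ N0 : ℕ, ∀ N : ℕ, N0 ≤ N →
    Dens k D N (Real.exp (-((1 + ε) * s * (G * Real.log N) ^ ((1 : ℝ) / s))))

theorem step (k D s : ℕ) (hD : 1 ≤ D) (hDk : D < k) (hs : 1 ≤ s) (c G : ℝ) (hc : 0 < c)
    (hG : 0 < G) (hcost : Cost k D c) (h : Asy k (2 * D) s G) : Asy k D (s + 1) (2 * c * G) := by
  intro ε hε
  exact step_asym s hs c G hc hG D (Dens k D) (Dens k (2 * D)) (fun W x y h hxy => h.mono hxy)
    (fun η hη => one_level k D hD hDk c hcost η hη) h ε hε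

theorem base (k D : ℕ) (hD : 1 ≤ D) (hDk : D < k) : Asy k D 1 1 := by
  intro ε hε
  refine ⟨1, fun N hN => ⟨{0}, ?_, free_singleton k D hD hDk 0, ?_⟩⟩
  · intro a ha
    rw [Finset.mem_singleton] at ha
    rw [ha, Finset.mem_Ico]
    omega
  · have hN0 : (0 : ℝ) < N := by exact_mod_cast hN
    have hlog : 0 ≤ Real.log N := Real.log_natCast_nonneg N
    simp only [Nat.cast_one, mul_one, one_mul, div_one, Real.rpow_one, Finset.card_singleton]
    calc (N : ℝ) * Real.exp (-((1 + ε) * Real.log N)) ≤ N * Real.exp (-Real.log N) := by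
          apply mul_le_mul_of_nonneg_left _ hN0.le
          apply Real.exp_le_exp.2
          nlinarith only [hε, hlog]
      _ = 1 := by
          rw [Real.exp_neg, Real.exp_log hN0, mul_inv_cancel₀ hN0.ne']

end Vale.Agent.P057.Lower
end
end

section

section

open Finset Polynomial

namespace Vale.Agent.P057.Lower

/-- weight used for four term progressions -/
def wt (p : ℕ) (u : ℤ) : ℤ := u ^ 2 + (if u % 2 = 1 then (p : ℤ) ^ 2 else 0)

theorem wt_four {p : ℕ} (hp : p % 2 = 1) {a b c d : ℤ} (ha : a ∈ parityBlock p)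
    (hb : b ∈ parityBlock p) (hc : c ∈ parityBlock p) (hd : d ∈ parityBlock p)
    (h1 : (p : ℤ) ∣ a - 2 * b + c) (h2 : (p : ℤ) ∣ b - 2 * c + d) :
    0 ≤ wt p a - wt p b - wt p c + wt p d ∧
    (wt p a - wt p b - wt p c + wt p d = 0 → a = b) := by
  rcases parity_four hp ha hb hc hd h1 h2 with ⟨e1, e2⟩ | ⟨e1, e2, e3, e4⟩
  · have hac : a % 2 = 1 ↔ c % 2 = 1 := by omega
    have hbd : b % 2 = 1 ↔ d % 2 = 1 := by omega
    have key : wt p a - wt p b - wt p c + wt p d = 4 * (b - a) ^ 2 := by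
      have hc' : c = 2 * b - a := by omega
      have hd' : d = 3 * b - 2 * a := by omega
      unfold wt
      simp only [hac, hbd]
      rw [hc', hd']
      ring
    rw [key]
    refine ⟨by (clear * -; positivity), fun h => ?_⟩
    have : (b - a) ^ 2 = 0 := by linarith only [h]
    have := pow_eq_zero_iff (two_ne_zero) |>.1 this
    omega
  · have f2 := mem_parityBlock hb
    have f3 := mem_parityBlock hc
    have hb2 : b ^ 2 < (p : ℤ) ^ 2 := by
      apply sq_lt_sq'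
      · omega
      · omega
    have hc2 : c ^ 2 < (p : ℤ) ^ 2 := by
      apply sq_lt_sq'
      · omega
      · omega
    have key : 0 < wt p a - wt p b - wt p c + wt p d := by
      unfold wt
      rw [if_pos e1, if_neg (by omega), if_neg (by omega), if_pos e4]
      nlinarith only [hb2, hc2]
    exact ⟨key.le, fun h => absurd h key.ne'⟩

theorem level4 {ι : Type*} [Fintype ι] [DecidableEq ι] (p : ι → ℕ)
    (hp : Pairwise (Function.onFun Nat.Coprime p)) (hp2 : ∀ i, p i % 2 = 1) (L : ℕ) (hL : 0 < L)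
    (hF : ∀ v : ι → ℤ, (∀ i, v i ∈ parityBlock (p i)) → ∑ i, wt (p i) (v i) < (L : ℤ))
    (W : ℕ) (hW : 2 ^ 1 * W ≤ ∏ i, p i) :
    ∃ A : Finset ℤ, A ⊆ Finset.Ico 0 (W : ℤ) ∧ Free 4 1 A ∧
      (W : ℝ) * (∏ i, ((parityBlock (p i)).card : ℝ) / p i) * (1 / (2 * L)) ≤ A.card := by
  have hB : ({0} : Finset ℤ) ⊆ Finset.Ico 0 (L : ℤ) := by
    intro x hx
    rw [Finset.mem_singleton] at hx
    rw [hx, Finset.mem_Ico]
    omega
  have hwt : ∀ (q : ℕ) (u : ℤ), 0 ≤ wt q u := by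
    intro q u
    unfold wt
    split_ifs <;> positivity
  obtain ⟨s, t, A, hA, hprop, hcard⟩ := pigeon p hp (fun i => by have := hp2 i; omega)
    (fun i => parityBlock (p i))
    (fun i u hu v hv h => parity_inj (by have := hp2 i; omega) hu hv h)
    (fun v => ∑ i, wt (p i) (v i)) L hL
    (fun v hv => ⟨Finset.sum_nonneg (fun i _ => hwt _ _), hF v hv⟩) {0} hB W
  refine ⟨A, hA, ?_, by simpa only [prod_div_distrib, one_div, mul_inv_rev, card_singleton, Nat.cast_one] using hcard⟩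
  intro P hP
  by_contra hcon
  push Not at hcon
  have hex : ∀ j : ℕ, ∃ a : ℤ, j < 4 → a ∈ A ∧ P.eval (j : ℚ) = (a : ℚ) := by
    intro j
    by_cases hj : j < 4
    · obtain ⟨a, ha, ha'⟩ := hcon j hj
      exact ⟨a, fun _ => ⟨ha, ha'⟩⟩
    · exact ⟨0, fun h => absurd h hj⟩
  choose a ha using hex
  have hex2 : ∀ j : ℕ, ∃ v : ι → ℤ, j < 4 → (∀ i, v i ∈ parityBlock (p i)) ∧
      (∀ i, (p i : ℤ) ∣ (s + a j) - v i) ∧ (∑ i, wt (p i) (v i)) + t ∈ ({0} : Finset ℤ) := by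
    intro j
    by_cases hj : j < 4
    · obtain ⟨v, hv⟩ := hprop (a j) (ha j hj).1
      exact ⟨v, fun _ => hv⟩
    · exact ⟨0, fun h => absurd h hj⟩
  choose v hv using hex2
  have hsec : ∀ j, j + 2 < 4 → a j - 2 * a (j + 1) + a (j + 2) = 0 := by
    intro j hj
    have := diff_poly_succ P 1 4 hP.le a (fun j hj => (ha j hj).2) j (by omega)
    rwa [diff_two] at this
  have hdv : ∀ i, ∀ j, j + 2 < 4 → (p i : ℤ) ∣ v j i - 2 * v (j + 1) i + v (j + 2) i := by
    intro i j hj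
    have h0 := (hv j (by omega)).2.1 i
    have h1 := (hv (j + 1) (by omega)).2.1 i
    have h2 := (hv (j + 2) (by omega)).2.1 i
    have h3 := hsec j hj
    have h4 : v j i - 2 * v (j + 1) i + v (j + 2) i =
        -((s + a j) - v j i) + 2 * ((s + a (j + 1)) - v (j + 1) i)
          - ((s + a (j + 2)) - v (j + 2) i) := by linarith only [h3]
    rw [h4]
    exact dvd_sub (dvd_add (dvd_neg.2 h0) (dvd_mul_of_dvd_right h1 _)) h2
  have hsum : ∀ j, j < 4 → ∑ i, wt (p i) (v j i) = -t := by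
    intro j hj
    have := Finset.mem_singleton.1 (hv j hj).2.2
    omega
  have h4t : ∀ i, 0 ≤ wt (p i) (v 0 i) - wt (p i) (v 1 i) - wt (p i) (v 2 i) + wt (p i) (v 3 i) ∧
      (wt (p i) (v 0 i) - wt (p i) (v 1 i) - wt (p i) (v 2 i) + wt (p i) (v 3 i) = 0 →
        v 0 i = v 1 i) := fun i =>
    wt_four (hp2 i) ((hv 0 (by omega)).1 i) ((hv 1 (by omega)).1 i) ((hv 2 (by omega)).1 i)
      ((hv 3 (by omega)).1 i) (hdv i 0 (by omega)) (hdv i 1 (by omega))
  have hzero : ∑ i, (wt (p i) (v 0 i) - wt (p i) (v 1 i) - wt (p i) (v 2 i) + wt (p i) (v 3 i))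
      = 0 := by
    rw [Finset.sum_add_distrib, Finset.sum_sub_distrib, Finset.sum_sub_distrib,
      hsum 0 (by omega), hsum 1 (by omega), hsum 2 (by omega), hsum 3 (by omega)]
    ring
  have heq : ∀ i, v 0 i = v 1 i := fun i =>
    (h4t i).2 ((Finset.sum_eq_zero_iff_of_nonneg (fun i _ => (h4t i).1)).1 hzero i
      (Finset.mem_univ i))
  have hcop : (∏ i, (p i : ℤ)) ∣ a 1 - a 0 := by
    apply Fintype.prod_dvd_of_coprime (fun i j hij => Nat.isCoprime_iff_coprime.2 (hp hij))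
    intro i
    have h0 := (hv 0 (by omega)).2.1 i
    have h1 := (hv 1 (by omega)).2.1 i
    have : a 1 - a 0 = ((s + a 1) - v 1 i) - ((s + a 0) - v 0 i) := by rw [heq i]; ring
    rw [this]
    exact dvd_sub h1 h0
  have hlt : |a 1 - a 0| < ∏ i, (p i : ℤ) := by
    have h3 : ((2 ^ 1 * W : ℕ) : ℤ) ≤ ((∏ i, p i : ℕ) : ℤ) := by exact_mod_cast hW
    push_cast at h3
    have g0 := Finset.mem_Ico.1 (hA (ha 0 (by omega)).1)
    have g1 := Finset.mem_Ico.1 (hA (ha 1 (by omega)).1)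
    rw [abs_lt]
    constructor <;> linarith only [hW, g0, g1]
  have h01 := Int.eq_zero_of_abs_lt_dvd hcop hlt
  have e2 := diff_poly P 1 4 hP.le a (fun j hj => (ha j hj).2) 0 (by omega)
  have hPD : P.coeff 1 ≠ 0 := by
    rw [← hP]
    exact leadingCoeff_ne_zero.2 (fun h => by rw [h, natDegree_zero] at hP; omega)
  have e3 : (fwdDiff 1)^[1] a 0 = a 1 - a 0 := rfl
  rw [e3, h01] at e2
  simp at e2
  exact hPD e2.symm

theorem one_level4 (η : ℝ) (hη : 0 < η) : ∃ m0 : ℕ, ∀ m : ℕ, m0 ≤ m → ∀ d : ℕ, 1 ≤ d →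
    d ^ 2 ≤ m → ∀ W : ℕ, 2 ^ 1 * W ≤ m ^ d → ∀ x : ℝ, ((128 * d * m ^ 2 + 1 : ℕ) : ℝ) * x ≤ 1 →
        Dens 4 1 W (Real.exp (-((Real.log (9 / 5) + η) * d)) * (x / 2)) := by
  classical
  have hcard : ∃ m1 : ℕ, ∀ p : ℕ, m1 ≤ p → p.Prime →
      Real.exp (-(Real.log (9 / 5) + η)) ≤ ((parityBlock p).card : ℝ) / p := by
    have hlt : Real.exp (-η) < 1 := Real.exp_lt_one_iff.2 (by linarith)
    obtain ⟨m0, hm0⟩ := eventually_div_le 2 (5 / 9 * (1 - Real.exp (-η))) (by linarith only [hlt])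
    refine ⟨max m0 3, fun p hp hpp => ?_⟩
    have hp0 : 3 ≤ p := le_trans (le_max_right _ _) hp
    have hpm : m0 ≤ p := le_trans (le_max_left _ _) hp
    have hpR : (0 : ℝ) < p := by
      have : 0 < p := by omega
      exact_mod_cast this
    have h1 := parity_card p
    have h4 := hm0 p hpm
    rw [div_le_iff₀ hpR] at h4
    have h5 : Real.exp (-(Real.log (9 / 5) + η)) = 5 / 9 * Real.exp (-η) := by
      rw [neg_add, Real.exp_add, Real.exp_neg, Real.exp_log (by norm_num)]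
      norm_num
    rw [h5, le_div_iff₀ hpR]
    nlinarith only [h1, h4]
  obtain ⟨m1, hm1⟩ := hcard
  refine ⟨max m1 (10 ^ 6), fun m hm d hd hdm W hW x hx => ?_⟩
  obtain ⟨P, hPc, hP⟩ := primes_exist m d (le_trans (le_max_right _ _) hm) hdm
  have hcop : Pairwise (Function.onFun Nat.Coprime (fun p : P => (p : ℕ))) := by
    intro p q hpq
    exact (Nat.coprime_primes (hP p p.2).1 (hP q q.2).1).2 (fun h => hpq (Subtype.ext h))
  have hprod : m ^ d ≤ ∏ p : P, (p : ℕ) := by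
    rw [Finset.prod_coe_sort P (fun p => p), ← hPc]
    exact Finset.pow_card_le_prod _ _ _ (fun p hp => (hP p hp).2.1.le)
  have hodd : ∀ p : P, (p : ℕ) % 2 = 1 := by
    intro p
    have h1 := hP p p.2
    have h2 : 10 ^ 6 ≤ m := le_trans (le_max_right _ _) hm
    exact h1.1.eq_two_or_odd.resolve_left (by omega)
  have hF : ∀ v : P → ℤ, (∀ i : P, v i ∈ parityBlock (i : ℕ)) →
      ∑ i : P, wt (i : ℕ) (v i) < ((128 * d * m ^ 2 + 1 : ℕ) : ℤ) := by
    intro v hv
    have h1 : ∀ i : P, wt (i : ℕ) (v i) ≤ 2 * ((8 * m : ℕ) : ℤ) ^ 2 := by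
      intro i
      have h3 : (v i) ^ 2 ≤ ((8 * m : ℕ) : ℤ) ^ 2 := by
        rw [← sq_abs]
        apply pow_le_pow_left₀ (abs_nonneg _)
        refine (parity_abs (hv i)).trans ?_
        exact_mod_cast (hP i i.2).2.2
      have h4 : ((i : ℕ) : ℤ) ^ 2 ≤ ((8 * m : ℕ) : ℤ) ^ 2 := by
        apply pow_le_pow_left₀ (by positivity)
        exact_mod_cast (hP i i.2).2.2
      unfold wt
      split_ifs
      · linarith only [h3, h4]
      · have : (0 : ℤ) ≤ ((8 * m : ℕ) : ℤ) ^ 2 := by (clear * -; positivity)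
        linarith only [h3, this]
    have h2 : ∑ i : P, wt (i : ℕ) (v i) ≤ ∑ i : P, 2 * ((8 * m : ℕ) : ℤ) ^ 2 :=
      Finset.sum_le_sum (fun i _ => h1 i)
    rw [Finset.sum_const, Finset.card_univ, Fintype.card_coe, hPc, nsmul_eq_mul] at h2
    push_cast at h2 ⊢
    linarith only [h2]
  obtain ⟨A, hA, hAf, hAc⟩ := level4 (fun p : P => (p : ℕ)) hcop hodd (128 * d * m ^ 2 + 1)
    (by (clear * - hd; positivity)) hF W (hW.trans hprod)
  refine ⟨A, hA, hAf, le_trans ?_ hAc⟩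
  have h1 : Real.exp (-((Real.log (9 / 5) + η) * d)) ≤
      ∏ p : P, ((parityBlock (p : ℕ)).card : ℝ) / (p : ℕ) := by
    have : Real.exp (-((Real.log (9 / 5) + η) * d)) =
        ∏ _p : P, Real.exp (-(Real.log (9 / 5) + η)) := by
      rw [Finset.prod_const, Finset.card_univ, Fintype.card_coe, hPc, ← Real.exp_nat_mul]
      congr 1
      ring
    rw [this]
    refine Finset.prod_le_prod (fun p _ => (Real.exp_pos _).le) (fun p _ => hm1 p ?_ ?_)
    · exact le_trans (le_max_left _ _) (hm.trans (hP p p.2).2.1.le)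
    · exact (hP p p.2).1
  have hL : (0 : ℝ) < ((128 * d * m ^ 2 + 1 : ℕ) : ℝ) := by (clear * - hd; positivity)
  have h2 : x / 2 ≤ 1 / (2 * ((128 * d * m ^ 2 + 1 : ℕ) : ℝ)) := by
    rw [div_le_div_iff₀ (by norm_num) (by positivity)]
    linarith only [hx]
  rw [mul_assoc]
  apply mul_le_mul_of_nonneg_left _ (by (clear * -; positivity))
  calc Real.exp (-((Real.log (9 / 5) + η) * d)) * (x / 2)
      ≤ Real.exp (-((Real.log (9 / 5) + η) * d)) * (1 / (2 * ((128 * d * m ^ 2 + 1 : ℕ) : ℝ))) :=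
        mul_le_mul_of_nonneg_left h2 (Real.exp_pos _).le
    _ ≤ _ := mul_le_mul_of_nonneg_right h1 (by (clear * - hd; positivity))

theorem asy_four : Asy 4 1 2 (2 * Real.log (9 / 5) * 1) := by
  intro ε hε
  have hlog : 0 < Real.log (9 / 5) := Real.log_pos (by norm_num)
  refine step_asym 1 le_rfl (Real.log (9 / 5)) 1 hlog one_pos 1 (Dens 4 1)
    (fun L x => (L : ℝ) * x ≤ 1) (fun W x y h hxy => h.mono hxy) one_level4 ?_ ε hε
  intro ε hε
  refine ⟨1, fun N hN => ?_⟩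
  have hN0 : (0 : ℝ) < N := by exact_mod_cast hN
  have hlog : 0 ≤ Real.log N := Real.log_natCast_nonneg N
  simp only [Nat.cast_one, mul_one, one_mul, div_one, Real.rpow_one]
  calc (N : ℝ) * Real.exp (-((1 + ε) * Real.log N)) ≤ N * Real.exp (-Real.log N) := by
        apply mul_le_mul_of_nonneg_left _ hN0.le
        apply Real.exp_le_exp.2
        nlinarith only [hε, hlog]
    _ = 1 := by
        rw [Real.exp_neg, Real.exp_log hN0, mul_inv_cancel₀ hN0.ne']

end Vale.Agent.P057.Lower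
end
end

section

section

open Finset Polynomial

namespace Vale.Agent.P057.Lower

theorem asy_pow (k n : ℕ) (hn : 1 ≤ n) (hk : 2 ^ (n - 1) < k) :
    ∀ t, t + 2 ≤ n → Asy k (2 ^ (n - 1 - t)) (t + 1)
      (2 ^ (∑ j ∈ range t, (n - 1 - j)) * (Real.log 2) ^ t) := by
  intro t
  induction t with
  | zero =>
    intro _
    simp only [Nat.sub_zero, zero_add, range_zero, sum_empty, pow_zero, mul_one]
    exact base k _ Nat.one_le_two_pow hk
  | succ t ih =>
    intro ht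
    have h := ih (by omega)
    have hlog : 0 < Real.log 2 := Real.log_pos (by norm_num)
    have e1 : 2 ^ (n - 1 - t) = 2 * 2 ^ (n - 1 - (t + 1)) := by
      rw [← pow_succ']
      congr 1
      omega
    rw [e1] at h
    have hlt : 2 ^ (n - 1 - (t + 1)) < k :=
      lt_of_le_of_lt (Nat.pow_le_pow_right (by norm_num) (by omega)) hk
    have hst := step k (2 ^ (n - 1 - (t + 1))) (t + 1) Nat.one_le_two_pow hlt (by omega)
      (((2 ^ (n - 1 - (t + 1)) : ℕ) : ℝ) * Real.log 2) _ (by positivity) (by positivity)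
      (cost_interval _ _) h
    have e2 : 2 * (((2 ^ (n - 1 - (t + 1)) : ℕ) : ℝ) * Real.log 2) *
        (2 ^ (∑ j ∈ range t, (n - 1 - j)) * (Real.log 2) ^ t) =
        2 ^ (∑ j ∈ range (t + 1), (n - 1 - j)) * (Real.log 2) ^ (t + 1) := by
      rw [Finset.sum_range_succ, pow_add, pow_succ (Real.log 2)]
      have e3 : (2 : ℝ) ^ (n - 1 - t) = 2 * ((2 ^ (n - 1 - (t + 1)) : ℕ) : ℝ) := by
        rw [← Nat.cast_ofNat (R := ℝ), ← Nat.cast_pow, e1]
        push_cast
        ring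
      rw [e3]
      ring
    rw [e2] at hst
    exact hst

theorem asy_one (k n : ℕ) (hn : 3 ≤ n) (hk5 : 5 ≤ k) (hk : 2 ^ (n - 1) < k) :
    Asy k 1 n (2 ^ (n * (n - 1) / 2) * (Real.log 2) ^ (n - 2) * Real.log (9 / 5)) := by
  have h := asy_pow k n (by omega) hk (n - 2) (by omega)
  have e1 : n - 1 - (n - 2) = 1 := by omega
  have e2 : n - 2 + 1 = n - 1 := by omega
  rw [e1, e2] at h
  have hlog : 0 < Real.log 2 := Real.log_pos (by norm_num)
  have hlog9 : 0 < Real.log (9 / 5) := Real.log_pos (by norm_num)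
  have hst := step k 1 (n - 1) le_rfl (by omega) (by omega) (Real.log (9 / 5))
    (2 ^ (∑ j ∈ range (n - 2), (n - 1 - j)) * (Real.log 2) ^ (n - 2)) hlog9
    (by positivity) (cost_parity k hk5) h
  have e3 : n - 1 + 1 = n := by omega
  rw [e3] at hst
  have hsum : n * (n - 1) / 2 = (∑ j ∈ range (n - 2), (n - 1 - j)) + 1 := by
    have h1 : ∑ j ∈ range (n - 1), (n - 1 - j) = (∑ j ∈ range (n - 2), (n - 1 - j)) + 1 := by
      rw [← e2, Finset.sum_range_succ]
      congr 1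
      omega
    rw [← h1]
    have h2 : ∑ j ∈ range (n - 1), (n - 1 - j) = ∑ j ∈ range n, j := by
      have h3 := Finset.sum_range_reflect (fun j => j) n
      rw [← h3]
      have h4 : n = (n - 1) + 1 := by omega
      conv_rhs => rw [h4, Finset.sum_range_succ]
      simp only [add_tsub_cancel_right, tsub_self, add_zero]
    rw [h2, Finset.sum_range_id]
  have e4 : 2 * Real.log (9 / 5) * (2 ^ (∑ j ∈ range (n - 2), (n - 1 - j)) *
      (Real.log 2) ^ (n - 2)) =
      2 ^ (n * (n - 1) / 2) * (Real.log 2) ^ (n - 2) * Real.log (9 / 5) := by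
    rw [hsum, pow_succ]
    ring
  rw [e4] at hst
  exact hst

theorem asy_all (k : ℕ) (hk : 4 ≤ k) :
    Asy k 1 (Nat.clog 2 k) (2 ^ (Nat.clog 2 k * (Nat.clog 2 k - 1) / 2) *
      (Real.log 2) ^ (Nat.clog 2 k - 2) * Real.log (9 / 5)) := by
  rcases Nat.lt_or_ge 4 k with h | h
  · have h1 : 2 ^ (Nat.clog 2 k - 1) < k := Nat.pow_pred_clog_lt_self (by norm_num) (by omega)
    have h2 : 3 ≤ Nat.clog 2 k := by
      by_contra hcon
      push Not at hcon
      have h3 : k ≤ 2 ^ Nat.clog 2 k := Nat.le_pow_clog (by norm_num) k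
      have h4 : 2 ^ Nat.clog 2 k ≤ 2 ^ 2 := Nat.pow_le_pow_right (by norm_num) (by omega)
      omega
    exact asy_one k _ h2 h h1
  · have hk4 : k = 4 := le_antisymm h hk
    subst hk4
    have h2 : Nat.clog 2 4 = 2 := by
      have : Nat.clog 2 (2 ^ 2) = 2 := Nat.clog_pow 2 2 (by norm_num)
      exact this
    rw [h2]
    have := asy_four
    simpa only [Nat.add_one_sub_one, mul_one, Order.lt_two_iff, zero_le, Nat.div_self, pow_one, tsub_self,     pow_zero] using this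

theorem lower_all (k : ℕ) (hk : 4 ≤ k) (ε : ℝ) (hε : 0 < ε) : ∃ N₀ : ℕ, ∀ N : ℕ, N₀ ≤ N →
    ∃ A : Finset ℕ, A ⊆ Finset.Icc 1 N ∧ (∀ a d : ℕ, 0 < d → ¬ ∀ j < k, a + j * d ∈ A) ∧
      (N : ℝ) * Real.exp (-((1 + ε) * (Nat.clog 2 k) *
        ((2 ^ (Nat.clog 2 k * (Nat.clog 2 k - 1) / 2) * (Real.log 2) ^ (Nat.clog 2 k - 2) *
          Real.log (9 / 5)) * Real.log N) ^ ((1 : ℝ) / (Nat.clog 2 k)))) ≤ A.card := by
  obtain ⟨N0, hN0⟩ := asy_all k hk ε hε
  refine ⟨N0, fun N hN => ?_⟩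
  obtain ⟨A, hA, hAf, hAc⟩ := hN0 N hN
  refine ⟨A.image (fun a => a.toNat + 1), ?_, ?_, ?_⟩
  · intro x hx
    obtain ⟨a, ha, rfl⟩ := Finset.mem_image.1 hx
    have := Finset.mem_Ico.1 (hA ha)
    rw [Finset.mem_Icc]
    omega
  · intro a d hd hcon
    have hP : (C ((d : ℚ)) * X + C ((a : ℚ) - 1)).natDegree = 1 :=
      natDegree_linear (by exact_mod_cast hd.ne')
    obtain ⟨j, hj, hne⟩ := hAf _ hP
    obtain ⟨b, hb, hb'⟩ := Finset.mem_image.1 (hcon j hj)
    apply hne b hb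
    have h1 := Finset.mem_Ico.1 (hA hb)
    have h2 : b = (a : ℤ) + j * d - 1 := by
      have h3 : ((b.toNat + 1 : ℕ) : ℤ) = ((a + j * d : ℕ) : ℤ) := by rw [hb']
      push_cast at h3
      rw [Int.toNat_of_nonneg h1.1] at h3
      linarith only [h3]
    rw [eval_add, eval_mul, eval_C, eval_C, eval_X, h2]
    push_cast
    ring
  · rw [Finset.card_image_of_injOn]
    · exact hAc
    · intro x hx y hy hxy
      have h1 := Finset.mem_Ico.1 (hA (Finset.mem_coe.1 hx))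
      have h2 := Finset.mem_Ico.1 (hA (Finset.mem_coe.1 hy))
      have h3 : x.toNat + 1 = y.toNat + 1 := hxy
      omega

end Vale.Agent.P057.Lower
end
end
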